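import Crest.Agent.R248.Models

/-!
# Row 248: colimits of models, attaching cells, and contractible cones
-/

open CategoryTheory Limits Opposite Crest.GeometryTopology.Coherator
open Crest.GeometryTopology.Coherator.GlobTheory
open Crest.GeometryTopology.Coherator.GlobTheory.GlobModel

set_option backward.isDefEq.respectTransparency false

noncomputable section

namespace Crest.Agent.R248

universe u

variable {C : GlobTheory.{u}}

/-- The underlying presheaf of a model. -/
def forgetM (C : GlobTheory.{u}) : GlobModel C ⥤ (C.Obᵒᵖ ⥤ Type u) where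
  obj X := X.functor
  map f := f

instance : (forgetM C).Full := ⟨fun f => ⟨f, rfl⟩⟩
instance : (forgetM C).Faithful := ⟨fun h => h⟩

/-- The index type of the gluing squares. -/
structure GlueIdx : Type where
  S : Shape
  b : ℕ
  h : ℕ
  hb : b < S.last
  hh : b < h

/-- The comparison map from the pushout of representable presheaves. -/
def spine (C : GlobTheory.{u}) (i : GlueIdx) :
    pushout (yoneda.map (C.incl.map (i.S.hinge i.hb)))
      (yoneda.map (C.incl.map (Shape.faceMap i.hh false))) ⟶
      yoneda.obj (C.incl.obj (i.S.glue i.b i.h i.hb i.hh)) :=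
  pushout.desc (yoneda.map (C.incl.map (i.S.inLeft i.b i.h i.hb i.hh)))
    (yoneda.map (C.incl.map (i.S.inRight i.b i.h i.hb i.hh)))
    (by rw [← yoneda.map_comp, ← yoneda.map_comp, (C.respectsSums i.S i.b i.h i.hb i.hh).w])

/-- The class of comparison maps. -/
def spineW (C : GlobTheory.{u}) : MorphismProperty (C.Obᵒᵖ ⥤ Type u) :=
  MorphismProperty.ofHoms (spine C)

instance : MorphismProperty.IsSmall.{u} (spineW C) :=
  MorphismProperty.isSmall_ofHoms.{u} (spine C)

theorem spine_bij_iff (F : C.Obᵒᵖ ⥤ Type u) (i : GlueIdx) :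
    Function.Bijective (fun g : _ ⟶ F => spine C i ≫ g) ↔
    IsPullback (F.map (C.incl.map (i.S.inLeft i.b i.h i.hb i.hh)).op)
      (F.map (C.incl.map (i.S.inRight i.b i.h i.hb i.hh)).op)
      (F.map (C.incl.map (i.S.hinge i.hb)).op)
      (F.map (C.incl.map (Shape.faceMap i.hh false)).op) := by
  have hl : ∀ x, pushout.inl _ _ ≫ spine C i ≫ yonedaEquiv.symm x = yonedaEquiv.symm
      (F.map (C.incl.map (i.S.inLeft i.b i.h i.hb i.hh)).op x) := fun x => by
    rw [spine, pushout.inl_desc_assoc, yonedaEquiv_symm_naturality_left]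
  have hr : ∀ x, pushout.inr _ _ ≫ spine C i ≫ yonedaEquiv.symm x = yonedaEquiv.symm
      (F.map (C.incl.map (i.S.inRight i.b i.h i.hb i.hh)).op x) := fun x => by
    rw [spine, pushout.inr_desc_assoc, yonedaEquiv_symm_naturality_left]
  rw [Types.isPullback_iff]
  constructor
  · intro H
    refine ⟨?_, fun x y h => yonedaEquiv.symm.injective (H.1 ?_), fun x y h => ?_⟩
    · rw [← F.map_comp, ← F.map_comp, ← op_comp, ← op_comp,
        (C.respectsSums i.S i.b i.h i.hb i.hh).w]
    · exact pushout.hom_ext (by rw [hl, hl, h.1]) (by rw [hr, hr, h.2])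
    · obtain ⟨g, hg⟩ := H.2 (pushout.desc (yonedaEquiv.symm x) (yonedaEquiv.symm y) (by
        rw [yonedaEquiv_symm_naturality_left, yonedaEquiv_symm_naturality_left, h]))
      obtain ⟨z, rfl⟩ := yonedaEquiv.symm.surjective g
      dsimp only at hg
      refine ⟨z, yonedaEquiv.symm.injective ?_, yonedaEquiv.symm.injective ?_⟩
      · rw [← hl, hg, pushout.inl_desc]
      · rw [← hr, hg, pushout.inr_desc]
  · rintro ⟨-, h1, h2⟩
    refine ⟨fun g g' h => ?_, fun g => ?_⟩
    · obtain ⟨z, rfl⟩ := yonedaEquiv.symm.surjective g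
      obtain ⟨z', rfl⟩ := yonedaEquiv.symm.surjective g'
      dsimp only at h
      rw [h1 z z' ⟨yonedaEquiv.symm.injective (by rw [← hl, ← hl, h]),
        yonedaEquiv.symm.injective (by rw [← hr, ← hr, h])⟩]
    · obtain ⟨x, hx⟩ := yonedaEquiv.symm.surjective (pushout.inl _ _ ≫ g)
      obtain ⟨y, hy⟩ := yonedaEquiv.symm.surjective (pushout.inr _ _ ≫ g)
      obtain ⟨z, hz1, hz2⟩ := h2 x y (yonedaEquiv.symm.injective (by
        rw [← yonedaEquiv_symm_naturality_left, ← yonedaEquiv_symm_naturality_left, hx, hy,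
          pushout.condition_assoc]))
      exact ⟨yonedaEquiv.symm z, pushout.hom_ext (by rw [hl, hz1, hx]) (by rw [hr, hz2, hy])⟩

theorem isLocal_model (M : GlobModel C) : (spineW C).isLocal M.functor := by
  intro A B f hf
  obtain ⟨i⟩ := hf
  exact (spine_bij_iff _ i).mpr (M.sums i.S i.b i.h i.hb i.hh)

/-- The model given by a local presheaf. -/
def modelOfLocal (F : C.Obᵒᵖ ⥤ Type u) (h : (spineW C).isLocal F) : GlobModel C where
  functor := F
  sums S b h' hb hh := (spine_bij_iff F ⟨S, b, h', hb, hh⟩).mp (h _ ⟨_⟩)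

instance : Fact (Cardinal.aleph0.{u}).IsRegular := ⟨Cardinal.isRegular_aleph0⟩

instance (S : C.Ob) : IsCardinalPresentable (yoneda.obj S) Cardinal.aleph0.{u} where
  preservesColimitOfShape J _ _ := by
    let e : coyoneda.obj (op (yoneda.obj S)) ≅ (evaluation _ _).obj (op S) :=
      NatIso.ofComponents (fun P => Equiv.toIso (yonedaEquiv (X := S) (F := P))) (fun _ => rfl)
    exact preservesColimitsOfShape_of_natIso e.symm

theorem spineW_presentable ⦃X Y : C.Obᵒᵖ ⥤ Type u⦄ (f : X ⟶ Y) (hf : spineW C f) :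
    IsCardinalPresentable X Cardinal.aleph0.{u} ∧ IsCardinalPresentable Y Cardinal.aleph0.{u} := by
  obtain ⟨i⟩ := hf
  refine ⟨?_, inferInstance⟩
  have : ∀ k, IsCardinalPresentable ((span (yoneda.map (C.incl.map (i.S.hinge i.hb)))
      (yoneda.map (C.incl.map (Shape.faceMap i.hh false)))).obj k) Cardinal.aleph0.{u} := by
    rintro (_ | _ | _) <;> dsimp <;> infer_instance
  exact isCardinalPresentable_of_isColimit' _ (colimit.isColimit _) _
    (hasCardinalLT_of_finite _ _ le_rfl)

/-- Models as local presheaves. -/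
def toLocal (C : GlobTheory.{u}) : GlobModel C ⥤ (spineW C).isLocal.FullSubcategory :=
  ObjectProperty.lift _ (forgetM C) isLocal_model

instance : (toLocal C).IsEquivalence where
  faithful := by unfold toLocal; infer_instance
  full := by unfold toLocal; infer_instance
  essSurj := ⟨fun F => ⟨modelOfLocal F.obj F.property, ⟨Iso.refl _⟩⟩⟩

instance : (forgetM C).IsRightAdjoint := by
  have := MorphismProperty.isRightAdjoint_ι_isLocal (spineW C) Cardinal.aleph0.{u}
    spineW_presentable
  exact inferInstanceAs (toLocal C ⋙ (spineW C).isLocal.ι).IsRightAdjoint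

instance : Reflective (forgetM C) where
  L := (forgetM C).leftAdjoint
  adj := Adjunction.ofIsRightAdjoint _

/-- The category of models is cocomplete (a reflective subcategory of presheaves). -/
instance hasColimits_model (C : GlobTheory.{u}) : HasColimitsOfSize.{u, u} (GlobModel C) :=
  hasColimits_of_reflective (forgetM C)

instance hasColimits_model_zero (C : GlobTheory.{u}) : HasColimitsOfSize.{0, 0} (GlobModel C) :=
  hasColimitsOfSizeShrink.{0, 0, u, u} _

example : HasPushouts (GlobModel C) := inferInstance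
example : HasInitial (GlobModel C) := inferInstance

/-- One side of the boundary of a disk. -/
def bdM (C : GlobTheory.{u}) : ℕ → GlobModel C
  | 0 => ⊥_ _
  | n + 1 => freeOn C (Shape.globe n)

/-- The inclusion of one side of the boundary. -/
def bdι (C : GlobTheory.{u}) (e : Bool) : ∀ n, bdM C n ⟶ freeOn C (Shape.globe n)
  | 0 => initial.to _
  | n + 1 => freeMap (C.ofShape (Shape.faceMap (Nat.lt_succ_self n) e))

/-- One side of a sphere. -/
def bdS {X : GlobModel C} (e : Bool) : ∀ n, Sph X n → (bdM C n ⟶ X)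
  | 0, _ => initial.to _
  | n + 1, s => yon (S := Shape.globe n) (cond e s.1.2 s.1.1)

theorem bdS_comp {X Y : GlobModel C} (e : Bool) (n : ℕ) (s : Sph X n) (g : X ⟶ Y) :
    bdS e n s ≫ g = bdS e n (sphMap g n s) := by
  cases n with
  | zero => exact initial.hom_ext _ _
  | succ n => cases e <;> exact yon_comp _ _

theorem bd_eq_iff_bdS {X : GlobModel C} (n : ℕ) (w : At X (Shape.globe n)) (s : Sph X n) :
    bd X n w = s ↔ ∀ e, bdι C e n ≫ yon w = bdS e n s := by
  cases n with
  | zero => exact ⟨fun _ _ => initial.hom_ext _ _, fun _ => rfl⟩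
  | succ n =>
    rw [bd_eq_iff]
    constructor
    · rintro ⟨h1, h2⟩ e
      cases e
      · exact (freeMap_yon _ _).trans (congrArg yon h1)
      · exact (freeMap_yon _ _).trans (congrArg yon h2)
    · intro h
      exact ⟨yon_injective ((freeMap_yon _ _).symm.trans (h false)),
        yon_injective ((freeMap_yon _ _).symm.trans (h true))⟩

/-- Cells can be attached along any family of spheres. -/
theorem exists_attach (X : GlobModel C) {ι : Type u} (dm : ι → ℕ) (s : ∀ k, Sph X (dm k)) :
    ∃ (Y : GlobModel C) (j : X ⟶ Y) (z : ∀ k, At Y (Shape.globe (dm k))), IsAtt j s z := by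
  let a : (∐ fun p : ι × Bool => bdM C (dm p.1)) ⟶ X := Sigma.desc fun p => bdS p.2 _ (s p.1)
  let b : (∐ fun p : ι × Bool => bdM C (dm p.1)) ⟶ ∐ fun k => freeOn C (Shape.globe (dm k)) :=
    Sigma.desc fun p => bdι C p.2 _ ≫ Sigma.ι (fun k => freeOn C (Shape.globe (dm k))) p.1
  refine ⟨pushout a b, pushout.inl a b, fun k => app (Sigma.ι
    (fun k => freeOn C (Shape.globe (dm k))) k ≫ pushout.inr a b) _ (C.one _), fun k => ?_,
    fun Z g w hw => ?_, fun Z h h' h1 h2 => ?_⟩
  · rw [bd_eq_iff_bdS]
    intro e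
    rw [yon_app_one, ← bdS_comp]
    have := Sigma.ι (fun p : ι × Bool => bdM C (dm p.1)) (k, e) ≫= pushout.condition (f := a) (g := b)
    rw [Sigma.ι_desc_assoc, Sigma.ι_desc_assoc, Category.assoc] at this
    exact this.symm
  · refine ⟨pushout.desc g (Sigma.desc fun k => yon (w k)) (Sigma.hom_ext _ _ fun p => ?_),
      pushout.inl_desc _ _ _, fun k => ?_⟩
    · rw [Sigma.ι_desc_assoc, Sigma.ι_desc_assoc, Category.assoc, Sigma.ι_desc, bdS_comp]
      exact ((bd_eq_iff_bdS _ _ _).mp (hw p.1) p.2).symm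
    · rw [← app_comp, Category.assoc, pushout.inr_desc, Sigma.ι_desc, app_yon_one]
  · refine pushout.hom_ext h1 (Sigma.hom_ext _ _ fun k => free_hom_ext ?_)
    exact h2 k

/-- Sequential colimits of models are computed pointwise. -/
theorem exists_seqColim (F : ℕ ⥤ GlobModel C) : ∃ c : Cocone F, Nonempty (IsColimit c) ∧
    (∀ S (x : At c.pt S), ∃ n y, app (c.ι.app n) S y = x) ∧
    ∀ S n (x y : At (F.obj n) S), app (c.ι.app n) S x = app (c.ι.app n) S y →
      ∃ (m : ℕ) (f : n ⟶ m), app (F.map f) S x = app (F.map f) S y := by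
  have : IsCardinalFiltered ℕ Cardinal.aleph0.{u} :=
    (isCardinalFiltered_aleph0_iff.{u} ℕ).mpr inferInstance
  have := MorphismProperty.isClosedUnderColimitsOfShape_isLocal.{u} (spineW C) ℕ
    Cardinal.aleph0.{u} spineW_presentable
  have hl := (spineW C).isLocal.prop_colimit (F ⋙ forgetM C) (fun n => isLocal_model _)
  let c : Cocone F := ⟨modelOfLocal _ hl,
    { app := fun n => colimit.ι (F ⋙ forgetM C) n
      naturality := fun n m f => (colimit.w (F ⋙ forgetM C) f).trans (Category.comp_id _).symm }⟩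
  have hc : IsColimit ((forgetM C).mapCocone c) := colimit.isColimit (F ⋙ forgetM C)
  have hS := fun S : Shape =>
    isColimitOfPreserves ((evaluation _ _).obj (op (⟨S⟩ : C.Ob))) hc
  exact ⟨c, ⟨isColimitOfReflects (forgetM C) hc⟩,
    fun S x => Types.jointly_surjective_of_isColimit (hS S) x,
    fun S n x y h => (Types.FilteredColimit.isColimit_eq_iff' (hS S) x y).mp h⟩

/-- Every model has a cofibration to a contractible model. -/
theorem exists_cone (X : GlobModel C) : ∃ (K : GlobModel C) (j : X ⟶ K), Cof j ∧ Contr K := by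
  have step : ∀ X : GlobModel C, ∃ (Y : GlobModel C) (j : X ⟶ Y), Cof j ∧
      ∀ n (s : Sph X n), ∃ y, bd Y n y = sphMap j n s := by
    intro X
    obtain ⟨Y, j, z, H⟩ := exists_attach X (ι := Σ n, Sph X n) (fun p => p.1) (fun p => p.2)
    exact ⟨Y, j, H.cof, fun n s => ⟨z ⟨n, s⟩, H.bdry ⟨n, s⟩⟩⟩
  choose Y j hj hs using step
  let K : ℕ → GlobModel C := fun n => Nat.rec X (fun _ Z => Y Z) n
  let F : ℕ ⥤ GlobModel C := Functor.ofSequence (X := K) (fun n => j (K n))
  have hF : ∀ n, F.map (homOfLE (Nat.le_add_right n 1)) = j (K n) :=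
    Functor.ofSequence_map_homOfLE_succ _
  obtain ⟨c, ⟨hc⟩, h1, h2⟩ := exists_seqColim F
  refine ⟨c.pt, c.ι.app 0, ?_, fun n s => ?_⟩
  · exact (TFib (C := C)).llp.transfiniteCompositionsOfShape_le ℕ _
      ⟨{ F := F
         isoBot := Iso.refl _
         incl := c.ι
         isColimit := hc
         fac := Category.id_comp _
         map_mem := fun n _ => (hF n).symm ▸ hj (K n) }⟩
  · have w : ∀ {a b : ℕ} (f : a ⟶ b) S x, app (c.ι.app b) S (app (F.map f) S x) =
        app (c.ι.app a) S x := fun f S x => app_congr (c.w f) S x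
    suffices H : ∃ m, ∃ t : Sph (F.obj m) n, sphMap (c.ι.app m) n t = s by
      obtain ⟨m, t, rfl⟩ := H
      obtain ⟨y, hy⟩ := hs (K m) n t
      refine ⟨app (c.ι.app (m + 1)) _ y, (bd_app _ _ _).trans ?_⟩
      rw [← c.w (homOfLE (Nat.le_add_right m 1)), sphMap_comp, hF]
      exact congrArg _ hy
    cases n with
    | zero => exact ⟨0, PUnit.unit, rfl⟩
    | succ n =>
      obtain ⟨m, a, b, ha, hb⟩ : ∃ m a b, app (c.ι.app m) (Shape.globe n) a = s.1.1 ∧
          app (c.ι.app m) (Shape.globe n) b = s.1.2 := by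
        obtain ⟨m, a, ha⟩ := h1 (Shape.globe n) s.1.1
        obtain ⟨m', b, hb⟩ := h1 (Shape.globe n) s.1.2
        exact ⟨max m m', app (F.map (homOfLE (le_max_left m m'))) _ a,
          app (F.map (homOfLE (le_max_right m m'))) _ b, by rw [w, ha], by rw [w, hb]⟩
      suffices H : ∃ (k : ℕ) (f : m ⟶ k), Par _ n (app (F.map f) _ a) (app (F.map f) _ b) by
        obtain ⟨k, f, H⟩ := H
        exact ⟨k, mkSph _ _ H, sph_ext ((w f _ a).trans ha) ((w f _ b).trans hb)⟩
      have hp : Par c.pt n s.1.1 s.1.2 := s.2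
      rw [← ha, ← hb] at hp
      cases n with
      | zero => exact ⟨m, 𝟙 _, trivial⟩
      | succ n =>
        obtain ⟨k, f, hf⟩ := h2 _ m (src _ a) (src _ b) (by rw [app_res, app_res]; exact hp.1)
        obtain ⟨k', f', hf'⟩ := h2 _ m (tgt _ a) (tgt _ b) (by rw [app_res, app_res]; exact hp.2)
        refine ⟨max k k', f ≫ homOfLE (le_max_left k k'), ?_, ?_⟩
        · change src _ _ = src _ _
          rw [src, src, ← app_res, ← app_res, F.map_comp, app_comp, app_comp, hf]
        · change tgt _ _ = tgt _ _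
          rw [tgt, tgt, ← app_res, ← app_res, Subsingleton.elim (f ≫ _)
            (f' ≫ homOfLE (le_max_right k k')), F.map_comp, app_comp, app_comp, hf']

end Crest.Agent.R248
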