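import Crest.Agent.R248.Models

/-!
# Row 248: free models are cofibrant, submodels, and lemmas on weak equivalences
-/

open CategoryTheory Limits Opposite Crest.GeometryTopology.Coherator
open Crest.GeometryTopology.Coherator.GlobTheory
open Crest.GeometryTopology.Coherator.GlobTheory.GlobModel

set_option backward.isDefEq.respectTransparency false

noncomputable section

namespace Crest.Agent.R248

universe u v w

variable {C : GlobTheory.{u}}

section FreeCof

variable {E B : GlobModel C}

/-- Lifting a cell whose face on one side has been lifted already. -/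
theorem TFib.lift_face {p : E ⟶ B} (hp : TFib p) {k n : ℕ} (h : k < n) (e : Bool)
    (a : At E (Shape.globe k)) (z : At B (Shape.globe n))
    (w : res B (Shape.faceMap h e) z = app p _ a) :
    ∃ y : At E (Shape.globe n), res E (Shape.faceMap h e) y = a ∧ app p _ y = z := by
  -- one step
  have one : ∀ (k : ℕ) (e : Bool) (a : At E (Shape.globe k)) (z : At B (Shape.globe (k + 1))),
      res B (Shape.faceMap (Nat.lt_succ_self k) e) z = app p _ a →
      ∃ y : At E (Shape.globe (k + 1)), res E (Shape.faceMap (Nat.lt_succ_self k) e) y = a ∧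
        app p _ y = z := by
    intro k e a z w
    cases e with
    | false =>
      obtain ⟨a', h1, h2⟩ := hp k (bd E k a) (tgt B z) (by
        rw [← bd_app, ← w]; exact bd_eq_bd_iff.mpr (par_symm (par_src_tgt z)))
      obtain ⟨y, hy1, -, hy3⟩ := hp.lift_succ (bd_eq_bd_iff.mp h1.symm) z w h2.symm
      exact ⟨y, hy1, hy3⟩
    | true =>
      obtain ⟨a', h1, h2⟩ := hp k (bd E k a) (src B z) (by
        rw [← bd_app, ← w]; exact bd_eq_bd_iff.mpr (par_src_tgt z))
      obtain ⟨y, -, hy2, hy3⟩ := hp.lift_succ (bd_eq_bd_iff.mp h1) z h2.symm w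
      exact ⟨y, hy2, hy3⟩
  induction n with
  | zero => exact absurd h (Nat.not_lt_zero _)
  | succ n ih =>
    rcases Nat.lt_succ_iff_lt_or_eq.mp h with h' | rfl
    · obtain ⟨y, hy1, hy2⟩ := ih h' (src B z) (by
        rw [← w, ← res_comp, σ_eq, faceMap_comp])
      obtain ⟨y', h1, h2⟩ := one n false y z hy2.symm
      refine ⟨y', ?_, h2⟩
      rw [← faceMap_comp h' (Nat.lt_succ_self n) e false, res_comp, h1, hy1]
    · exact one k e a z w

theorem TFib.lift_cell {p : E ⟶ B} (hp : TFib p) {n : ℕ} (z : At B (Shape.globe n)) :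
    ∃ y, app p _ y = z := by
  rcases Nat.eq_zero_or_pos n with rfl | h
  · exact hp.lift_zero z
  · obtain ⟨a, ha⟩ := hp.lift_zero (res B (Shape.faceMap h false) z)
    obtain ⟨y, -, hy⟩ := hp.lift_face h false a z ha.symm
    exact ⟨y, hy⟩

theorem TFib.lift_at {p : E ⟶ B} (hp : TFib p) {S : Shape} (z : At B S) :
    ∃ y, app p _ y = z := by
  induction S using shape_induction with
  | hg n => exact hp.lift_cell z
  | hs S b h hb hh ih =>
    obtain ⟨x, hx⟩ := ih (res B (S.inLeft b h hb hh) z)
    obtain ⟨y, hy1, hy2⟩ := hp.lift_face hh false (res E (S.hinge hb) x)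
      (res B (S.inRight b h hb hh) z) (by
        rw [app_res, hx, ← res_comp, ← res_comp, hinge_inLeft])
    obtain ⟨w, hw1, hw2⟩ := exists_glue hb hh x y hy1.symm
    exact ⟨w, glue_ext (by rw [← app_res, hw1, hx]) (by rw [← app_res, hw2, hy2])⟩

theorem cofibrant_free (S : Shape) : Cofibrant (freeOn C S) := by
  intro E B p hp x
  obtain ⟨y, hy⟩ := hp.lift_at (app x S (C.one S))
  exact ⟨yon y, by rw [yon_comp, hy, yon_app_one]⟩

theorem cof_face {k n : ℕ} (h : k < n) (e : Bool) :
    Cof (freeMap (C.ofShape (Shape.faceMap h e))) := by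
  refine cof_iff.mpr fun E B p hp g x w => ?_
  obtain ⟨y, hy1, hy2⟩ := hp.lift_face h e (app g _ (C.one _)) (app x _ (C.one _)) (by
    have := app_congr w _ (C.one _)
    rw [app_comp, app_comp, app_freeMap, C.one_seq] at this
    rw [this, ← app_res, free_res, C.seq_one])
  refine ⟨yon y, ?_, ?_⟩
  · rw [freeMap_yon, act_ofShape, hy1, yon_app_one]
  · rw [yon_comp, hy2, yon_app_one]

end FreeCof

/-- A submodel: a family of subsets closed under the operations and under gluing. -/
structure IsSub (X : GlobModel C) (Z : ∀ S, At X S → Prop) : Prop where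
  act : ∀ {S T : Shape} (o : C.arr S T) {x : At X T}, Z T x → Z S (X.act o x)
  glue : ∀ (S : Shape) (b h : ℕ) (hb : b < S.last) (hh : b < h) (x : At X (S.glue b h hb hh)),
    Z _ (res X (S.inLeft b h hb hh) x) → Z _ (res X (S.inRight b h hb hh) x) → Z _ x

namespace IsSub

variable {X : GlobModel C} {Z : ∀ S, At X S → Prop}

/-- The model underlying a submodel. -/
def model (h : IsSub X Z) : GlobModel C :=
  mkModel (fun S => {x : At X S // Z S x}) (fun o x => ⟨X.act o x.1, h.act o x.2⟩)
    (fun _ x => Subtype.ext (act_one x.1)) (fun o o' x => Subtype.ext (act_seq o o' x.1))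
    (fun _ _ _ _ _ _ _ h1 h2 => Subtype.ext
      (glue_ext (congrArg Subtype.val h1) (congrArg Subtype.val h2)))
    (fun S b k hb hh x y w => by
      obtain ⟨z, h1, h2⟩ := exists_glue hb hh x.1 y.1 (congrArg Subtype.val w)
      exact ⟨⟨z, h.glue S b k hb hh z (h1 ▸ x.2) (h2 ▸ y.2)⟩, Subtype.ext h1, Subtype.ext h2⟩)

/-- The inclusion of a submodel. -/
def ι (h : IsSub X Z) : h.model ⟶ X := homMk (fun _ x => x.1) (fun _ _ _ _ => rfl)

/-- A map landing in a submodel. -/
def lift (h : IsSub X Z) {A : GlobModel C} (f : A ⟶ X) (hf : ∀ S a, Z S (app f S a)) :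
    A ⟶ h.model :=
  homMk (fun S a => ⟨app f S a, hf S a⟩) (fun _ _ o a => Subtype.ext (app_act f o a))

theorem lift_ι (h : IsSub X Z) {A : GlobModel C} (f : A ⟶ X) (hf : ∀ S a, Z S (app f S a)) :
    h.lift f hf ≫ h.ι = f := rfl

/-- A submodel of a pushout containing both images is everything. -/
theorem of_isPushout {A B A' P : GlobModel C} {f : B ⟶ A} {g : B ⟶ A'} {i : A ⟶ P} {j : A' ⟶ P}
    (sq : IsPushout f g i j) {Z : ∀ S, At P S → Prop} (h : IsSub P Z)
    (hi : ∀ S a, Z S (app i S a)) (hj : ∀ S a, Z S (app j S a)) (S : Shape) (x : At P S) :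
    Z S x := by
  have w : f ≫ h.lift i hi = g ≫ h.lift j hj :=
    model_hom_ext fun S b => Subtype.ext (app_congr sq.w S b)
  have e : sq.desc _ _ w ≫ h.ι = 𝟙 P := sq.hom_ext
    (by rw [sq.inl_desc_assoc, lift_ι, Category.comp_id])
    (by rw [sq.inr_desc_assoc, lift_ι, Category.comp_id])
  have := (app (sq.desc _ _ w) S x).2
  have e' : (app (sq.desc _ _ w) S x).1 = x := app_congr e S x
  rwa [e'] at this

end IsSub

section Weq

variable {X Y Z W : GlobModel C} (e : C.UnitChoice)

theorem componentsMap_comp (f : X ⟶ Y) (g : Y ⟶ Z) :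
    componentsMap (f ≫ g) = componentsMap g ∘ componentsMap f := by
  funext x
  induction x using Quot.ind
  rfl

theorem homotopyMap_comp (f : X ⟶ Y) (g : Y ⟶ Z) (x : X.cells.cell 0) (n : ℕ) :
    homotopyMap (f ≫ g) e x n =
      homotopyMap g e ((cellsMap f).app 0 x) n ∘ homotopyMap f e x n := by
  funext z
  induction z using Quot.ind
  rfl

theorem isWeakEquiv_id (X : GlobModel C) : IsWeakEquiv e (𝟙 X) := by
  constructor
  · have : componentsMap (𝟙 X) = id := by
      funext x
      induction x using Quot.ind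
      rfl
    rw [this]
    exact Function.bijective_id
  · intro x n
    have : homotopyMap (𝟙 X) e x n = id := by
      funext z
      induction z using Quot.ind
      rfl
    rw [this]
    exact Function.bijective_id

variable {e}

theorem isWeakEquiv_comp {f : X ⟶ Y} {g : Y ⟶ Z} (hf : IsWeakEquiv e f) (hg : IsWeakEquiv e g) :
    IsWeakEquiv e (f ≫ g) := by
  constructor
  · rw [componentsMap_comp]; exact hg.1.comp hf.1
  · intro x n
    rw [homotopyMap_comp]; exact (hg.2 _ n).comp (hf.2 x n)

theorem isWeakEquiv_of_comp {f : X ⟶ Y} {g : Y ⟶ Z} (hg : IsWeakEquiv e g)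
    (hfg : IsWeakEquiv e (f ≫ g)) : IsWeakEquiv e f := by
  constructor
  · have := hfg.1
    rw [componentsMap_comp] at this
    exact (Function.Bijective.of_comp_iff' hg.1 _).mp this
  · intro x n
    have := hfg.2 x n
    rw [homotopyMap_comp] at this
    exact (Function.Bijective.of_comp_iff' (hg.2 _ n) _).mp this

theorem bijective_of_two_six {α β γ δ : Type*} {f : α → β} {g : β → γ} {h : γ → δ}
    (h1 : Function.Bijective (g ∘ f)) (h2 : Function.Bijective (h ∘ g)) : Function.Bijective f :=
  (Function.Bijective.of_comp_iff' ⟨h2.1.of_comp, h1.2.of_comp⟩ _).mp h1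

theorem isWeakEquiv_of_two_six {f : X ⟶ Y} {g : Y ⟶ Z} {h : Z ⟶ W}
    (h1 : IsWeakEquiv e (f ≫ g)) (h2 : IsWeakEquiv e (g ≫ h)) : IsWeakEquiv e f := by
  constructor
  · have a := h1.1
    have b := h2.1
    rw [componentsMap_comp] at a b
    exact bijective_of_two_six a b
  · intro x n
    have a := h1.2 x n
    have b := h2.2 ((cellsMap f).app 0 x) n
    rw [homotopyMap_comp] at a b
    exact bijective_of_two_six a b

theorem bijective_quot_map {α β : Type*} {r : α → α → Prop} {s : β → β → Prop} (f : α → β)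
    (hf : ∀ a b, r a b → s (f a) (f b)) (surj : Function.Surjective f)
    (same : ∀ a b, f a = f b → Quot.mk r a = Quot.mk r b)
    (lift : ∀ a b, s (f a) (f b) → r a b) : Function.Bijective (Quot.map f hf) := by
  constructor
  · choose g hg using surj
    have key : ∀ a, Quot.lift (fun b => Quot.mk r (g b))
        (fun b b' h => Quot.sound (lift _ _ (by rwa [hg, hg]))) (Quot.map f hf a) = a := by
      intro a
      induction a using Quot.ind with
      | mk a => exact same _ _ (hg _)
    exact Function.LeftInverse.injective key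
  · intro b
    induction b using Quot.ind with
    | mk b =>
      obtain ⟨a, rfl⟩ := surj b
      exact ⟨Quot.mk _ a, rfl⟩

theorem src_unitCell (X : GlobModel C) (e : C.UnitChoice) (n : ℕ) (x : At X (Shape.globe n)) :
    src X (X.unitCell e n x) = x := by
  change res X _ (X.act _ x) = x
  rw [res_act, e.src_unit, act_one]

theorem tgt_unitCell (X : GlobModel C) (e : C.UnitChoice) (n : ℕ) (x : At X (Shape.globe n)) :
    tgt X (X.unitCell e n x) = x := by
  change res X _ (X.act _ x) = x
  rw [res_act, e.tgt_unit, act_one]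

theorem app_unitCell (f : X ⟶ Y) (e : C.UnitChoice) (n : ℕ) (x : At X (Shape.globe n)) :
    app f _ (X.unitCell e n x) = Y.unitCell e n (app f _ x) := app_act f _ x

theorem app_basePoint (f : X ⟶ Y) (e : C.UnitChoice) (x : At X (Shape.globe 0)) (n : ℕ) :
    app f _ (X.basePoint e x n) = Y.basePoint e (app f _ x) n := by
  induction n with
  | zero => rfl
  | succ n ih => exact (app_unitCell f e n _).trans (congrArg _ ih)

theorem TFib.isWeakEquiv {p : X ⟶ Y} (hp : TFib p) (e : C.UnitChoice) : IsWeakEquiv e p := by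
  have step : ∀ n (a b : At X (Shape.globe n)), Par X n a b →
      Y.cells.Step n (app p _ a) (app p _ b) → X.cells.Step n a b := by
    rintro n a b hab ⟨z, h1, h2⟩
    obtain ⟨y, hy1, hy2, -⟩ := hp.lift_succ hab z h1 h2
    exact ⟨y, hy1, hy2⟩
  have refl : ∀ n (a : At Y (Shape.globe n)), Y.cells.Step n a a := fun n a =>
    ⟨Y.unitCell e n a, src_unitCell Y e n a, tgt_unitCell Y e n a⟩
  constructor
  · refine bijective_quot_map _ _ hp.lift_zero (fun a b h => Quot.sound (step 0 a b trivial ?_))
      (fun a b h => step 0 a b trivial h)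
    rw [show app p _ a = app p _ b from h]; exact refl _ _
  · intro x n
    have par : ∀ a b : X.LoopsAt e x n, Par X (n + 1) a.1 b.1 := fun a b =>
      ⟨a.2.1.trans b.2.1.symm, a.2.2.trans b.2.2.symm⟩
    refine bijective_quot_map _ _ (fun z => ?_)
      (fun a b h => Quot.sound (step _ _ _ (par a b) ?_)) (fun a b h => step _ _ _ (par a b) h)
    · obtain ⟨y, h1, h2, h3⟩ := hp.lift_succ (par_refl (X.basePoint e x n)) z.1
        (z.2.1.trans (app_basePoint p e x n).symm) (z.2.2.trans (app_basePoint p e x n).symm)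
      exact ⟨⟨y, h1, h2⟩, Subtype.ext h3⟩
    · rw [show app p _ a.1 = app p _ b.1 from congrArg Subtype.val h]; exact refl _ _

end Weq

end Crest.Agent.R248
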