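import Crest.Agent.R248.Lift
import Crest.Agent.R248.Weq

/-!
# Row 248: free models on shapes over a coherator are contractible

Also: the operations from the point are the vertices, and being joined by a cell is an
equivalence relation.
-/

open CategoryTheory Limits Opposite Crest.GeometryTopology.Coherator
open Crest.GeometryTopology.Coherator.GlobTheory
open Crest.GeometryTopology.Coherator.GlobTheory.GlobModel

set_option backward.isDefEq.respectTransparency false

noncomputable section

namespace Crest.Agent.R248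

universe u v w

variable {C : GlobTheory.{u}}

/-- A chosen tower of a coherator. -/
def tower (hC : C.IsCoheratorTheory) : C.Tower := hC.1.some

theorem fill_adm (hC : C.IsCoheratorTheory) {n : ℕ} {S : Shape} (hd : S.dim ≤ n + 1)
    (f g : C.arr (Shape.globe n) S) (h : Par (freeOn C S) n f g) :
    ∃ z : C.arr (Shape.globe (n + 1)) S, C.seq (C.ofShape (Shape.σ n)) z = f ∧
      C.seq (C.ofShape (Shape.τ n)) z = g := by
  refine hC.2 ⟨n, S, hd, f, g, ?_⟩
  cases n with
  | zero => trivial
  | succ n => exact h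

theorem exists_unitChoice (hC : C.IsCoheratorTheory) : Nonempty C.UnitChoice := by
  have : ∀ n, ∃ z : C.arr (Shape.globe (n + 1)) (Shape.globe n),
      C.seq (C.ofShape (Shape.σ n)) z = C.one _ ∧ C.seq (C.ofShape (Shape.τ n)) z = C.one _ :=
    fun n => fill_adm hC (by simp) _ _ (par_refl (X := freeOn C (Shape.globe n)) _)
  choose z hz using this
  exact ⟨⟨z, fun n => (hz n).1, fun n => (hz n).2⟩⟩

/-- Iterated units: a common retraction of the two faces. -/
theorem exists_retraction (hC : C.IsCoheratorTheory) {b h : ℕ} (hh : b < h) :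
    ∃ ρ : C.arr (Shape.globe h) (Shape.globe b),
      ∀ e, C.seq (C.ofShape (Shape.faceMap hh e)) ρ = C.one _ := by
  obtain ⟨u⟩ := exists_unitChoice hC
  have one : ∀ n e, C.seq (C.ofShape (Shape.faceMap (Nat.lt_succ_self n) e)) (u.unit n) =
      C.one _ := fun n e => by
    cases e
    · exact u.src_unit n
    · exact u.tgt_unit n
  induction h with
  | zero => exact absurd hh (Nat.not_lt_zero _)
  | succ h ih =>
    rcases Nat.lt_succ_iff_lt_or_eq.mp hh with h' | rfl
    · obtain ⟨ρ, hρ⟩ := ih h'
      refine ⟨C.seq (u.unit h) ρ, fun e => ?_⟩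
      rw [← faceMap_comp h' (Nat.lt_succ_self h) e false, C.ofShape_comp, C.seq_assoc,
        ← C.seq_assoc _ (u.unit h), one, C.one_seq, hρ]
    · exact ⟨u.unit b, one b⟩

/-- Two elements at a shape agree on the cells of dimension at most `n`. -/
def AgreeLe (X : GlobModel C) (n : ℕ) {S : Shape} (x y : At X S) : Prop :=
  ∀ k, k ≤ n → ∀ c : Cell k S, res X c x = res X c y

/-- Low-dimensional cells of the result of an operation only depend on low-dimensional cells of
its argument. -/
theorem agreeLe_act (T : C.Tower) (X : GlobModel C) (n : ℕ) {S U : Shape} (φ : C.arr S U)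
    {x y : At X U} (h : AgreeLe X n x y) : AgreeLe X n (X.act φ x) (X.act φ y) := by
  revert x y
  refine op_induction T (fun {S U} φ => ∀ {x y : At X U}, AgreeLe X n x y →
    AgreeLe X n (X.act φ x) (X.act φ y)) ?_ ?_ ?_ ?_ φ
  · intro S U f x y h k hk c
    rw [act_ofShape, act_ofShape, ← res_comp, ← res_comp]
    exact h k hk _
  · intro S U V φ ψ h1 h2 x y h
    rw [act_seq, act_seq]
    exact h1 (h2 h)
  · intro S b h hb hh U φ h1 h2 x y H k hk c
    rcases cell_glue_cases c with ⟨c', rfl⟩ | ⟨c', rfl⟩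
    · have := h1 H k hk c'
      rwa [act_seq, act_seq, act_ofShape, act_ofShape, ← res_comp, ← res_comp] at this
    · have := h2 H k hk c'
      rwa [act_seq, act_seq, act_ofShape, act_ofShape, ← res_comp, ← res_comp] at this
  · intro m g h1 h2 x y H k hk c
    by_cases hm : m + 1 ≤ n
    · rw [at_ext (x := x) (y := y) fun k c => H k ((cell_le_dim c).trans (g.dim_le.trans hm)) c]
    · obtain ⟨e, rfl⟩ := cell_globe_lt (by omega : k < m + 1) c
      rcases Nat.lt_succ_iff_lt_or_eq.mp (by omega : k < m + 1) with h' | rfl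
      · have := h1 H k hk (Shape.faceMap h' e)
        rwa [act_seq, act_seq, act_ofShape, act_ofShape, ← res_comp, ← res_comp, σ_eq,
          faceMap_comp] at this
      · cases e
        · have := h1 H k hk (𝟙 _)
          rwa [res_id, res_id, act_seq, act_seq] at this
        · have := h2 H k hk (𝟙 _)
          rwa [res_id, res_id, act_seq, act_seq] at this

theorem act_eq_of_agreeLe (T : C.Tower) (X : GlobModel C) {n k : ℕ} (hk : k ≤ n) {U : Shape}
    (φ : C.arr (Shape.globe k) U) {x y : At X U} (h : AgreeLe X n x y) :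
    X.act φ x = X.act φ y := by
  simpa using agreeLe_act T X n φ h k hk (𝟙 _)

theorem exists_glue_op {S : Shape} {b h : ℕ} (hb : b < S.last) (hh : b < h) {U : Shape}
    (x : C.arr S U) (y : C.arr (Shape.globe h) U)
    (w : C.seq (C.ofShape (S.hinge hb)) x = C.seq (C.ofShape (Shape.faceMap hh false)) y) :
    ∃ z : C.arr (S.glue b h hb hh) U, C.seq (C.ofShape (S.inLeft b h hb hh)) z = x ∧
      C.seq (C.ofShape (S.inRight b h hb hh)) z = y :=
  exists_glue (X := freeOn C U) hb hh x y w

/-- Truncation of a shape: a shape of height at most `m` with maps both ways whose composite is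
the identity on cells of dimension below `m`. -/
theorem exists_trunc (hC : C.IsCoheratorTheory) (m : ℕ) (S : Shape) :
    ∃ (S' : Shape) (i : C.arr S' S) (ρ : C.arr S S'), S'.dim ≤ m ∧ S'.last = min S.last m ∧
      (∀ k, k < m → ∀ c : Cell k S, C.seq (C.ofShape c) (C.seq ρ i) = C.ofShape c) ∧
      (∀ b (hb : b < S.last) (hb' : b < S'.last),
        C.seq (C.ofShape (S'.hinge hb')) i = C.ofShape (S.hinge hb) ∧
        C.seq (C.ofShape (S.hinge hb)) ρ = C.ofShape (S'.hinge hb')) := by
  have glob : ∀ h, ∃ (i : C.arr (Shape.globe (min h m)) (Shape.globe h))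
      (ρ : C.arr (Shape.globe h) (Shape.globe (min h m))),
      (∀ k, k < m → ∀ c : Cell k (Shape.globe h),
        C.seq (C.ofShape c) (C.seq ρ i) = C.ofShape c) ∧
      ∀ b (hb : b < h) (hb' : b < min h m) e,
        C.seq (C.ofShape (Shape.faceMap hb' e)) i = C.ofShape (Shape.faceMap hb e) ∧
        C.seq (C.ofShape (Shape.faceMap hb e)) ρ = C.ofShape (Shape.faceMap hb' e) := by
    intro h
    rcases le_or_gt h m with hm | hm
    · generalize hq : min h m = q
      obtain rfl : h = q := by omega
      exact ⟨C.one _, C.one _, fun k _ c => by rw [C.one_seq, C.seq_one],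
        fun b hb hb' e => ⟨C.seq_one _, C.seq_one _⟩⟩
    · generalize hq : min h m = q
      obtain rfl : m = q := by omega
      obtain ⟨ρ, hρ⟩ := exists_retraction hC hm
      have key : ∀ b (hb : b < h) (hb' : b < m) e,
          C.seq (C.ofShape (Shape.faceMap hb' e)) (C.ofShape (Shape.faceMap hm false)) =
            C.ofShape (Shape.faceMap hb e) ∧
          C.seq (C.ofShape (Shape.faceMap hb e)) ρ = C.ofShape (Shape.faceMap hb' e) := by
        intro b hb hb' e
        refine ⟨by rw [← C.ofShape_comp, faceMap_comp], ?_⟩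
        rw [← faceMap_comp hb' hm e false, C.ofShape_comp, C.seq_assoc, hρ, C.seq_one]
      refine ⟨C.ofShape (Shape.faceMap hm false), ρ, fun k hk c => ?_, key⟩
      obtain ⟨e, rfl⟩ := cell_globe_lt (hk.trans hm) c
      rw [← C.seq_assoc, (key k _ hk e).2, (key k _ hk e).1]
  induction S using shape_induction with
  | hg n =>
    obtain ⟨i, ρ, h1, h2⟩ := glob n
    refine ⟨Shape.globe (min n m), i, ρ, by simp, rfl, h1, fun b hb hb' => ?_⟩
    rw [hinge_globe, hinge_globe]
    exact h2 b hb hb' true
  | hs S b h hb hh ih =>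
    obtain ⟨S', i, ρ, hd, hl, h1, h2⟩ := ih
    rcases lt_or_ge b m with hm | hm
    · have hb' : b < S'.last := by rw [hl]; omega
      have hh' : b < min h m := by omega
      obtain ⟨j, r, g1, g2⟩ := glob h
      obtain ⟨i', hi1, hi2⟩ := exists_glue_op hb' hh' (C.seq i (C.ofShape (S.inLeft b h hb hh)))
        (C.seq j (C.ofShape (S.inRight b h hb hh))) (by
          rw [← C.seq_assoc, ← C.seq_assoc, (h2 b hb hb').1, (g2 b hh hh' false).1,
            ← C.ofShape_comp, ← C.ofShape_comp, hinge_inLeft])
      obtain ⟨ρ', hρ1, hρ2⟩ := exists_glue_op hb hh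
        (C.seq ρ (C.ofShape (S'.inLeft b _ hb' hh'))) (C.seq r (C.ofShape (S'.inRight b _ hb' hh')))
        (by rw [← C.seq_assoc, ← C.seq_assoc, (h2 b hb hb').2, (g2 b hh hh' false).2,
            ← C.ofShape_comp, ← C.ofShape_comp, hinge_inLeft])
      refine ⟨S'.glue b _ hb' hh', i', ρ', by simp; omega, rfl, fun k hk c => ?_,
        fun c hc hc' => ?_⟩
      · rcases cell_glue_cases c with ⟨c', rfl⟩ | ⟨c', rfl⟩
        · rw [C.ofShape_comp, C.seq_assoc, ← C.seq_assoc _ ρ', hρ1, C.seq_assoc, hi1,
            ← C.seq_assoc ρ, ← C.seq_assoc, h1 k hk]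
        · rw [C.ofShape_comp, C.seq_assoc, ← C.seq_assoc _ ρ', hρ2, C.seq_assoc, hi2,
            ← C.seq_assoc r, ← C.seq_assoc, g1 k hk]
      · rw [hinge_glue, hinge_glue, C.ofShape_comp, C.ofShape_comp, C.seq_assoc, C.seq_assoc,
          hi2, hρ2, ← C.seq_assoc, ← C.seq_assoc, (g2 c hc hc' true).1, (g2 c hc hc' true).2]
        exact ⟨rfl, rfl⟩
    · obtain ⟨r, hr⟩ := exists_retraction hC hh
      obtain ⟨ρ', hρ1, hρ2⟩ := exists_glue_op hb hh ρ
        (C.seq r (C.seq (C.ofShape (S.hinge hb)) ρ)) (by rw [← C.seq_assoc, hr, C.one_seq])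
      have low : ∀ k (hk : k < b) e, Shape.faceMap (hk.trans hh) e ≫ S.inRight b h hb hh =
          (Shape.faceMap (hk.trans hb) e ≫ apx S) ≫ S.inLeft b h hb hh := by
        intro k hk e
        rw [← faceMap_comp hk hh e false, Category.assoc, ← hinge_inLeft, hinge_eq,
          ← faceMap_comp hk hb e true]
        simp only [Category.assoc]
      have left : ∀ k, k < m → ∀ c : Cell k S, C.seq (C.ofShape (c ≫ S.inLeft b h hb hh))
          (C.seq ρ' (C.seq i (C.ofShape (S.inLeft b h hb hh)))) =
          C.ofShape (c ≫ S.inLeft b h hb hh) := by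
        intro k hk c
        rw [C.ofShape_comp, C.seq_assoc, ← C.seq_assoc _ ρ', hρ1, ← C.seq_assoc ρ,
          ← C.seq_assoc, h1 k hk]
      refine ⟨S', C.seq i (C.ofShape (S.inLeft b h hb hh)), ρ', hd, by simp; omega,
        fun k hk c => ?_, fun c hc hc' => ?_⟩
      · rcases cell_glue_cases c with ⟨c', rfl⟩ | ⟨c', rfl⟩
        · exact left k hk c'
        · obtain ⟨e, rfl⟩ := cell_globe_lt (by omega : k < h) c'
          rw [low k (by omega) e]
          exact left k hk _
      · have hcb : c < b := by rw [hl] at hc'; omega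
        rw [hinge_glue, low c hcb true, ← hinge_eq, ← C.seq_assoc, (h2 c (hcb.trans hb) hc').1,
          C.ofShape_comp, C.seq_assoc, hρ1, (h2 c (hcb.trans hb) hc').2]
        exact ⟨rfl, rfl⟩

/-- Free models on shapes are contractible. -/
theorem contr_free (hC : C.IsCoheratorTheory) (S : Shape) : Contr (freeOn C S) := by
  intro n
  cases n with
  | zero => exact fills_zero_iff.mpr ⟨C.ofShape (cell_zero_nonempty S).some⟩
  | succ n =>
    refine fills_succ_iff.mpr fun f g h => ?_
    obtain ⟨S', i, ρ, hd, -, h1, -⟩ := exists_trunc hC (n + 1) S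
    have key : ∀ f : C.arr (Shape.globe n) S, C.seq f (C.seq ρ i) = f := fun f => by
      have := act_eq_of_agreeLe (tower hC) (freeOn C S) le_rfl f (x := C.seq ρ i) (y := C.one S)
        (fun k hk c => by rw [free_res, free_res, h1 k (by omega), C.seq_one])
      rwa [free_act, free_act, C.seq_one] at this
    obtain ⟨z, hz1, hz2⟩ := fill_adm hC hd (C.seq f ρ) (C.seq g ρ) (par_app (freeMap ρ) h)
    refine ⟨C.seq z i, ?_, ?_⟩
    · rw [src, free_res, ← C.seq_assoc, hz1, C.seq_assoc, key]
    · rw [tgt, free_res, ← C.seq_assoc, hz2, C.seq_assoc, key]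

/-- Any parallel pair of operations has a filler. -/
theorem fill_op (hC : C.IsCoheratorTheory) {n : ℕ} {S : Shape}
    (f g : C.arr (Shape.globe n) S) (h : Par (freeOn C S) n f g) :
    ∃ z : C.arr (Shape.globe (n + 1)) S, C.seq (C.ofShape (Shape.σ n)) z = f ∧
      C.seq (C.ofShape (Shape.τ n)) z = g := (contr_free hC S (n + 1)).fill f g h

/-! ### Vertices -/

theorem vertex_surjective (T : C.Tower) {S : Shape} (v : C.arr (Shape.globe 0) S) :
    ∃ c : Cell 0 S, C.ofShape c = v := by
  have := op_induction T (fun {S U} φ => ∀ c : Cell 0 S, ∃ c' : Cell 0 U,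
    C.ofShape c' = C.seq (C.ofShape c) φ) ?_ ?_ ?_ ?_ v (𝟙 _)
  · rwa [C.ofShape_id, C.one_seq] at this
  · intro S U f c
    exact ⟨c ≫ f, C.ofShape_comp _ _⟩
  · intro S U V φ ψ h1 h2 c
    obtain ⟨c', hc'⟩ := h1 c
    obtain ⟨c'', hc''⟩ := h2 c'
    exact ⟨c'', by rw [hc'', hc', C.seq_assoc]⟩
  · intro S b h hb hh U φ h1 h2 c
    rcases cell_glue_cases c with ⟨c', rfl⟩ | ⟨c', rfl⟩
    · simpa only [C.ofShape_comp, C.seq_assoc] using h1 c'
    · simpa only [C.ofShape_comp, C.seq_assoc] using h2 c'
  · intro n g h1 h2 c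
    obtain ⟨e, rfl⟩ := cell_globe_lt (Nat.succ_pos n) c
    rcases Nat.eq_zero_or_pos n with rfl | h'
    · cases e
      · simpa only [C.ofShape_id, C.one_seq, σ_eq] using h1 (𝟙 _)
      · simpa only [C.ofShape_id, C.one_seq, τ_eq] using h2 (𝟙 _)
    · have := h1 (Shape.faceMap h' e)
      rwa [← C.seq_assoc, ← C.ofShape_comp, σ_eq, faceMap_comp] at this

/-- The vertices of a shape, as a functor to sets. -/
def vertexFunctor : Shape ⥤ Type u := coyoneda.obj (op (Shape.globe 0)) ⋙ uliftFunctor.{u, 0}

theorem respectsGlue_vertexFunctor : RespectsGlue vertexFunctor.{u} := fun S b h hb hh =>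
  (cell_isPushout 0 S b h hb hh).map uliftFunctor.{u, 0}

theorem vertex_injective (T : C.Tower) {S : Shape} :
    Function.Injective (fun c : Cell 0 S => C.ofShape c) := by
  obtain ⟨e, -, -⟩ := exists_extn (Γ := vertexFunctor.{u}) T respectsGlue_vertexFunctor
    (R := fun _ _ => True) ⟨fun _ => trivial, fun _ _ => trivial, fun _ _ _ _ _ _ _ _ _ _ => trivial⟩
    (fun _ _ _ => True) (fun n g F G _ _ hp => by
      have fc : ∀ c : Cell 0 (Shape.globe (n + 1)), ∃ y : vertexFunctor.{u}.obj g.shape,
          (∀ c' : Cell 0 (Shape.globe n), c = c' ≫ Shape.σ n → y = F (ULift.up c')) ∧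
          (∀ c' : Cell 0 (Shape.globe n), c = c' ≫ Shape.τ n → y = G (ULift.up c')) := by
        intro c
        obtain ⟨e, rfl⟩ := cell_globe_lt (Nat.succ_pos n) c
        rcases Nat.eq_zero_or_pos n with rfl | h'
        · cases e
          · refine ⟨F (ULift.up (𝟙 _)), fun c' _ => by rw [cell_globe_top c'], fun c' h => ?_⟩
            rw [cell_globe_top c', Category.id_comp] at h
            exact absurd h (faceMap_ne _)
          · refine ⟨G (ULift.up (𝟙 _)), fun c' h => ?_, fun c' _ => by rw [cell_globe_top c']⟩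
            rw [cell_globe_top c', Category.id_comp] at h
            exact absurd h.symm (faceMap_ne _)
        · refine ⟨F (ULift.up (Shape.faceMap h' e)), fun c' h => ?_, fun c' h => ?_⟩
          · obtain ⟨e', rfl⟩ := cell_globe_lt h' c'
            rw [σ_eq, faceMap_comp] at h
            rw [faceMap_injective _ h]
          · obtain ⟨e', rfl⟩ := cell_globe_lt h' c'
            rw [τ_eq, faceMap_comp] at h
            rw [faceMap_injective _ h]
            have := types_congr_hom (hp.face h' e') (ULift.up (𝟙 _))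
            change F (ULift.up (𝟙 _ ≫ _)) = G (ULift.up (𝟙 _ ≫ _)) at this
            rwa [Category.id_comp] at this
      choose y hy using fc
      refine ⟨TypeCat.ofHom (fun c => y c.down), ?_, ?_, trivial, trivial⟩
      · ext ⟨c⟩
        exact (hy _).1 c rfl
      · ext ⟨c⟩
        exact (hy _).2 c rfl)
  intro c c' h
  have h1 : vertexFunctor.{u}.map c = vertexFunctor.{u}.map c' := by
    rw [← e.map_ofShape, ← e.map_ofShape]; exact congrArg e.map h
  have h2 := congrArg ULift.down (types_congr_hom h1 (ULift.up (𝟙 _)))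
  change 𝟙 _ ≫ c = 𝟙 _ ≫ c' at h2
  simpa using h2

/-! ### Being joined by a cell is an equivalence relation -/

/-- Two cells are joined by a cell of the next dimension. -/
def Htp (X : GlobModel C) (n : ℕ) (a b : At X (Shape.globe n)) : Prop :=
  ∃ z : At X (Shape.globe (n + 1)), src X z = a ∧ tgt X z = b

section Htp

variable {X Y : GlobModel C} {n : ℕ} {a b c : At X (Shape.globe n)}

theorem Htp.par (h : Htp X n a b) : Par X n a b := by
  obtain ⟨z, rfl, rfl⟩ := h
  exact par_src_tgt z

theorem Htp.map (h : Htp X n a b) (f : X ⟶ Y) : Htp Y n (app f _ a) (app f _ b) := by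
  obtain ⟨z, rfl, rfl⟩ := h
  exact ⟨app f _ z, (app_res f _ _).symm, (app_res f _ _).symm⟩

theorem Contr.htp (hX : Contr X) (h : Par X n a b) : Htp X n a b := (hX (n + 1)).fill a b h

/-- Parallel operations give joined cells. -/
theorem htp_act (hC : C.IsCoheratorTheory) {S : Shape} (x : At X S)
    {f g : C.arr (Shape.globe n) S} (h : Par (freeOn C S) n f g) :
    Htp X n (X.act f x) (X.act g x) := ((contr_free hC S).htp h).map (yon x)

theorem Htp.refl (hC : C.IsCoheratorTheory) (a : At X (Shape.globe n)) : Htp X n a a := by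
  simpa using htp_act hC a (par_refl (X := freeOn C (Shape.globe n)) (C.one _))

theorem Htp.symm (hC : C.IsCoheratorTheory) (h : Htp X n a b) : Htp X n b a := by
  obtain ⟨z, rfl, rfl⟩ := h
  have := par_symm (par_src_tgt (X := freeOn C (Shape.globe (n + 1))) (C.one _))
  have h := htp_act hC z this
  rwa [src, tgt, free_res, free_res, C.seq_one, C.seq_one] at h

/-- The shape of two composable cells. -/
abbrev two (n : ℕ) : Shape :=
  (Shape.globe (n + 1)).glue n (n + 1) (Nat.lt_succ_self n) (Nat.lt_succ_self n)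

/-- The first cell of `two n`. -/
abbrev twoL (n : ℕ) : Cell (n + 1) (two n) :=
  (Shape.globe (n + 1)).inLeft n (n + 1) (Nat.lt_succ_self n) (Nat.lt_succ_self n)

/-- The second cell of `two n`. -/
abbrev twoR (n : ℕ) : Cell (n + 1) (two n) :=
  (Shape.globe (n + 1)).inRight n (n + 1) (Nat.lt_succ_self n) (Nat.lt_succ_self n)

theorem τ_twoL (n : ℕ) : Shape.τ n ≫ twoL n = Shape.σ n ≫ twoR n := by
  have := hinge_inLeft (Shape.globe (n + 1)) n (n + 1) (Nat.lt_succ_self n) (Nat.lt_succ_self n)
  rwa [hinge_globe] at this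

theorem exists_two (z w : At X (Shape.globe (n + 1))) (h : tgt X z = src X w) :
    ∃ p : At X (two n), res X (twoL n) p = z ∧ res X (twoR n) p = w :=
  exists_glue _ _ z w (by rw [hinge_globe]; exact h)

theorem tgt_twoL (p : At X (two n)) : tgt X (res X (twoL n) p) = src X (res X (twoR n) p) := by
  rw [tgt, src, ← res_comp, ← res_comp, τ_twoL]

theorem par_two (p : At X (two n)) :
    Par X n (src X (res X (twoL n) p)) (tgt X (res X (twoR n) p)) :=
  par_trans (par_src_tgt _) (tgt_twoL p ▸ par_src_tgt _)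

theorem Htp.trans (hC : C.IsCoheratorTheory) (h : Htp X n a b) (h' : Htp X n b c) :
    Htp X n a c := by
  obtain ⟨z, rfl, rfl⟩ := h
  obtain ⟨w, hw, rfl⟩ := h'
  obtain ⟨p, rfl, rfl⟩ := exists_two z w hw.symm
  have h := ((contr_free hC (two n)).htp (par_two (X := freeOn C (two n)) (C.one _))).map (yon p)
  rwa [app_res, app_res, app_res, app_res, app_yon_one] at h

end Htp

end Crest.Agent.R248
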