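import Crest.Agent.R248.Glue
import Crest.Agent.R248.Colim

/-!
# Row 248: cylinders and the path object

The cylinder on the `n`-disk is a contractible cone on its boundary. Cylinders on shapes are
contractible by the gluing lemma, so that cylinders in a model form a model again.
-/

open CategoryTheory Limits Opposite Crest.GeometryTopology.Coherator
open Crest.GeometryTopology.Coherator.GlobTheory
open Crest.GeometryTopology.Coherator.GlobTheory.GlobModel

set_option backward.isDefEq.respectTransparency false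

noncomputable section

namespace Crest.Agent.R248

universe u

variable {C : GlobTheory.{u}}

theorem exists_pushout {A B A' : GlobModel C} (f : B ⟶ A) (g : B ⟶ A') :
    ∃ (P : GlobModel C) (i : A ⟶ P) (j : A' ⟶ P), IsPushout f g i j :=
  ⟨_, _, _, IsPushout.of_hasPushout f g⟩

/-- One stage of the tower of cylinders over a given boundary. -/
structure StageOn {n : ℕ} (Bd : GlobModel C) (sph : Bool → Sph Bd n) where
  Cy : GlobModel C
  j : Bd ⟶ Cy
  e : Bool → At Cy (Shape.globe n)
  bdry : ∀ ε, bd Cy n (e ε) = sphMap j n (sph ε)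
  lp : ∀ ⦃E B : GlobModel C⦄ (p : E ⟶ B), TFib p → ∀ (g : Bd ⟶ E)
    (x : Bool → At E (Shape.globe n)) (h : Cy ⟶ B), (∀ ε, bd E n (x ε) = sphMap g n (sph ε)) →
    j ≫ h = g ≫ p → (∀ ε, app h _ (e ε) = app p _ (x ε)) →
    ∃ l : Cy ⟶ E, j ≫ l = g ∧ (∀ ε, app l _ (e ε) = x ε) ∧ l ≫ p = h
  contr : Contr Cy

theorem nonempty_stageOn {n : ℕ} (Bd : GlobModel C) (sph : Bool → Sph Bd n) :
    Nonempty (StageOn Bd sph) := by
  obtain ⟨Y, j, z, H⟩ := exists_attach Bd (ι := ULift.{u} Bool) (fun _ => n) (fun k => sph k.down)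
  obtain ⟨K, k, hk, hK⟩ := exists_cone Y
  refine ⟨⟨K, j ≫ k, fun ε => app k _ (z ⟨ε⟩), fun ε => ?_, ?_, hK⟩⟩
  · rw [bd_app, H.bdry, sphMap_comp]
  · intro E B p hp g x h hx w he
    obtain ⟨g', hg1, hg2⟩ := H.desc g (fun k => x k.down) (fun k => hx k.down)
    obtain ⟨l, hl1, hl2⟩ := hk.lift hp g' h (H.ext _ _
      (by rw [← Category.assoc, hg1, ← w, Category.assoc])
      (fun k => by rw [app_comp, app_comp, hg2]; exact (he k.down).symm))
    refine ⟨l, by rw [Category.assoc, hl1, hg1], fun ε => ?_, hl2⟩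
    rw [← app_comp, hl1, hg2]

/-- A stage of the tower of cylinders. -/
structure Stage (C : GlobTheory.{u}) (n : ℕ) where
  Bd : GlobModel C
  sph : Bool → Sph Bd n
  on : StageOn Bd sph

theorem StageOn.par {n : ℕ} {Bd : GlobModel C} {sph : Bool → Sph Bd n} (s : StageOn Bd sph)
    {W : GlobModel C} {a b : s.Cy ⟶ W} (h : s.j ≫ a = s.j ≫ b) (ε : Bool) :
    Par W n (app a _ (s.e ε)) (app b _ (s.e ε)) := by
  rw [← bd_eq_bd_iff, bd_app, bd_app, s.bdry, ← sphMap_comp, ← sphMap_comp, h]

/-- The tower of cylinders. -/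
def stage (C : GlobTheory.{u}) : ∀ n, Stage C n
  | 0 => ⟨⊥_ _, fun _ => PUnit.unit, (nonempty_stageOn _ _).some⟩
  | n + 1 =>
    ⟨pushout (stage C n).on.j (stage C n).on.j,
      fun ε => mkSph (app (pushout.inl _ _) _ ((stage C n).on.e ε))
        (app (pushout.inr _ _) _ ((stage C n).on.e ε))
        ((stage C n).on.par pushout.condition ε),
      (nonempty_stageOn _ _).some⟩

variable (C) in
/-- The cylinder on the boundary of the `n`-disk. -/
def bdy (n : ℕ) : GlobModel C := (stage C n).Bd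

variable (C) in
/-- The cylinder on the `n`-disk. -/
def cy (n : ℕ) : GlobModel C := (stage C n).on.Cy

variable (C) in
/-- The boundary inclusion of cylinders. -/
def jj (n : ℕ) : bdy C n ⟶ cy C n := (stage C n).on.j

variable (C) in
/-- The two ends of the boundary cylinder. -/
def csph (n : ℕ) (ε : Bool) : Sph (bdy C n) n := (stage C n).sph ε

variable (C) in
/-- The two ends of the cylinder. -/
def cend (n : ℕ) (ε : Bool) : At (cy C n) (Shape.globe n) := (stage C n).on.e ε

variable (C) in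
/-- The source and target cylinders inside the boundary cylinder. -/
def side (n : ℕ) : Bool → (cy C n ⟶ bdy C (n + 1))
  | false => pushout.inl (jj C n) (jj C n)
  | true => pushout.inr (jj C n) (jj C n)

theorem isPushout_side (n : ℕ) : IsPushout (jj C n) (jj C n) (side C n false) (side C n true) :=
  IsPushout.of_hasPushout (jj C n) (jj C n)

theorem jj_side (n : ℕ) (e e' : Bool) : jj C n ≫ side C n e = jj C n ≫ side C n e' := by
  cases e <;> cases e' <;> first | rfl | exact (isPushout_side n).w | exact (isPushout_side n).w.symm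

theorem csph_fst (n : ℕ) (ε : Bool) :
    (csph C (n + 1) ε).1.1 = app (side C n false) _ (cend C n ε) := rfl
theorem csph_snd (n : ℕ) (ε : Bool) :
    (csph C (n + 1) ε).1.2 = app (side C n true) _ (cend C n ε) := rfl

theorem bd_cend (n : ℕ) (ε : Bool) :
    bd (cy C n) n (cend C n ε) = sphMap (jj C n) n (csph C n ε) := (stage C n).on.bdry ε

theorem cy_lp (n : ℕ) ⦃E B : GlobModel C⦄ (p : E ⟶ B) (hp : TFib p) (g : bdy C n ⟶ E)
    (x : Bool → At E (Shape.globe n)) (h : cy C n ⟶ B)
    (hx : ∀ ε, bd E n (x ε) = sphMap g n (csph C n ε)) (w : jj C n ≫ h = g ≫ p)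
    (he : ∀ ε, app h _ (cend C n ε) = app p _ (x ε)) :
    ∃ l : cy C n ⟶ E, jj C n ≫ l = g ∧ (∀ ε, app l _ (cend C n ε) = x ε) ∧ l ≫ p = h :=
  (stage C n).on.lp p hp g x h hx w he

theorem contr_cy (n : ℕ) : Contr (cy C n) := (stage C n).on.contr

theorem cy_extend (n : ℕ) {E : GlobModel C} (hE : Contr E) (g : bdy C n ⟶ E)
    (x : Bool → At E (Shape.globe n)) (hx : ∀ ε, bd E n (x ε) = sphMap g n (csph C n ε)) :
    ∃ l : cy C n ⟶ E, jj C n ≫ l = g ∧ ∀ ε, app l _ (cend C n ε) = x ε := by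
  obtain ⟨l, h1, h2, -⟩ := cy_lp n (toPt E) hE.tfib g x (toPt _) hx (toPt_ext _ _) (fun _ => rfl)
  exact ⟨l, h1, h2⟩

/-- Lifting with one prescribed end. -/
theorem cy_lp_one (n : ℕ) (ε : Bool) ⦃E B : GlobModel C⦄ (p : E ⟶ B) (hp : TFib p)
    (g : bdy C n ⟶ E) (x : At E (Shape.globe n)) (h : cy C n ⟶ B)
    (hx : bd E n x = sphMap g n (csph C n ε)) (w : jj C n ≫ h = g ≫ p)
    (he : app h _ (cend C n ε) = app p _ x) :
    ∃ l : cy C n ⟶ E, jj C n ≫ l = g ∧ app l _ (cend C n ε) = x ∧ l ≫ p = h := by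
  have : ∀ δ, ∃ y, bd E n y = sphMap g n (csph C n δ) ∧ app h _ (cend C n δ) = app p _ y ∧
      (δ = ε → y = x) := by
    intro δ
    by_cases hδ : δ = ε
    · subst hδ
      exact ⟨x, hx, he, fun _ => rfl⟩
    · obtain ⟨y, h1, h2⟩ := hp n (sphMap g n (csph C n δ)) (app h _ (cend C n δ))
        (by rw [bd_app, bd_cend, ← sphMap_comp, ← sphMap_comp, w])
      exact ⟨y, h1, h2.symm, fun h' => absurd h' hδ⟩
  choose y hy using this
  obtain ⟨l, h1, h2, h3⟩ := cy_lp n p hp g y h (fun δ => (hy δ).1) w (fun δ => (hy δ).2.1)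
  exact ⟨l, h1, (h2 ε).trans ((hy ε).2.2 rfl), h3⟩

theorem cof_jj (n : ℕ) : Cof (jj C n) := by
  refine cof_iff.mpr fun E B p hp g h w => ?_
  obtain ⟨y, h1, h2⟩ := hp n (sphMap g n (csph C n false)) (app h _ (cend C n false))
    (by rw [bd_app, bd_cend, ← sphMap_comp, ← sphMap_comp, w])
  obtain ⟨l, l1, -, l3⟩ := cy_lp_one n false p hp g y h h1 w.symm h2.symm
  exact ⟨l, l1, l3⟩

theorem cof_side (n : ℕ) (e : Bool) : Cof (side C n e) := by
  cases e
  · exact Cof.of_isPushout (isPushout_side n) (cof_jj n)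
  · exact Cof.of_isPushout (isPushout_side n).flip (cof_jj n)

theorem cofibrant_bdy (n : ℕ) : Cofibrant (bdy C n) := by
  induction n with
  | zero => exact cofibrant_of_isInitial initialIsInitial
  | succ n ih => exact (ih.of_cof (cof_jj n)).of_cof (cof_side n false)

theorem cofibrant_cy (n : ℕ) : Cofibrant (cy C n) := (cofibrant_bdy n).of_cof (cof_jj n)

variable (C) in
/-- The source and target faces of a cylinder. -/
def cst (n : ℕ) (e : Bool) : cy C n ⟶ cy C (n + 1) := side C n e ≫ jj C (n + 1)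

theorem cof_cst (n : ℕ) (e : Bool) : Cof (cst C n e) := (cof_side n e).comp (cof_jj (n + 1))

theorem jj_cst (n : ℕ) (e e' : Bool) : jj C n ≫ cst C n e = jj C n ≫ cst C n e' := by
  rw [cst, cst, ← Category.assoc, ← Category.assoc, jj_side n e e']

theorem res_cend (n : ℕ) (ε e : Bool) :
    res (cy C (n + 1)) (Shape.faceMap (Nat.lt_succ_self n) e) (cend C (n + 1) ε) =
      app (cst C n e) _ (cend C n ε) := by
  cases e
  · exact (bd_eq_iff.mp (bd_cend (n + 1) ε)).1
  · exact (bd_eq_iff.mp (bd_cend (n + 1) ε)).2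

variable (C) in
/-- The iterated source faces. -/
def cseq : ℕ ⥤ GlobModel C := Functor.ofSequence (X := cy C) (fun n => cst C n false)

variable (C) in
/-- The iterated faces of cylinders. -/
def cfc {m n : ℕ} (h : m < n) (e : Bool) : cy C m ⟶ cy C n :=
  cst C m e ≫ (cseq C).map (homOfLE (show m + 1 ≤ n from h))

theorem cfc_self (n : ℕ) (e : Bool) : cfc C (Nat.lt_succ_self n) e = cst C n e := by
  rw [cfc]
  exact (congrArg _ ((cseq C).map_id (n + 1))).trans (Category.comp_id _)

theorem cfc_succ {m n : ℕ} (h : m < n) (e : Bool) :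
    cfc C (h.trans (Nat.lt_succ_self n)) e = cfc C h e ≫ cst C n false := by
  rw [cfc, cfc, Category.assoc]
  congr 1
  rw [← homOfLE_comp (show m + 1 ≤ n from h) (Nat.le_succ n), Functor.map_comp]
  congr 1
  exact Functor.ofSequence_map_homOfLE_succ (X := cy C) (fun n => cst C n false) n

@[elab_as_elim]
theorem cfc_induction {m : ℕ} {P : ∀ n, m < n → Prop} (base : P (m + 1) (Nat.lt_succ_self m))
    (step : ∀ n (h : m < n), P n h → P (n + 1) (h.trans (Nat.lt_succ_self n))) :
    ∀ n (h : m < n), P n h := fun _ h => Nat.le_induction base step _ h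

theorem cfc_factor {m n : ℕ} (h : m < n) (e : Bool) :
    ∃ q : cy C m ⟶ bdy C n, cfc C h e = q ≫ jj C n := by
  refine cfc_induction ⟨side C m e, cfc_self m e⟩ (fun n h _ => ?_) n h
  exact ⟨cfc C h e ≫ side C n false, by rw [cfc_succ h, cst, Category.assoc]⟩

theorem cfc_cst {m n : ℕ} (h : m < n) (e e' : Bool) :
    cfc C h e ≫ cst C n e' = cfc C (h.trans (Nat.lt_succ_self n)) e := by
  rw [cfc_succ h]
  obtain ⟨q, hq⟩ := cfc_factor (C := C) h e
  rw [hq, Category.assoc, Category.assoc, jj_cst n e' false]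

theorem cfc_comp {a b c : ℕ} (h : a < b) (h' : b < c) (e e' : Bool) :
    cfc C h e ≫ cfc C h' e' = cfc C (h.trans h') e := by
  refine cfc_induction (P := fun c h' => cfc C h e ≫ cfc C h' e' = cfc C (h.trans h') e)
    (by rw [cfc_self, cfc_cst]) (fun c h' ih => ?_) c h'
  rw [cfc_succ h', ← Category.assoc, ih, ← cfc_succ]

theorem cof_cfc {m n : ℕ} (h : m < n) (e : Bool) : Cof (cfc C h e) := by
  refine cfc_induction (P := fun n h => Cof (cfc C h e))
    (by rw [cfc_self]; exact cof_cst m e) (fun n h ih => ?_) n h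
  rw [cfc_succ h]
  exact ih.comp (cof_cst n false)

theorem res_cend_face {m n : ℕ} (h : m < n) (ε e : Bool) :
    res (cy C n) (Shape.faceMap h e) (cend C n ε) = app (cfc C h e) _ (cend C m ε) := by
  refine cfc_induction (P := fun n h =>
    res (cy C n) (Shape.faceMap h e) (cend C n ε) = app (cfc C h e) _ (cend C m ε))
    (by rw [cfc_self, res_cend]) (fun n h ih => ?_) n h
  rw [cfc_succ h, ← faceMap_comp h (Nat.lt_succ_self n) e false, res_comp, res_cend, ← app_res, ih,
    app_comp]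

variable (C) in
/-- The cylinder on a pasting scheme, with the cylinder on its last globe. -/
def cylBuild : {n : ℕ} → Pasting n → Σ A : GlobModel C, cy C n ⟶ A
  | _, .single n => ⟨cy C n, 𝟙 _⟩
  | _, .glue P _ _ hb hh =>
    ⟨pushout (cfc C hb true ≫ (cylBuild P).2) (cfc C hh false),
      pushout.inr (cfc C hb true ≫ (cylBuild P).2) (cfc C hh false)⟩

variable (C) in
/-- The realization data of cylinders. -/
def cylReal : Realization (GlobModel C) where
  ob S := (cylBuild C S.pasting).1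
  fc h e := cfc C h e
  fc_comp := cfc_comp
  ap S := (cylBuild C S.pasting).2
  ap_globe _ := rfl
  inl S _ _ hb hh := pushout.inl (cfc C hb true ≫ (cylBuild C S.pasting).2) (cfc C hh false)
  isPushout S _ _ hb hh :=
    IsPushout.of_hasPushout (cfc C hb true ≫ (cylBuild C S.pasting).2) (cfc C hh false)

variable (C) in
/-- Cylinders on shapes. -/
def cylF : Shape ⥤ GlobModel C := (cylReal C).functor

theorem respectsGlue_cylF : RespectsGlue (cylF C) := (cylReal C).respectsGlue

theorem cylF_faceMap {k n : ℕ} (h : k < n) (e : Bool) :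
    (cylF C).map (Shape.faceMap h e) = cfc C h e := (cylReal C).map_faceMap h e

theorem cylF_σ (n : ℕ) : (cylF C).map (Shape.σ n) = cst C n false :=
  (cylF_faceMap _ _).trans (cfc_self n false)

theorem cylF_τ (n : ℕ) : (cylF C).map (Shape.τ n) = cst C n true :=
  (cylF_faceMap _ _).trans (cfc_self n true)

theorem contr_cylF (hC : C.IsCoheratorTheory) (S : Shape) :
    Cofibrant ((cylF C).obj S) ∧ Contr ((cylF C).obj S) := by
  induction S using shape_induction with
  | hg n => exact ⟨cofibrant_cy n, contr_cy n⟩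
  | hs S b h hb hh ih =>
    have sq := respectsGlue_cylF (C := C) S b h hb hh
    have hc : Cof ((cylF C).map (Shape.faceMap hh false)) := by
      rw [cylF_faceMap]; exact cof_cfc hh false
    exact ⟨cofibrant_pushout sq hc ih.1,
      contr_pushout hC sq hc (cofibrant_cy b) ih.1 ih.2 (contr_cy b) (contr_cy h)⟩

theorem exists_cylEnd (ε : Bool) (S : Shape) : ∃ z : At ((cylF C).obj S) S,
    ∀ k (c : Cell k S), res _ c z = app ((cylF C).map c) _ (cend C k ε) :=
  exists_at (fun k c => app ((cylF C).map c) _ (cend C k ε)) fun k l h e c => by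
    rw [Functor.map_comp, app_comp, ← app_res, cylF_faceMap]
    exact congrArg _ (res_cend_face h ε e).symm

variable (C) in
/-- The two ends of the cylinder on a shape. -/
def cylEnd (ε : Bool) (S : Shape) : At ((cylF C).obj S) S := (exists_cylEnd ε S).choose

theorem res_cylEnd (ε : Bool) {S : Shape} {k : ℕ} (c : Cell k S) :
    res _ c (cylEnd C ε S) = app ((cylF C).map c) _ (cend C k ε) :=
  (exists_cylEnd ε S).choose_spec k c

theorem cylEnd_globe (ε : Bool) (n : ℕ) : cylEnd C ε (Shape.globe n) = cend C n ε := by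
  have := res_cylEnd (C := C) ε (𝟙 (Shape.globe n))
  rwa [res_id, CategoryTheory.Functor.map_id, app_id] at this

theorem app_cylEnd (ε : Bool) {S T : Shape} (f : S ⟶ T) :
    app ((cylF C).map f) S (cylEnd C ε S) = res _ f (cylEnd C ε T) :=
  at_ext fun k c => by
    rw [← app_res, res_cylEnd, ← res_comp, res_cylEnd, Functor.map_comp, app_comp]

theorem parD_cyl {W : GlobModel C} {n : ℕ} {F G : cy C n ⟶ W} :
    ParD (cylF C) n F G ↔ jj C n ≫ F = jj C n ≫ G := by
  cases n with
  | zero => exact ⟨fun _ => initialIsInitial.hom_ext _ _, fun _ => trivial⟩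
  | succ n =>
    change (cylF C).map (Shape.σ n) ≫ F = (cylF C).map (Shape.σ n) ≫ G ∧
      (cylF C).map (Shape.τ n) ≫ F = (cylF C).map (Shape.τ n) ≫ G ↔ _
    rw [cylF_σ, cylF_τ, cst, cst, Category.assoc, Category.assoc, Category.assoc, Category.assoc]
    exact ⟨fun h => (isPushout_side n).hom_ext h.1 h.2, fun h => by rw [h]; exact ⟨rfl, rfl⟩⟩

/-- Filling a cylinder in a contractible model. -/
theorem cy_fill {E : GlobModel C} (hE : Contr E) {n : ℕ} (F G : cy C n ⟶ E)
    (hp : jj C n ≫ F = jj C n ≫ G) (x : Bool → At E (Shape.globe (n + 1)))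
    (hs : ∀ ε, src E (x ε) = app F _ (cend C n ε)) (ht : ∀ ε, tgt E (x ε) = app G _ (cend C n ε)) :
    ∃ H : cy C (n + 1) ⟶ E, cst C n false ≫ H = F ∧ cst C n true ≫ H = G ∧
      ∀ ε, app H _ (cend C (n + 1) ε) = x ε := by
  obtain ⟨H, h1, h2⟩ := cy_extend (n + 1) hE ((isPushout_side n).desc F G hp) x fun ε =>
    bd_eq_iff.mpr ⟨by rw [sphMap_fst, csph_fst, ← app_comp, IsPushout.inl_desc, hs],
      by rw [sphMap_snd, csph_snd, ← app_comp, IsPushout.inr_desc, ht]⟩
  refine ⟨H, ?_, ?_, h2⟩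
  · rw [cst, Category.assoc, h1, IsPushout.inl_desc]
  · rw [cst, Category.assoc, h1, IsPushout.inr_desc]

/-- An extension of cylinders to all operations, compatible with the two ends. -/
structure CylData (C : GlobTheory.{u}) where
  ext : Extn C (cylF C)
  ends : ∀ (ε : Bool) {S T : Shape} (φ : C.arr S T),
    app (ext.map φ) S (cylEnd C ε S) = ((cylF C).obj T).act φ (cylEnd C ε T)

theorem exists_cylData (hC : C.IsCoheratorTheory) : Nonempty (CylData C) := by
  obtain ⟨E, hE, -⟩ := exists_extn (Γ := cylF C) (tower hC) respectsGlue_cylF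
    (R := fun {S T} φ Φ => ∀ ε, app Φ S (cylEnd C ε S) = ((cylF C).obj T).act φ (cylEnd C ε T))
    ⟨fun f ε => app_cylEnd ε f,
      fun h1 h2 ε => by rw [app_comp, h1, app_act, h2, act_seq],
      fun S b h hb hh U φ Φ h1 h2 ε => glue_ext
        (by rw [← app_res, ← app_cylEnd, ← app_comp, h1, res_act])
        (by rw [← app_res, ← app_cylEnd, ← app_comp, h2, res_act])⟩
    (fun _ _ _ => True) (fun n g F G h1 h2 hp => by
      obtain ⟨H, H1, H2, H3⟩ := cy_fill (contr_cylF hC g.shape).2 (n := n) F G (parD_cyl.mp hp)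
        (fun ε => ((cylF C).obj g.shape).act g.op (cylEnd C ε g.shape))
        (fun ε => by rw [src, res_act, ← h1, cylEnd_globe])
        (fun ε => by rw [tgt, res_act, ← h2, cylEnd_globe])
      refine ⟨H, by rw [cylF_σ, H1], by rw [cylF_τ, H2], fun ε => ?_, trivial⟩
      rw [cylEnd_globe]; exact H3 ε)
  exact ⟨⟨E, fun ε _ _ φ => hE φ ε⟩⟩

namespace CylData

variable (D : CylData C)

/-- The path object of a model. -/
def path (W : GlobModel C) : GlobModel C := D.ext.model respectsGlue_cylF W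

/-- The path object on maps. -/
def pathMap {W W' : GlobModel C} (f : W ⟶ W') : D.path W ⟶ D.path W' :=
  D.ext.modelMap respectsGlue_cylF f

/-- The two projections of the path object. -/
def proj (ε : Bool) (W : GlobModel C) : D.path W ⟶ W :=
  homMk (fun S (Φ : (cylF C).obj S ⟶ W) => app Φ S (cylEnd C ε S)) (fun S T o Φ => by
    change app (D.ext.map o ≫ Φ) S _ = _
    rw [app_comp, D.ends, app_act])

theorem app_proj (ε : Bool) {W : GlobModel C} (S : Shape) (Φ : (cylF C).obj S ⟶ W) :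
    app (D.proj ε W) S Φ = app Φ S (cylEnd C ε S) := rfl

theorem app_proj_globe (ε : Bool) {W : GlobModel C} (n : ℕ) (Φ : cy C n ⟶ W) :
    app (D.proj ε W) (Shape.globe n) Φ = app Φ _ (cend C n ε) := by
  rw [← cylEnd_globe]; rfl

theorem pathMap_proj (ε : Bool) {W W' : GlobModel C} (f : W ⟶ W') :
    D.pathMap f ≫ D.proj ε W' = D.proj ε W ≫ f := model_hom_ext fun _ _ => rfl

theorem src_path {W : GlobModel C} {n : ℕ} (Φ : cy C (n + 1) ⟶ W) :
    src (D.path W) (n := n) Φ = cst C n false ≫ Φ := by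
  rw [← cylF_σ]; exact D.ext.model_res respectsGlue_cylF W _ _

theorem tgt_path {W : GlobModel C} {n : ℕ} (Φ : cy C (n + 1) ⟶ W) :
    tgt (D.path W) (n := n) Φ = cst C n true ≫ Φ := by
  rw [← cylF_τ]; exact D.ext.model_res respectsGlue_cylF W _ _

theorem par_path {W : GlobModel C} {n : ℕ} {F G : cy C n ⟶ W} (h : Par (D.path W) n F G) :
    jj C n ≫ F = jj C n ≫ G := by
  refine parD_cyl.mp ?_
  cases n with
  | zero => trivial
  | succ n =>
    obtain ⟨h1, h2⟩ := par_succ.mp h
    rw [D.src_path, D.src_path, ← cylF_σ] at h1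
    rw [D.tgt_path, D.tgt_path, ← cylF_τ] at h2
    exact ⟨h1, h2⟩

end CylData

/-- `g : X ⟶ O` attaches the single cell `x` along the sphere `s`. -/
structure IsAtt1 {X O : GlobModel C} {n : ℕ} (g : X ⟶ O) (s : Sph X n)
    (x : At O (Shape.globe n)) : Prop where
  bdry : bd O n x = sphMap g n s
  desc : ∀ ⦃Z : GlobModel C⦄ (k : X ⟶ Z) (w : At Z (Shape.globe n)), bd Z n w = sphMap k n s →
    ∃ h : O ⟶ Z, g ≫ h = k ∧ app h _ x = w
  ext : ∀ ⦃Z : GlobModel C⦄ (h h' : O ⟶ Z), g ≫ h = g ≫ h' → app h _ x = app h' _ x → h = h'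

/-- The open boxes of cylinders are contractible. -/
theorem exists_openBox (hC : C.IsCoheratorTheory) (ε : Bool) (n : ℕ) :
    ∃ (O : GlobModel C) (g : bdy C n ⟶ O) (x : At O (Shape.globe n)),
      IsAtt1 g (csph C n ε) x ∧ Contr O ∧ Cofibrant O := by
  induction n with
  | zero =>
    refine ⟨freeOn C (Shape.globe 0), initialIsInitial.to _, C.one _, ⟨rfl, fun Z k w _ =>
      ⟨yon w, initialIsInitial.hom_ext _ _, app_yon_one w⟩, fun Z h h' _ H => free_hom_ext H⟩,
      contr_free hC _, cofibrant_free _⟩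
  | succ n ih =>
    obtain ⟨O, g, x, H, hO, cO⟩ := ih
    obtain ⟨κ, hκ1, hκ2⟩ := H.desc (jj C n) (cend C n ε) (bd_cend n ε)
    have cκ : Cof κ := cof_iff.mpr fun E B p hp a b w => by
      obtain ⟨l, l1, l2, l3⟩ := cy_lp_one n ε p hp (g ≫ a) (app a _ x) b
        (by rw [bd_app, H.bdry, sphMap_comp])
        (by rw [← hκ1, Category.assoc, Category.assoc, w])
        (by rw [← hκ2, ← app_comp, ← app_comp, w])
      exact ⟨l, H.ext _ _ (by rw [← Category.assoc, hκ1, l1]) (by rw [app_comp, hκ2, l2]), l3⟩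
    obtain ⟨O', a1, a2, sq1⟩ := exists_pushout (yon (cend C n ε)) (freeMap (C.ofShape (Shape.σ n)))
    have cσ : Cof (freeMap (C.ofShape (Shape.σ n))) := cof_face _ _
    have hO' : Contr O' := contr_pushout hC sq1 cσ (cofibrant_free _) (cofibrant_cy n) (contr_cy n)
      (contr_free hC _) (contr_free hC _)
    have cO' : Cofibrant O' := cofibrant_pushout sq1 cσ (cofibrant_cy n)
    obtain ⟨top, htop⟩ : ∃ top : At O' (Shape.globe (n + 1)),
      top = app a2 (Shape.globe (n + 1)) (C.one (Shape.globe (n + 1))) := ⟨_, rfl⟩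
    have src_top : src O' top = app a1 _ (cend C n ε) := by
      have := app_congr sq1.w _ (C.one _)
      rw [app_comp, app_comp, app_yon_one, app_freeMap, C.one_seq] at this
      rw [this, htop, src, ← app_res, free_res, C.seq_one]
    obtain ⟨μ, hμ1, hμ2⟩ := H.desc (jj C n ≫ a1) (tgt O' top) (by
      rw [sphMap_comp, ← bd_cend, ← bd_app, ← src_top]
      exact bd_eq_bd_iff.mpr (par_symm (par_src_tgt top)))
    obtain ⟨P, b1, b2, sq2⟩ := exists_pushout μ κ
    have w : jj C n ≫ a1 ≫ b1 = jj C n ≫ b2 := by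
      rw [← Category.assoc, ← hμ1, Category.assoc, sq2.w, ← Category.assoc, hκ1]
    have g1 := (isPushout_side (C := C) n).inl_desc _ _ w
    have g2 := (isPushout_side (C := C) n).inr_desc _ _ w
    refine ⟨P, (isPushout_side n).desc _ _ w, app b1 _ top, ⟨bd_eq_iff.mpr ⟨?_, ?_⟩,
      fun Z k z hz => ?_, fun Z h h' h1 h2 => ?_⟩,
      contr_pushout hC sq2 cκ cO cO' hO' hO (contr_cy n), cofibrant_pushout sq2 cκ cO'⟩
    · rw [sphMap_fst, csph_fst, ← app_comp, g1, src, ← app_res, app_comp]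
      exact congrArg _ src_top
    · rw [sphMap_snd, csph_snd, ← app_comp, g2, tgt, ← app_res, ← hκ2, ← app_comp, ← sq2.w,
        app_comp, hμ2]
    · obtain ⟨z1, z2⟩ := bd_eq_iff.mp hz
      rw [sphMap_fst, csph_fst, ← app_comp] at z1
      rw [sphMap_snd, csph_snd, ← app_comp] at z2
      have w1 : yon (cend C n ε) ≫ side C n false ≫ k =
          freeMap (C.ofShape (Shape.σ n)) ≫ yon z := by
        rw [yon_comp, freeMap_yon, ← z1]; rfl
      have d1 := sq1.inl_desc _ _ w1
      have d2 := sq1.inr_desc _ _ w1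
      have d3 : app (sq1.desc _ _ w1) _ top = z := by
        rw [htop, ← app_comp, d2, app_yon_one]
      have w2 : μ ≫ sq1.desc _ _ w1 = κ ≫ side C n true ≫ k := by
        refine H.ext _ _ ?_ ?_
        · rw [← Category.assoc, hμ1, Category.assoc, d1, ← Category.assoc g, hκ1,
            ← Category.assoc, ← Category.assoc, jj_side n false true]
        · rw [app_comp, hμ2, app_comp, hκ2, ← z2, tgt, app_res, d3]
      refine ⟨sq2.desc _ _ w2, (isPushout_side n).hom_ext ?_ ?_, ?_⟩
      · rw [← Category.assoc, g1, Category.assoc, sq2.inl_desc, d1]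
      · rw [← Category.assoc, g2, sq2.inr_desc]
      · rw [← app_comp, sq2.inl_desc, d3]
    · refine sq2.hom_ext (sq1.hom_ext ?_ (free_hom_ext ?_)) ?_
      · rw [← Category.assoc, ← Category.assoc, ← g1, Category.assoc, Category.assoc, h1]
      · rw [htop] at h2; exact h2
      · rw [← g2, Category.assoc, Category.assoc, h1]

/-- A cylinder exists with given boundary and one given end. -/
theorem cy_extend_one (hC : C.IsCoheratorTheory) (ε : Bool) (n : ℕ) {W : GlobModel C}
    (k : bdy C n ⟶ W) (z : At W (Shape.globe n)) (hz : bd W n z = sphMap k n (csph C n ε)) :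
    ∃ l : cy C n ⟶ W, jj C n ≫ l = k ∧ app l _ (cend C n ε) = z := by
  obtain ⟨O, g, x, H, hO, -⟩ := exists_openBox hC ε n
  obtain ⟨ρ, h1, h2, -⟩ := cy_lp_one n ε (toPt O) hO.tfib g x (toPt _) H.bdry (toPt_ext _ _) rfl
  obtain ⟨h, h3, h4⟩ := H.desc k z hz
  exact ⟨ρ ≫ h, by rw [← Category.assoc, h1, h3], by rw [app_comp, h2, h4]⟩

theorem CylData.tfib_proj (hC : C.IsCoheratorTheory) (D : CylData C) (ε : Bool)
    (W : GlobModel C) : TFib (D.proj ε W) := by
  refine TFib.mk' (fun z => ?_) (fun n F G hp z h1 h2 => ?_)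
  · obtain ⟨l, -, hl⟩ := cy_extend_one hC ε 0 (initialIsInitial.to W) z rfl
    exact ⟨l, (D.app_proj_globe ε 0 l).trans hl⟩
  · rw [D.app_proj_globe] at h1 h2
    have w := D.par_path hp
    obtain ⟨l, l1, l2⟩ := cy_extend_one hC ε (n + 1) ((isPushout_side n).desc F G w) z
      (bd_eq_iff.mpr ⟨by rw [sphMap_fst, csph_fst, ← app_comp, IsPushout.inl_desc, h1],
        by rw [sphMap_snd, csph_snd, ← app_comp, IsPushout.inr_desc, h2]⟩)
    refine ⟨l, ?_, ?_, (D.app_proj_globe ε _ l).trans l2⟩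
    · rw [D.src_path, cst, Category.assoc, l1, IsPushout.inl_desc]
    · rw [D.tgt_path, cst, Category.assoc, l1, IsPushout.inr_desc]

/-- A cylinder exists with given source cylinder and both ends given. -/
theorem cy_extend_src (hC : C.IsCoheratorTheory) (n : ℕ) {W : GlobModel C} (F : cy C n ⟶ W)
    (x : Bool → At W (Shape.globe (n + 1))) (hx : ∀ ε, src W (x ε) = app F _ (cend C n ε)) :
    ∃ l : cy C (n + 1) ⟶ W, cst C n false ≫ l = F ∧ ∀ ε, app l _ (cend C (n + 1) ε) = x ε := by
  have cσ : Cof (freeMap (C.ofShape (Shape.σ n))) := cof_face _ _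
  -- attaching one cell along its source keeps contractibility
  have att : ∀ (A : GlobModel C) (a : At A (Shape.globe n)), Cofibrant A → Contr A →
      ∃ (A' : GlobModel C) (i : A ⟶ A') (t : At A' (Shape.globe (n + 1))),
        Cofibrant A' ∧ Contr A' ∧ src A' t = app i _ a ∧
        ∀ (k : A ⟶ W) (z : At W (Shape.globe (n + 1))), src W z = app k _ a →
          ∃ h : A' ⟶ W, i ≫ h = k ∧ app h _ t = z := by
    intro A a cA hA
    have sq := IsPushout.of_hasPushout (yon a) (freeMap (C.ofShape (Shape.σ n)))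
    refine ⟨_, pushout.inl _ _, app (pushout.inr (yon a) (freeMap (C.ofShape (Shape.σ n)))) _
      (C.one _), cofibrant_pushout sq cσ cA, contr_pushout hC sq cσ (cofibrant_free _) cA hA
        (contr_free hC _) (contr_free hC _), ?_, fun k z hz => ?_⟩
    · have := app_congr sq.w _ (C.one _)
      rw [app_comp, app_comp, app_yon_one, app_freeMap, C.one_seq] at this
      rw [this, src, ← app_res, free_res, C.seq_one]
    · have w : yon a ≫ k = freeMap (C.ofShape (Shape.σ n)) ≫ yon z := by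
        rw [yon_comp, freeMap_yon, ← hz]; rfl
      exact ⟨sq.desc _ _ w, sq.inl_desc _ _ w, by rw [← app_comp, sq.inr_desc, app_yon_one]⟩
  obtain ⟨A, i, t, cA, hA, ht, dA⟩ := att _ (cend C n false) (cofibrant_cy n) (contr_cy n)
  obtain ⟨A', i', t', -, hA', ht', dA'⟩ := att A (app i _ (cend C n true)) cA hA
  let y : Bool → At A' (Shape.globe (n + 1)) := fun ε => Bool.rec (app i' _ t) t' ε
  have hy : ∀ ε, src A' (y ε) = app (i ≫ i') _ (cend C n ε) := fun ε => by
    cases ε
    · exact (app_res i' _ t).symm.trans (congrArg _ ht)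
    · exact ht'
  obtain ⟨G, hG1, hG2⟩ := cy_extend n hA' (jj C n ≫ i ≫ i') (fun ε => tgt A' (y ε)) fun ε => by
    rw [sphMap_comp, ← bd_cend, ← bd_app, ← hy]
    exact bd_eq_bd_iff.mpr (par_symm (par_src_tgt _))
  obtain ⟨ρ, h1, -, h3⟩ := cy_fill hA' (i ≫ i') G hG1.symm y hy (fun ε => (hG2 ε).symm)
  obtain ⟨h, h4, h5⟩ := dA F (x false) (hx false)
  obtain ⟨h', h6, h7⟩ := dA' h (x true) (by rw [← app_comp, h4, hx])
  refine ⟨ρ ≫ h', by rw [← Category.assoc, h1, Category.assoc, h6, h4], fun ε => ?_⟩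
  rw [app_comp, h3]
  cases ε
  · exact (app_congr h6 _ t).trans h5
  · exact h7

/-- The pushout theorem for cofibrant models. -/
theorem isWeakEquiv_pushout (hC : C.IsCoheratorTheory) (e : C.UnitChoice) {X : GlobModel C}
    (hX : Cofibrant X) {n : ℕ} (a : freeOn C (Shape.globe n) ⟶ X) {Y : GlobModel C} (i : X ⟶ Y)
    (b : freeOn C (Shape.globe (n + 1)) ⟶ Y)
    (sq : IsPushout a (freeMap (C.ofShape (Shape.σ n))) i b) : IsWeakEquiv e i := by
  obtain ⟨D⟩ := exists_cylData hC
  obtain ⟨s, hs⟩ := hX (D.proj false X) (D.tfib_proj hC false X) (𝟙 X)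
  obtain ⟨x, hx⟩ : ∃ x : At X (Shape.globe n),
    x = app a (Shape.globe n) (C.one (Shape.globe n)) := ⟨_, rfl⟩
  obtain ⟨p, hp⟩ : ∃ p : At Y (Shape.globe (n + 1)),
    p = app b (Shape.globe (n + 1)) (C.one (Shape.globe (n + 1))) := ⟨_, rfl⟩
  have src_p : src Y p = app i _ x := by
    have := app_congr sq.w _ (C.one _)
    rw [app_comp, app_comp, app_freeMap, C.one_seq] at this
    rw [hx, this, hp, src, ← app_res, free_res, C.seq_one]
  obtain ⟨φ, hφ⟩ : ∃ φ : X ⟶ X, φ = s ≫ D.proj true X := ⟨_, rfl⟩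
  obtain ⟨F, hF⟩ : ∃ F : cy C n ⟶ X, F = app s (Shape.globe n) x := ⟨_, rfl⟩
  have F0 : app F _ (cend C n false) = x := by
    rw [← D.app_proj_globe false n F, hF]; exact app_congr hs _ x
  have F1 : app F _ (cend C n true) = app φ _ x := by
    rw [← D.app_proj_globe true n F, hF, hφ]; rfl
  obtain ⟨v, hv⟩ : ∃ v : At X (Shape.globe (n + 1)), src X v = app φ _ x :=
    ⟨_, src_unitCell X e n _⟩
  obtain ⟨l, l1, l2⟩ := cy_extend_src hC n (F ≫ i)
    (fun ε => Bool.rec p (app i _ v) ε) fun ε => by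
      cases ε
      · rw [app_comp, F0]; exact src_p
      · rw [app_comp, F1]
        exact (app_res i _ _).symm.trans (congrArg _ hv)
  have w1 : a ≫ s ≫ D.pathMap i =
      freeMap (C.ofShape (Shape.σ n)) ≫ yon (X := D.path Y) (S := Shape.globe (n + 1)) l := by
    rw [freeMap_yon]
    refine free_hom_ext ?_
    rw [app_yon_one]
    refine Eq.trans ?_ (l1.symm.trans (D.src_path l).symm)
    rw [hF, hx]; rfl
  have w2 : a ≫ φ = freeMap (C.ofShape (Shape.σ n)) ≫ yon v := by
    rw [freeMap_yon]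
    refine free_hom_ext ?_
    rw [app_yon_one, app_comp, ← hx]
    exact hv.symm
  have H0 : sq.desc _ _ w1 ≫ D.proj false Y = 𝟙 Y := by
    refine sq.hom_ext ?_ (free_hom_ext ?_)
    · rw [sq.inl_desc_assoc, Category.assoc, D.pathMap_proj, ← Category.assoc, hs,
        Category.id_comp, Category.comp_id]
    · rw [sq.inr_desc_assoc, app_comp, app_yon_one, D.app_proj_globe, l2, Category.comp_id]
      exact hp
  have H1 : sq.desc _ _ w1 ≫ D.proj true Y = sq.desc _ _ w2 ≫ i := by
    refine sq.hom_ext ?_ (free_hom_ext ?_)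
    · rw [sq.inl_desc_assoc, sq.inl_desc_assoc, Category.assoc, D.pathMap_proj, ← Category.assoc,
        hφ]
    · rw [sq.inr_desc_assoc, sq.inr_desc_assoc, app_comp, app_comp, app_yon_one, app_yon_one,
        D.app_proj_globe, l2]
  have key : ∀ {Z W : GlobModel C} (t : Z ⟶ D.path W), IsWeakEquiv e (t ≫ D.proj false W) →
      IsWeakEquiv e (t ≫ D.proj true W) := fun t ht =>
    isWeakEquiv_comp (isWeakEquiv_of_comp ((D.tfib_proj hC false _).isWeakEquiv e) ht)
      ((D.tfib_proj hC true _).isWeakEquiv e)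
  refine isWeakEquiv_of_two_six (g := sq.desc _ _ w2) (h := i) ?_ ?_
  · rw [sq.inl_desc, hφ]
    exact key s (by rw [hs]; exact isWeakEquiv_id e X)
  · rw [← H1]
    exact key _ (by rw [H0]; exact isWeakEquiv_id e Y)

end Crest.Agent.R248
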