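import Crest.Agent.R248.TorA

/-!
# Row 248: left derived functors of the colimit on a small category

`Tor B q M` is the `q`-th homology of a small category `B` with coefficients in a functor `M` to
abelian groups. It is computed by an explicit exact functorial complex.
-/

open CategoryTheory Limits Opposite

set_option backward.isDefEq.respectTransparency false

noncomputable section

namespace Crest.Agent.R248

universe u

/-- The free abelian group functor, with finitely supported functions. -/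
def ZF : Type u ⥤ AddCommGrpCat.{u} where
  obj X := AddCommGrpCat.of (X →₀ ℤ)
  map f := AddCommGrpCat.ofHom (Finsupp.mapDomain.addMonoidHom f)
  map_id X := by
    ext1
    refine AddMonoidHom.ext fun x => ?_
    exact Finsupp.mapDomain_id
  map_comp f g := by
    ext1
    refine AddMonoidHom.ext fun x => ?_
    exact Finsupp.mapDomain_comp (v := x) (f := f) (g := g)

theorem ZF_map_apply {X Y : Type u} (f : X ⟶ Y) (x : X →₀ ℤ) :
    (ZF.map f).hom x = Finsupp.mapDomain f x := rfl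

variable {B : Type u} [SmallCategory B]

/-- The constant functor with value the free abelian group on one generator. -/
abbrev Zc (B : Type u) [SmallCategory B] : B ⥤ AddCommGrpCat.{u} :=
  (Functor.const B).obj PUnit.{u + 1} ⋙ ZF

/-- The homology of a small category with coefficients. -/
def Tor (B : Type u) [SmallCategory B] (q : ℕ) : (B ⥤ AddCommGrpCat.{u}) ⥤ AddCommGrpCat.{u} :=
  torCx B ⋙ HomologicalComplex.homologyFunctor _ _ q

instance (q : ℕ) : (Tor B q).Additive := by unfold Tor; infer_instance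

/-- Vanishing of the homology in degree `q`. -/
def TorZero (q : ℕ) (M : B ⥤ AddCommGrpCat.{u}) : Prop := ∀ z : (Tor B q).obj M, z = 0

theorem TorZero.of_iso {q : ℕ} {M N : B ⥤ AddCommGrpCat.{u}} (e : M ≅ N) (h : TorZero q M) :
    TorZero q N := by
  intro z
  have : z = ((Tor B q).map e.hom).hom (((Tor B q).map e.inv).hom z) := by
    rw [← ab_comp_apply, ← Functor.map_comp, e.inv_hom_id, CategoryTheory.Functor.map_id]; rfl
  rw [this, h (((Tor B q).map e.inv).hom z), map_zero]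

theorem tor_comp {L M N : Fn B} (f : L ⟶ M) (g : M ⟶ N) (q : ℕ) (x : (Tor B q).obj L) :
    ((Tor B q).map (f ≫ g)).hom x = ((Tor B q).map g).hom (((Tor B q).map f).hom x) := by
  rw [Functor.map_comp]; rfl

theorem tor_comp_zero {L M N : Fn B} {f : L ⟶ M} {g : M ⟶ N} (h : f ≫ g = 0) (q : ℕ)
    (x : (Tor B q).obj L) : ((Tor B q).map g).hom (((Tor B q).map f).hom x) = 0 := by
  rw [← tor_comp, h, Functor.map_zero]; rfl

theorem tor_id (M : Fn B) (q : ℕ) (x : (Tor B q).obj M) : ((Tor B q).map (𝟙 M)).hom x = x := by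
  rw [CategoryTheory.Functor.map_id]; rfl

/-! ### The long exact sequence -/

namespace SES

variable {L M N : Fn B} {i : L ⟶ M} {p : M ⟶ N}

/-- The connecting homomorphism. -/
def δ (h : SES i p) (q : ℕ) : (Tor B (q + 1)).obj N ⟶ (Tor B q).obj L :=
  h.torCx.δ (q + 1) q rfl

theorem δ_comp (h : SES i p) (q : ℕ) (x : (Tor B (q + 1)).obj N) :
    ((Tor B q).map i).hom ((h.δ q).hom x) = 0 := ab_congr (h.torCx.δ_comp (q + 1) q rfl) x

theorem ex₁ (h : SES i p) (q : ℕ) (x : (Tor B q).obj L) (hx : ((Tor B q).map i).hom x = 0) :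
    ∃ y, (h.δ q).hom y = x :=
  (ShortComplex.ab_exact_iff _).mp (h.torCx.homology_exact₁ (q + 1) q rfl) x hx

theorem ex₂ (h : SES i p) (q : ℕ) (x : (Tor B q).obj M) (hx : ((Tor B q).map p).hom x = 0) :
    ∃ y, ((Tor B q).map i).hom y = x :=
  (ShortComplex.ab_exact_iff _).mp (h.torCx.homology_exact₂ q) x hx

theorem ex₃ (h : SES i p) (q : ℕ) (x : (Tor B (q + 1)).obj N) (hx : (h.δ q).hom x = 0) :
    ∃ y, ((Tor B (q + 1)).map p).hom y = x :=
  (ShortComplex.ab_exact_iff _).mp (h.torCx.homology_exact₃ (q + 1) q rfl) x hx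

theorem δ_nat {L' M' N' : Fn B} {i' : L' ⟶ M'} {p' : M' ⟶ N'} (h : SES i p) (h' : SES i' p')
    (a : L ⟶ L') (b : M ⟶ M') (c : N ⟶ N') (h1 : a ≫ i' = i ≫ b) (h2 : b ≫ p' = p ≫ c) (q : ℕ)
    (x : (Tor B (q + 1)).obj N) :
    ((Tor B q).map a).hom ((h.δ q).hom x) = (h'.δ q).hom (((Tor B (q + 1)).map c).hom x) :=
  ab_congr (HomologicalComplex.HomologySequence.δ_naturality
    (ShortComplex.homMk ((Crest.Agent.R248.torCx B).map a) ((Crest.Agent.R248.torCx B).map b)
      ((Crest.Agent.R248.torCx B).map c)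
      (by dsimp only; rw [← Functor.map_comp, ← Functor.map_comp, h1])
      (by dsimp only; rw [← Functor.map_comp, ← Functor.map_comp, h2]))
    h.torCx h'.torCx (q + 1) q rfl) x

end SES

/-! ### Degree zero -/

/-- The projection to the homology in degree zero. -/
def torπ (M : Fn B) : (cG B).obj M ⟶ (Tor B 0).obj M :=
  ((torCx B).obj M).pOpcycles 0 ≫ ((torCx B).obj M).isoHomologyι₀.inv

instance (M : Fn B) : Epi (torπ M) := by unfold torπ; infer_instance

theorem torπ_surjective (M : Fn B) : Function.Surjective (torπ M).hom :=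
  (AddCommGrpCat.epi_iff_surjective _).mp inferInstance

theorem torπ_nat {M N : Fn B} (f : M ⟶ N) :
    torπ M ≫ (Tor B 0).map f = (cG B).map f ≫ torπ N := by
  have h1 := ChainComplex.isoHomologyι₀_inv_naturality ((torCx B).map f)
  have h2 := HomologicalComplex.p_opcyclesMap ((torCx B).map f) 0
  unfold torπ
  rw [Category.assoc]
  refine (congrArg _ h1).trans ?_
  rw [← Category.assoc, h2, Category.assoc]
  rfl

theorem dK_torπ (M : Fn B) : dK' M ≫ torπ M = 0 := by
  have := ((torCx B).obj M).d_pOpcycles 1 0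
  rw [torCx_d M 0] at this
  unfold torπ
  rw [← Category.assoc]
  exact (congrArg (· ≫ _) this).trans zero_comp

theorem exists_torDesc (M : Fn B) {A : AddCommGrpCat.{u}} (k : (cG B).obj M ⟶ A)
    (hk : dK' M ≫ k = 0) : ∃ l : (Tor B 0).obj M ⟶ A, torπ M ≫ l = k := by
  refine ⟨((torCx B).obj M).isoHomologyι₀.hom ≫ ((torCx B).obj M).descOpcycles k 1 (by simp)
    (by rw [torCx_d M 0]; exact hk), ?_⟩
  unfold torπ
  rw [Category.assoc, Iso.inv_hom_id_assoc]
  exact HomologicalComplex.p_descOpcycles _ _ _ _ _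

/-- The homology in degree zero is a cocone. -/
def torCocone (M : Fn B) : Cocone M :=
  mkCocone M ((Tor B 0).obj M) (fun b => (torπ M).hom.comp (cin M b)) (fun b b' f x => by
    obtain ⟨k, hk⟩ := exists_ker (Gε M) b' (gin M (𝟙 b') ((M.map f).hom x) - gin M f x) (by
      rw [map_sub, Gε_gin, Gε_gin, fn_map_id, sub_self])
    have := ab_congr (dK_torπ M) (cin _ b' k)
    rw [ab_comp_apply, dK_cin, hk, map_sub, gα_gin, gα_gin, map_sub] at this
    exact sub_eq_zero.mp this)

theorem torCocone_ι (M : Fn B) (b : B) (x : M.obj b) :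
    ((torCocone M).ι.app b).hom x = (torπ M).hom (cin M b x) := rfl

theorem exists_torCocone_desc (M : Fn B) (s : Cocone M) :
    ∃ l : (Tor B 0).obj M ⟶ s.pt, ∀ b, (torCocone M).ι.app b ≫ l = s.ι.app b := by
  have key : ∀ b (g : (Gobj M).obj b), cdesc (A := s.pt) (fun a => (s.ι.app a).hom) (gα M b g) =
      (s.ι.app b).hom (((Gε M).app b).hom g) := by
    intro b g
    induction g using gv_induction with
    | h0 => rw [map_zero, map_zero, map_zero]; exact (map_zero (s.ι.app b).hom).symm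
    | h1 a f y => rw [gα_gin, cdesc_cin, Gε_gin, cocone_w]; rfl
    | h2 x y hx hy =>
      rw [map_add, map_add, map_add, hx, hy]; exact (map_add (s.ι.app b).hom _ _).symm
  obtain ⟨l, hl⟩ := exists_torDesc M
    (AddCommGrpCat.ofHom (cdesc (A := s.pt) (fun a => (s.ι.app a).hom))) (by
      ext1
      refine cv_ext fun a x => ?_
      change cdesc (A := s.pt) (fun a => (s.ι.app a).hom) ((dK' M).hom (cin _ a x)) = 0
      rw [dK_cin, key, kerι_mem, map_zero])
  exact ⟨l, fun b => ab_ext fun x => (ab_congr hl (cin M b x)).trans (cdesc_cin _ _ _)⟩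

/-- The homology in degree zero is the colimit. -/
def isColimit_torCocone (M : Fn B) : IsColimit (torCocone M) where
  desc s := (exists_torCocone_desc M s).choose
  fac s := (exists_torCocone_desc M s).choose_spec
  uniq s m hm := by
    rw [← cancel_epi (torπ M)]
    ext1
    refine cv_ext fun a x => ?_
    exact (ab_congr (hm a) x).trans
      (ab_congr ((exists_torCocone_desc M s).choose_spec a) x).symm

theorem torCocone_nat {M N : Fn B} (f : M ⟶ N) (b : B) :
    (torCocone M).ι.app b ≫ (Tor B 0).map f = f.app b ≫ (torCocone N).ι.app b :=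
  ab_ext fun x => (ab_congr (torπ_nat f) (cin M b x)).trans
    (congrArg (torπ N).hom (cG_map_cin f b x))

theorem tor_zero_surjective {M N : Fn B} (p : M ⟶ N)
    (h : ∀ b, Function.Surjective (p.app b).hom) :
    Function.Surjective ((Tor B 0).map p).hom := by
  intro z
  obtain ⟨y, rfl⟩ := torπ_surjective N z
  obtain ⟨x, rfl⟩ : ∃ x, ((cG B).map p).hom x = y := (DirectSum.map_surjective _).mpr h y
  exact ⟨(torπ M).hom x, ab_congr (torπ_nat p) x⟩

/-- Comparison of a colimit with the homology in degree zero. -/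
theorem exists_tor_iso {M : Fn B} (c : Cocone M) (hc : IsColimit c) :
    ∃ e : c.pt ⟶ (Tor B 0).obj M, Function.Bijective e.hom ∧
      ∀ b, c.ι.app b ≫ e = (torCocone M).ι.app b :=
  ⟨(hc.coconePointUniqueUpToIso (isColimit_torCocone M)).hom,
    (ConcreteCategory.isIso_iff_bijective _).mp inferInstance,
    hc.comp_coconePointUniqueUpToIso_hom _⟩

theorem tor_iso_nat {M N : Fn B} {c : Cocone M} (hc : IsColimit c) {c' : Cocone N}
    {e : c.pt ⟶ (Tor B 0).obj M} (he : ∀ b, c.ι.app b ≫ e = (torCocone M).ι.app b)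
    {e' : c'.pt ⟶ (Tor B 0).obj N} (he' : ∀ b, c'.ι.app b ≫ e' = (torCocone N).ι.app b)
    {f : M ⟶ N} {g : c.pt ⟶ c'.pt} (hg : ∀ b, c.ι.app b ≫ g = f.app b ≫ c'.ι.app b) (x : c.pt) :
    e'.hom (g.hom x) = ((Tor B 0).map f).hom (e.hom x) := by
  have : g ≫ e' = e ≫ (Tor B 0).map f := hc.hom_ext fun b => by
    rw [← Category.assoc, hg, Category.assoc, he', ← Category.assoc, he, torCocone_nat]
  exact ab_congr this x

/-- An augmented complex of functors to abelian groups. -/
structure Cx (B : Type u) [SmallCategory B] where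
  X : ℕ → B ⥤ AddCommGrpCat.{u}
  d : ∀ j, X (j + 1) ⟶ X j
  M : B ⥤ AddCommGrpCat.{u}
  ε : X 0 ⟶ M
  dd : ∀ j, d (j + 1) ≫ d j = 0
  dε : d 0 ≫ ε = 0

namespace Cx

/-- The augmentation is pointwise onto. -/
def Surj (P : Cx B) : Prop := ∀ b, Function.Surjective (P.ε.app b).hom

/-- Pointwise exactness at the `j`-th term. -/
def Ex (P : Cx B) : ℕ → Prop
  | 0 => ∀ b x, (P.ε.app b).hom x = 0 → ∃ y, ((P.d 0).app b).hom y = x
  | j + 1 => ∀ b x, ((P.d j).app b).hom x = 0 → ∃ y, ((P.d (j + 1)).app b).hom y = x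

end Cx

/-- Colimits of the terms of a complex, with the induced differentials. -/
structure CoCx (P : Cx B) where
  c : ∀ j, Cocone (P.X j)
  isColimit : ∀ j, IsColimit (c j)
  d : ∀ j, (c (j + 1)).pt ⟶ (c j).pt
  comm : ∀ j b, (c (j + 1)).ι.app b ≫ d j = (P.d j).app b ≫ (c j).ι.app b

/-- Exactness of the complex of colimits at the term `j + 1`. -/
def CoCx.Ex {P : Cx B} (A : CoCx P) (j : ℕ) : Prop :=
  ∀ x, (A.d j).hom x = 0 → ∃ y, (A.d (j + 1)).hom y = x

/-- Exactness of the complex of homology groups of degree zero. -/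
def Cx.TEx (P : Cx B) (j : ℕ) : Prop :=
  ∀ x, ((Tor B 0).map (P.d j)).hom x = 0 → ∃ y, ((Tor B 0).map (P.d (j + 1))).hom y = x

theorem CoCx.ex_iff {P : Cx B} (A : CoCx P) (j : ℕ) : A.Ex j ↔ P.TEx j := by
  choose e hb he using fun j => exists_tor_iso (A.c j) (A.isColimit j)
  have nat : ∀ j x, (e j).hom ((A.d j).hom x) =
      ((Tor B 0).map (P.d j)).hom ((e (j + 1)).hom x) := fun j x =>
    tor_iso_nat (A.isColimit (j + 1)) (he (j + 1)) (he j) (A.comm j) x
  constructor
  · intro h x hx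
    obtain ⟨x, rfl⟩ := (hb (j + 1)).2 x
    obtain ⟨y, rfl⟩ := h x ((hb j).1 (by rw [nat, hx, map_zero]))
    exact ⟨_, (nat _ y).symm⟩
  · intro h x hx
    obtain ⟨y, hy⟩ := h ((e (j + 1)).hom x) (by rw [← nat, hx, map_zero])
    obtain ⟨y, rfl⟩ := (hb (j + 2)).2 y
    exact ⟨y, (hb (j + 1)).1 (by rw [nat, hy])⟩

namespace Cx

/-- The shifted complex, augmented over the kernel of the augmentation. -/
def shift (P : Cx B) : Cx B where
  X j := P.X (j + 1)
  d j := P.d (j + 1)
  M := kerF P.ε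
  ε := kerLift _ (P.d 0) P.dε
  dd j := P.dd (j + 1)
  dε := ker_hom_ext _ (by rw [Category.assoc, kerLift_ι, P.dd, zero_comp])

variable {P : Cx B}

theorem shift_ε (P : Cx B) : P.shift.ε ≫ kerι P.ε = P.d 0 := rfl

theorem shift_surj (h : P.Ex 0) : P.shift.Surj := fun b z => by
  obtain ⟨y, hy⟩ := h b _ (kerι_mem P.ε b z)
  exact ⟨y, kerι_injective _ b hy⟩

theorem shift_ex {j : ℕ} (h : P.Ex (j + 1)) : P.shift.Ex j := by
  cases j with
  | zero => exact fun b x hx => h b x (congrArg ((kerι P.ε).app b).hom hx)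
  | succ j => exact h

theorem ses (h : P.Surj) : SES (kerι P.ε) P.ε := ses_ker _ h

theorem tor_d_zero (q : ℕ) (x : (Tor B q).obj (P.X 1)) : ((Tor B q).map (P.d 0)).hom x =
    ((Tor B q).map (kerι P.ε)).hom (((Tor B q).map P.shift.ε).hom x) :=
  tor_comp P.shift.ε (kerι P.ε) q x

theorem tor_right_exact (hs : P.Surj) (h0 : P.Ex 0) (x : (Tor B 0).obj (P.X 0))
    (hx : ((Tor B 0).map P.ε).hom x = 0) : ∃ y, ((Tor B 0).map (P.d 0)).hom y = x := by
  obtain ⟨z, rfl⟩ := (ses hs).ex₂ 0 x hx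
  obtain ⟨y, rfl⟩ := tor_zero_surjective _ (shift_surj h0) z
  exact ⟨y, tor_d_zero 0 y⟩

theorem tex_zero (h0 : P.Ex 0) (h1 : P.Ex 1)
    (inj : Function.Injective ((Tor B 0).map (kerι P.ε)).hom) : P.TEx 0 := fun x hx =>
  tor_right_exact (shift_surj h0) (shift_ex h1) x (inj (by rw [← tor_d_zero, hx, map_zero]))

theorem tex_of_torZero (q : ℕ) (hs : P.Surj)
    (hex : ∀ j, j ≤ q + 1 → P.Ex j) (hX : ∀ i j, i + 1 + j = q → TorZero (i + 1) (P.X j))
    (hM : TorZero (q + 1) P.M) : P.TEx q := by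
  induction q generalizing P with
  | zero =>
    refine tex_zero (hex 0 (by omega)) (hex 1 le_rfl) ((injective_iff_map_eq_zero _).mpr ?_)
    intro z hz
    obtain ⟨y, rfl⟩ := (ses hs).ex₁ 0 z hz
    rw [hM y, map_zero]
  | succ q ih =>
    refine ih (P := P.shift) (shift_surj (hex 0 (by omega)))
      (fun j hj => shift_ex (hex _ (by omega))) (fun i j h => hX i (j + 1) (by omega)) ?_
    intro z
    obtain ⟨y, rfl⟩ := (ses hs).ex₁ (q + 1) z (hX q 0 rfl _)
    rw [hM y, map_zero]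

theorem tor_ε_surj (q : ℕ) (hs : P.Surj)
    (hex : ∀ j, j ≤ q → P.Ex j) (hX : ∀ i j, i + 1 + j = q → TorZero (i + 1) (P.X (j + 1)))
    (hA : P.TEx q) : Function.Surjective ((Tor B (q + 1)).map P.ε).hom := by
  induction q generalizing P with
  | zero =>
    intro w
    refine (ses hs).ex₃ 0 w ?_
    obtain ⟨x, hx⟩ := tor_zero_surjective _ (shift_surj (hex 0 le_rfl)) (((ses hs).δ 0).hom w)
    obtain ⟨y, rfl⟩ := hA x (by rw [tor_d_zero, hx, SES.δ_comp])
    rw [← hx]
    exact tor_comp_zero P.shift.dε 0 y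
  | succ q ih =>
    intro w
    refine (ses hs).ex₃ (q + 1) w ?_
    obtain ⟨x, hx⟩ := ih (P := P.shift) (shift_surj (hex 0 (by omega)))
      (fun j hj => shift_ex (hex _ (by omega))) (fun i j h => hX i (j + 1) (by omega)) hA
      (((ses hs).δ (q + 1)).hom w)
    rw [← hx, hX q 0 rfl x, map_zero]

theorem tor_bij {P P' : Cx B} (f : ∀ j, P.X j ⟶ P'.X j)
    (fM : P.M ⟶ P'.M) (hd : ∀ j, P.d j ≫ f j = f (j + 1) ≫ P'.d j) (hε : P.ε ≫ fM = f 0 ≫ P'.ε)
    (hgb : ∀ j, Function.Bijective ((Tor B 0).map (f j)).hom)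
    (hs : P.Surj) (hs' : P'.Surj) (hex : ∀ j, P.Ex j) (hex' : ∀ j, P'.Ex j)
    (hX : ∀ i j, TorZero (i + 1) (P.X j)) (hX' : ∀ i j, TorZero (i + 1) (P'.X j)) (q : ℕ) :
    Function.Bijective ((Tor B q).map fM).hom := by
  induction q generalizing P P' with
  | zero =>
    refine ⟨(injective_iff_map_eq_zero _).mpr fun w hw => ?_, fun w => ?_⟩
    · obtain ⟨x, rfl⟩ := tor_zero_surjective _ hs w
      rw [← tor_comp, hε, tor_comp] at hw
      obtain ⟨y, hy⟩ := tor_right_exact hs' (hex' 0) _ hw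
      obtain ⟨y, rfl⟩ := (hgb 1).2 y
      rw [← tor_comp, ← hd, tor_comp] at hy
      rw [← (hgb 0).1 hy]
      exact tor_comp_zero P.dε 0 y
    · obtain ⟨x, rfl⟩ := tor_zero_surjective _ hs' w
      obtain ⟨x, rfl⟩ := (hgb 0).2 x
      exact ⟨((Tor B 0).map P.ε).hom x, by rw [← tor_comp, hε, tor_comp]⟩
  | succ q ih =>
    obtain ⟨fZ, hZ⟩ : ∃ fZ : kerF P.ε ⟶ kerF P'.ε, fZ ≫ kerι P'.ε = kerι P.ε ≫ f 0 :=
      ⟨kerLift _ _ (by rw [Category.assoc, ← hε, ← Category.assoc, kerι_comp, zero_comp]), rfl⟩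
    have IH := ih (P := P.shift) (P' := P'.shift) (fun j => f (j + 1)) fZ (fun j => hd (j + 1))
      (ker_hom_ext _ (by
        rw [Category.assoc, hZ, ← Category.assoc, shift_ε, Category.assoc, shift_ε, hd]))
      (fun j => hgb (j + 1)) (shift_surj (hex 0)) (shift_surj (hex' 0))
      (fun j => shift_ex (hex _)) (fun j => shift_ex (hex' _)) (fun i j => hX i _)
      (fun i j => hX' i _)
    have nat := (ses hs).δ_nat (ses hs') fZ (f 0) fM hZ hε.symm q
    have inj : ∀ {P : Cx B} (hs : P.Surj), TorZero (q + 1) (P.X 0) →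
        Function.Injective ((ses hs).δ q).hom := fun hs h =>
      (injective_iff_map_eq_zero _).mpr fun w hw => by
        obtain ⟨y, rfl⟩ := (ses hs).ex₃ q w hw
        rw [h y, map_zero]
    have inj0 : Function.Injective ((Tor B q).map (f 0)).hom := by
      cases q with
      | zero => exact (hgb 0).1
      | succ q => exact fun a b _ => (hX q 0 a).trans (hX q 0 b).symm
    refine ⟨fun a b h => inj hs (hX q 0) (IH.1 ?_), fun w => ?_⟩
    · exact (nat a).trans ((congrArg _ h).trans (nat b).symm)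
    · obtain ⟨z, hz⟩ := IH.2 (((ses hs').δ q).hom w)
      obtain ⟨y, rfl⟩ := (ses hs).ex₁ q z (inj0 (by
        rw [← tor_comp, ← hZ, tor_comp, map_zero]
        exact (congrArg _ hz).trans ((ses hs').δ_comp q w)))
      exact ⟨y, inj hs' (hX' q 0) ((nat y).symm.trans hz)⟩

end Cx

theorem CoCx.ex_of_torZero {P : Cx B} (A : CoCx P) (q : ℕ) (hs : P.Surj)
    (hex : ∀ j, j ≤ q + 1 → P.Ex j) (hX : ∀ i j, i + 1 + j = q → TorZero (i + 1) (P.X j))
    (hM : TorZero (q + 1) P.M) : A.Ex q := (A.ex_iff q).mpr (Cx.tex_of_torZero q hs hex hX hM)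

theorem CoCx.tor_ε_surjective {P : Cx B} (A : CoCx P) (q : ℕ) (hs : P.Surj)
    (hex : ∀ j, j ≤ q → P.Ex j) (hX : ∀ i j, i + 1 + j = q → TorZero (i + 1) (P.X (j + 1)))
    (hA : A.Ex q) : Function.Surjective ((Tor B (q + 1)).map P.ε).hom :=
  Cx.tor_ε_surj q hs hex hX ((A.ex_iff q).mp hA)

theorem CoCx.torZero_of_ex {P : Cx B} (A : CoCx P) (q : ℕ) (hs : P.Surj)
    (hex : ∀ j, j ≤ q → P.Ex j) (hX : ∀ i j, i + j = q → TorZero (i + 1) (P.X j))
    (hA : A.Ex q) : TorZero (q + 1) P.M := by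
  intro w
  obtain ⟨x, rfl⟩ := A.tor_ε_surjective q hs hex (fun i j h => hX i (j + 1) (by omega)) hA w
  rw [hX q 0 rfl x, map_zero]

theorem CoCx.tor_d_surjective {P : Cx B} (A : CoCx P) (q : ℕ) (hs : P.Surj)
    (hex : ∀ j, P.Ex j) (hX : ∀ i j, i + 1 ≤ q → TorZero (i + 1) (P.X j))
    (hM : TorZero (q + 1) P.M) (hA : A.Ex (q + 1)) :
    Function.Surjective ((Tor B (q + 1)).map (P.d 0)).hom := by
  intro x
  obtain ⟨z, rfl⟩ := (Cx.ses hs).ex₂ (q + 1) x (hM _)
  obtain ⟨y, rfl⟩ := Cx.tor_ε_surj (P := P.shift) q (Cx.shift_surj (hex 0))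
    (fun j _ => Cx.shift_ex (hex _)) (fun i j h => hX i _ (by omega)) ((A.ex_iff (q + 1)).mp hA) z
  exact ⟨y, Cx.tor_d_zero _ y⟩

/-- Comparison of two acyclic resolutions whose colimits agree. -/
theorem tor_bijective {P P' : Cx B} (A : CoCx P) (A' : CoCx P') (f : ∀ j, P.X j ⟶ P'.X j)
    (fM : P.M ⟶ P'.M) (hd : ∀ j, P.d j ≫ f j = f (j + 1) ≫ P'.d j) (hε : P.ε ≫ fM = f 0 ≫ P'.ε)
    (g : ∀ j, (A.c j).pt ⟶ (A'.c j).pt)
    (hg : ∀ j b, (A.c j).ι.app b ≫ g j = (f j).app b ≫ (A'.c j).ι.app b)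
    (hgb : ∀ j, Function.Bijective (g j).hom)
    (hs : P.Surj) (hs' : P'.Surj) (hex : ∀ j, P.Ex j) (hex' : ∀ j, P'.Ex j)
    (hX : ∀ i j, TorZero (i + 1) (P.X j)) (hX' : ∀ i j, TorZero (i + 1) (P'.X j)) (q : ℕ) :
    Function.Bijective ((Tor B q).map fM).hom := by
  refine Cx.tor_bij f fM hd hε (fun j => ?_) hs hs' hex hex' hX hX' q
  obtain ⟨e, hb, he⟩ := exists_tor_iso (A.c j) (A.isColimit j)
  obtain ⟨e', hb', he'⟩ := exists_tor_iso (A'.c j) (A'.isColimit j)
  have : (((Tor B 0).map (f j)).hom ∘ e.hom) = e'.hom ∘ (g j).hom :=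
    funext fun x => (tor_iso_nat (A.isColimit j) he he' (hg j) x).symm
  exact (Function.Bijective.of_comp_iff _ hb).mp (this ▸ hb'.comp (hgb j))

/-! ### Split functors are acyclic -/

/-- The counit has a natural section. -/
def Split (N : Fn B) : Prop := ∃ s : N ⟶ Gobj N, s ≫ Gε N = 𝟙 N

theorem split_G (M : Fn B) : Split (Gobj M) :=
  ⟨Gdesc fun a => (gin (Gobj M) (𝟙 a)).comp (gin M (𝟙 a)), G_hom_ext fun a b f x => by
    rw [fn_comp_apply, Gdesc_gin, AddMonoidHom.comp_apply, Gobj_map_gin, Gε_gin, Gobj_map_gin,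
      Category.id_comp, Category.id_comp]
    rfl⟩

theorem Split.of_retract {N N' : Fn B} (i : N' ⟶ N) (r : N ⟶ N') (h : i ≫ r = 𝟙 N')
    (hN : Split N) : Split N' := by
  obtain ⟨s, hs⟩ := hN
  exact ⟨i ≫ s ≫ Gmap r, by
    rw [Category.assoc, Category.assoc, Gmap_ε, ← Category.assoc s, hs, Category.id_comp, h]⟩

theorem Split.exists_retraction {N : Fn B} (hN : Split N) :
    ∃ r : Gobj N ⟶ (Kf B).obj N, kerι (Gε N) ≫ r = 𝟙 _ := by
  obtain ⟨s, hs⟩ := hN
  refine ⟨kerLift _ (𝟙 _ - Gε N ≫ s) (by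
    rw [Preadditive.sub_comp, Category.assoc, hs, Category.id_comp, Category.comp_id, sub_self]),
    ker_hom_ext _ ?_⟩
  rw [Category.assoc, kerLift_ι, Preadditive.comp_sub, ← Category.assoc, kerι_comp, zero_comp,
    sub_zero, Category.comp_id]
  exact (Category.id_comp _).symm

theorem Split.K {N : Fn B} (hN : Split N) : Split ((Kf B).obj N) := by
  obtain ⟨r, hr⟩ := hN.exists_retraction
  exact (split_G N).of_retract _ r hr

theorem Split.Kpow {N : Fn B} (hN : Split N) (n : ℕ) : Split ((Kpow B n).obj N) := by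
  induction n with
  | zero => exact hN
  | succ n ih => exact ih.K

/-- The canonical resolution. -/
def canCx (N : Fn B) : Cx B where
  X j := Gobj ((Kpow B j).obj N)
  d j := Gε _ ≫ kerι (Gε ((Kpow B j).obj N))
  M := N
  ε := Gε N
  dd j := by
    rw [Category.assoc, ← Category.assoc (kerι _)]
    exact (congrArg (fun φ => _ ≫ φ ≫ _) (kerι_comp _)).trans (by rw [zero_comp, comp_zero])
  dε := by
    rw [Category.assoc]
    exact (congrArg (fun φ => _ ≫ φ) (kerι_comp _)).trans comp_zero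

theorem ex_can {N : Fn B} (b : B) (x : (Gobj N).obj b) (hx : ((Gε N).app b).hom x = 0) :
    ∃ y, ((Gε ((Kf B).obj N) ≫ kerι (Gε N)).app b).hom y = x := by
  obtain ⟨k, rfl⟩ := exists_ker _ b x hx
  obtain ⟨y, rfl⟩ := Gε_surj ((Kf B).obj N) b k
  exact ⟨y, rfl⟩

theorem canCx_ex (N : Fn B) (j : ℕ) : (canCx N).Ex j := by
  cases j with
  | zero => exact fun b x hx => ex_can b x hx
  | succ j =>
    exact fun b x hx => ex_can (N := (Kpow B (j + 1)).obj N) b x
      (kerι_injective (Gε ((Kpow B j).obj N)) b (hx.trans (map_zero _).symm))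

/-- The colimit of the canonical resolution. -/
def canCoCx (N : Fn B) : CoCx (canCx N) where
  c _ := gCocone _
  isColimit _ := isColimit_gCocone _
  d _ := dK' _
  comm _ b := ab_ext fun x => dK_gα _ b x

theorem Split.ex {N : Fn B} (hN : Split N) (x : (cG B).obj ((Kf B).obj N))
    (hx : (dK' N).hom x = 0) : ∃ y, (dK' ((Kf B).obj N)).hom y = x := by
  obtain ⟨r, hr⟩ := hN.exists_retraction
  refine ((canCoCx N).ex_iff 0).mpr (Cx.tex_zero (canCx_ex N 0) (canCx_ex N 1) ?_) x hx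
  have : ∀ a, ((Tor B 0).map r).hom (((Tor B 0).map (kerι (Gε N))).hom a) = a := fun a =>
    (tor_comp (kerι (Gε N)) r 0 a).symm.trans (by rw [hr]; exact tor_id _ _ _)
  exact Function.LeftInverse.injective this

theorem Split.torZero {N : Fn B} (hN : Split N) (q : ℕ) : TorZero (q + 1) N := by
  have : ((torCx B).obj N).ExactAt (q + 1) := by
    rw [HomologicalComplex.exactAt_iff' _ (q + 2) (q + 1) q (by simp) (by simp),
      ShortComplex.ab_exact_iff]
    intro x hx
    have h1 := torCx_d N q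
    have h2 := torCx_d N (q + 1)
    obtain ⟨y, hy⟩ := (hN.Kpow q).ex x ((ab_congr h1 x).symm.trans hx)
    exact ⟨y, (ab_congr h2 y).trans hy⟩
  rw [HomologicalComplex.exactAt_iff_isZero_homology] at this
  intro z
  exact ab_congr (this.eq_of_src (𝟙 _) 0) z

/-- A set-valued functor which is a disjoint union of corepresentable functors. -/
def IsFree (F : B ⥤ Type u) : Prop :=
  ∃ (ι : Type u) (b : ι → B) (e : ∀ i, F.obj (b i)),
    ∀ b', Function.Bijective (fun p : Σ i, (b i ⟶ b') => F.map p.2 (e p.1))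

/-- Additive maps out of a free abelian group. -/
def zlift {X : Type u} {A : Type*} [AddCommGroup A] (φ : X → A) : (X →₀ ℤ) →+ A :=
  Finsupp.liftAddHom fun x => zmultiplesHom A (φ x)

theorem zlift_single {X : Type u} {A : Type*} [AddCommGroup A] (φ : X → A) (x : X) (n : ℤ) :
    zlift φ (Finsupp.single x n) = n • φ x := Finsupp.liftAddHom_apply_single _ _ _

theorem z_ext {X : Type u} {A : Type*} [AddCommGroup A] {φ ψ : (X →₀ ℤ) →+ A}
    (h : ∀ x, φ (Finsupp.single x 1) = ψ (Finsupp.single x 1)) : φ = ψ :=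
  Finsupp.addHom_ext fun x n => by
    have : Finsupp.single x n = n • Finsupp.single x (1 : ℤ) := by simp
    rw [this, map_zsmul, map_zsmul, h]

theorem ZF_map_single {X Y : Type u} (f : X ⟶ Y) (x : X) (n : ℤ) :
    (ZF.map f).hom (Finsupp.single x n) = Finsupp.single (f x) n := Finsupp.mapDomain_single

theorem zf_hom_ext {F : B ⥤ Type u} {N : Fn B} {φ ψ : F ⋙ ZF ⟶ N}
    (h : ∀ b x, (φ.app b).hom (Finsupp.single x 1) = (ψ.app b).hom (Finsupp.single x 1)) :
    φ = ψ := by
  ext b : 2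
  ext1
  exact z_ext (h b)

/-- Natural maps out of a free functor. -/
def zfDesc {F : B ⥤ Type u} {N : Fn B} (φ : ∀ b, F.obj b → N.obj b)
    (nat : ∀ b b' (f : b ⟶ b') x, φ b' (F.map f x) = (N.map f).hom (φ b x)) : F ⋙ ZF ⟶ N where
  app b := AddCommGrpCat.ofHom (zlift (φ b))
  naturality b b' f := by
    ext1
    refine z_ext fun x => ?_
    refine (congrArg (zlift (φ b')) (ZF_map_single (F.map f) x 1)).trans ?_
    refine Eq.trans ?_ (congrArg (N.map f).hom (zlift_single (φ b) x 1)).symm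
    rw [zlift_single, one_smul, one_smul, nat]

theorem zfDesc_single {F : B ⥤ Type u} {N : Fn B} (φ : ∀ b, F.obj b → N.obj b) (nat) (b : B)
    (x : F.obj b) : ((zfDesc φ nat).app b).hom (Finsupp.single x 1) = φ b x :=
  (zlift_single _ _ _).trans (one_smul _ _)

theorem torZero_free {F : B ⥤ Type u} (h : IsFree F) (q : ℕ) : TorZero (q + 1) (F ⋙ ZF) := by
  obtain ⟨ι, b, e, h⟩ := h
  choose inv hinv using fun b' => (h b').2
  have nat : ∀ b' b'' (f : b' ⟶ b'') x, inv b'' (F.map f x) = ⟨(inv b' x).1, (inv b' x).2 ≫ f⟩ :=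
    fun b' b'' f x => (h b'').1 (by
      rw [hinv]
      conv_lhs => rw [← hinv b' x]
      exact (types_congr_hom (F.map_comp _ f) _).symm)
  refine Split.torZero ⟨zfDesc (fun b' x => gin (F ⋙ ZF) (inv b' x).2
    (Finsupp.single (e (inv b' x).1) 1)) (fun b' b'' f x => ?_), zf_hom_ext fun b' x => ?_⟩ q
  · rw [Gobj_map_gin, nat]
  · rw [fn_comp_apply, zfDesc_single, Gε_gin]
    exact (ZF_map_single _ _ _).trans (congrArg (Finsupp.single · 1) (hinv b' x))

/-- A set-valued functor which is the disjoint union of a family of functors. -/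
def IsSum {ι : Type u} (G : ι → B ⥤ Type u) (F : B ⥤ Type u) (inj : ∀ i, G i ⟶ F) : Prop :=
  ∀ b, Function.Bijective (fun p : Σ i, (G i).obj b => (inj p.1).app b p.2)

theorem IsSum.exists_proj {ι : Type u} {G : ι → B ⥤ Type u} {F : B ⥤ Type u}
    {inj : ∀ i, G i ⟶ F} (h : IsSum G F inj) (i : ι) :
    ∃ pr : F ⋙ ZF ⟶ G i ⋙ ZF, Functor.whiskerRight (inj i) ZF ≫ pr = 𝟙 _ ∧
      ∀ j, j ≠ i → Functor.whiskerRight (inj j) ZF ≫ pr = 0 := by
  classical
  have : ∀ b (x : F.obj b), ∃ z : (G i ⋙ ZF).obj b,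
      (∀ y, (inj i).app b y = x → z = Finsupp.single y 1) ∧
      ∀ j, j ≠ i → ∀ y, (inj j).app b y = x → z = 0 := by
    intro b x
    obtain ⟨⟨j, y⟩, rfl⟩ := (h b).2 x
    by_cases hj : j = i
    · subst hj
      refine ⟨Finsupp.single y 1, fun y' hy => ?_, fun j' hj' y' hy => ?_⟩
      · rw [eq_of_heq (Sigma.mk.inj ((h b).1 (a₁ := ⟨j, y'⟩) (a₂ := ⟨j, y⟩) hy)).2]
      · exact absurd (congrArg Sigma.fst ((h b).1 (a₁ := ⟨j', y'⟩) (a₂ := ⟨j, y⟩) hy)) hj'
    · refine ⟨0, fun y' hy => ?_, fun _ _ _ _ => rfl⟩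
      exact absurd (congrArg Sigma.fst ((h b).1 (a₁ := ⟨i, y'⟩) (a₂ := ⟨j, y⟩) hy)).symm hj
  choose φ h1 h2 using this
  have nat : ∀ b b' (f : b ⟶ b') x, φ b' (F.map f x) = ((G i ⋙ ZF).map f).hom (φ b x) := by
    intro b b' f x
    obtain ⟨⟨j, y⟩, rfl⟩ := (h b).2 x
    have e := types_congr_hom ((inj j).naturality f) y
    by_cases hj : j = i
    · subst hj
      rw [h1 b _ y rfl]
      exact (h1 b' _ _ e).trans (ZF_map_single _ _ _).symm
    · rw [h2 b _ j hj y rfl, map_zero]
      exact h2 b' _ j hj _ e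
  refine ⟨zfDesc φ nat, zf_hom_ext fun b x => ?_, fun j hj => zf_hom_ext fun b x => ?_⟩
  · refine (congrArg ((zfDesc φ nat).app b).hom (ZF_map_single ((inj i).app b) x 1)).trans ?_
    rw [zfDesc_single]
    exact h1 b _ x rfl
  · refine (congrArg ((zfDesc φ nat).app b).hom (ZF_map_single ((inj j).app b) x 1)).trans ?_
    rw [zfDesc_single]
    exact h2 b _ j hj x rfl

/-- An element is the sum of its images under almost all members of a family of maps. -/
def SumTo {ι : Type*} {A : Type*} [AddCommGroup A] (e : ι → A →+ A) (x : A) : Prop :=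
  ∃ I : Finset ι, ∀ J, I ⊆ J → ∑ i ∈ J, e i x = x

theorem SumTo.zero {ι : Type*} {A : Type*} [AddCommGroup A] (e : ι → A →+ A) : SumTo e 0 :=
  ⟨∅, fun _ _ => by simp⟩

theorem SumTo.add {ι : Type*} {A : Type*} [AddCommGroup A] {e : ι → A →+ A} {x y : A}
    (hx : SumTo e x) (hy : SumTo e y) : SumTo e (x + y) := by
  classical
  obtain ⟨I, hI⟩ := hx
  obtain ⟨I', hI'⟩ := hy
  refine ⟨I ∪ I', fun J hJ => ?_⟩
  simp only [map_add, Finset.sum_add_distrib]
  rw [hI J (Finset.subset_union_left.trans hJ), hI' J (Finset.subset_union_right.trans hJ)]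

theorem SumTo.map {ι : Type*} {A A' : Type*} [AddCommGroup A] [AddCommGroup A']
    {e : ι → A →+ A} {e' : ι → A' →+ A'} (φ : A →+ A') {x : A}
    (h : ∀ i, e' i (φ x) = φ (e i x)) (hx : SumTo e x) : SumTo e' (φ x) := by
  obtain ⟨I, hI⟩ := hx
  exact ⟨I, fun J hJ => by simp only [h]; rw [← map_sum, hI J hJ]⟩

theorem SumTo.of_injective {ι : Type*} {A A' : Type*} [AddCommGroup A] [AddCommGroup A']
    {e : ι → A →+ A} {e' : ι → A' →+ A'} (φ : A →+ A') (hφ : Function.Injective φ) {x : A}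
    (h : ∀ i, e' i (φ x) = φ (e i x)) (hx : SumTo e' (φ x)) : SumTo e x := by
  obtain ⟨I, hI⟩ := hx
  exact ⟨I, fun J hJ => hφ (by rw [map_sum, ← hI J hJ]; simp only [h])⟩

theorem sumTo_K {ι : Type*} {M : Fn B} (e : ι → (M ⟶ M))
    (h : ∀ b x, SumTo (fun i => ((e i).app b).hom) x) (b : B) (x : ((Kf B).obj M).obj b) :
    SumTo (fun i => (((Kf B).map (e i)).app b).hom) x := by
  refine SumTo.of_injective (e' := fun i => ((Gmap (e i)).app b).hom) ((kerι (Gε M)).app b).hom
    (kerι_injective _ b) (fun i => rfl) ?_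
  generalize ((kerι (Gε M)).app b).hom x = g
  induction g using gv_induction with
  | h0 => exact SumTo.zero _
  | h1 a f y => exact (h a y).map (gin M f) fun i => Gmap_gin _ _ _
  | h2 x y hx hy => exact hx.add hy

theorem sumTo_tor {ι : Type*} {M : Fn B} (e : ι → (M ⟶ M))
    (h : ∀ b x, SumTo (fun i => ((e i).app b).hom) x) (q : ℕ) (z : (Tor B q).obj M) :
    SumTo (fun i => ((Tor B q).map (e i)).hom) z := by
  have h1 : ∀ n b x, SumTo (fun i => (((Kpow B n).map (e i)).app b).hom) x := by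
    intro n
    induction n with
    | zero => exact h
    | succ n ih => exact sumTo_K _ ih
  have h2 : ∀ x : (cG B).obj ((Kpow B q).obj M),
      SumTo (fun i => ((cG B).map ((Kpow B q).map (e i))).hom) x := by
    intro x
    induction x using cv_induction with
    | h0 => exact SumTo.zero _
    | h1 a y => exact (h1 q a y).map (cin _ a) fun i => cG_map_cin _ _ _
    | h2 x y hx hy => exact hx.add hy
  obtain ⟨c, rfl⟩ := (AddCommGrpCat.epi_iff_surjective (((torCx B).obj M).homologyπ q)).mp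
    inferInstance z
  refine SumTo.map (e := fun i => (HomologicalComplex.cyclesMap ((torCx B).map (e i)) q).hom) _
    (fun i => ab_congr (HomologicalComplex.homologyπ_naturality ((torCx B).map (e i)) q) c) ?_
  exact SumTo.of_injective (((torCx B).obj M).iCycles q).hom
    ((AddCommGrpCat.mono_iff_injective _).mp inferInstance)
    (fun i => (ab_congr (HomologicalComplex.cyclesMap_i ((torCx B).map (e i)) q) c).symm) (h2 _)

theorem IsSum.tor_sum {ι : Type u} {G : ι → B ⥤ Type u} {F : B ⥤ Type u} {inj : ∀ i, G i ⟶ F}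
    (h : IsSum G F inj) (q : ℕ) (z : (Tor B q).obj (F ⋙ ZF)) :
    ∃ (I : Finset ι) (w : ∀ i, (Tor B q).obj (G i ⋙ ZF)),
      z = ∑ i ∈ I, ((Tor B q).map (Functor.whiskerRight (inj i) ZF)).hom (w i) := by
  classical
  choose pr h1 h2 using h.exists_proj
  obtain ⟨I, hI⟩ := sumTo_tor (fun i => pr i ≫ Functor.whiskerRight (inj i) ZF) (by
    intro b x
    induction x using Finsupp.induction_linear with
    | zero => exact SumTo.zero _
    | add x y hx hy => exact hx.add hy
    | single x n =>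
      obtain ⟨⟨j, y⟩, rfl⟩ := (h b).2 x
      have e : Finsupp.single ((inj j).app b y) n =
          ((Functor.whiskerRight (inj j) ZF).app b).hom (Finsupp.single y n) :=
        (ZF_map_single _ _ _).symm
      refine ⟨{j}, fun J hJ => ?_⟩
      rw [Finset.sum_eq_single_of_mem j (hJ (Finset.mem_singleton_self j))]
      · dsimp only
        rw [e, fn_comp_apply, ← fn_comp_apply _ (pr j), h1]
        rfl
      · intro i _ hi
        dsimp only
        rw [e, fn_comp_apply, ← fn_comp_apply _ (pr i), h2 i j hi.symm]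
        exact map_zero _) q z
  refine ⟨I, fun i => ((Tor B q).map (pr i)).hom z, ?_⟩
  rw [← hI I subset_rfl]
  exact Finset.sum_congr rfl fun i _ => by rw [hI I subset_rfl, tor_comp]

theorem IsSum.torZero {ι : Type u} {G : ι → B ⥤ Type u} {F : B ⥤ Type u} {inj : ∀ i, G i ⟶ F}
    (h : IsSum G F inj) (q : ℕ) (hG : ∀ i, TorZero q (G i ⋙ ZF)) : TorZero q (F ⋙ ZF) := by
  intro z
  obtain ⟨I, w, rfl⟩ := h.tor_sum q z
  exact Finset.sum_eq_zero fun i _ => by rw [hG i (w i), map_zero]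

/-- The cocone of free abelian groups given by an invariant family of functions. -/
def zCocone (F : B ⥤ Type u) {ι : Type u} (lam : ∀ b, F.obj b → ι)
    (nat : ∀ b b' (f : b ⟶ b') x, lam b' (F.map f x) = lam b x) : Cocone (F ⋙ ZF) where
  pt := ZF.obj ι
  ι :=
    { app := fun b => ZF.map (TypeCat.ofHom (lam b))
      naturality := fun b b' f => by
        dsimp
        rw [Category.comp_id, ← ZF.map_comp]
        congr 1
        ext x
        exact nat b b' f x }

theorem zCocone_ι_apply (F : B ⥤ Type u) {ι : Type u} (lam : ∀ b, F.obj b → ι) (nat) (b : B)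
    (x : F.obj b →₀ ℤ) :
    ((zCocone F lam nat).ι.app b).hom x = Finsupp.mapDomain (lam b) x := rfl

/-- The cocone `zCocone` is a colimit when the family is the universal invariant one. -/
def isColimit_zCocone (F : B ⥤ Type u) {ι : Type u} (lam : ∀ b, F.obj b → ι)
    (nat : ∀ b b' (f : b ⟶ b') x, lam b' (F.map f x) = lam b x)
    (surj : ∀ i, ∃ b x, lam b x = i)
    (rel : ∀ {Y : Type u} (μ : ∀ b, F.obj b → Y),
      (∀ b b' (f : b ⟶ b') x, μ b' (F.map f x) = μ b x) →
      ∀ b x b' x', lam b x = lam b' x' → μ b x = μ b' x') :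
    IsColimit (zCocone F lam nat) where
  desc s := AddCommGrpCat.ofHom (zlift (A := s.pt) fun i =>
    (s.ι.app (surj i).choose).hom (Finsupp.single (surj i).choose_spec.choose 1))
  fac s b := by
    ext1
    refine z_ext fun x => ?_
    refine (congrArg (zlift (A := s.pt) _) (ZF_map_single (TypeCat.ofHom (lam b)) x 1)).trans ?_
    rw [zlift_single, one_smul]
    exact rel (Y := s.pt) (fun b x => (s.ι.app b).hom (Finsupp.single x 1))
      (fun b b' f x => (congrArg (s.ι.app b').hom (ZF_map_single (F.map f) x 1).symm).trans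
        (cocone_w s f _)) _ _ _ _ (surj _).choose_spec.choose_spec
  uniq s m hm := by
    ext1
    refine z_ext fun i => ?_
    refine Eq.trans ?_ ((zlift_single _ _ _).trans (one_smul _ _)).symm
    refine Eq.trans ?_ (ab_congr (hm _) _)
    refine congrArg m.hom ?_
    refine Eq.trans ?_ (ZF_map_single (TypeCat.ofHom (lam _)) _ 1).symm
    exact congrArg (Finsupp.single · 1) (surj i).choose_spec.choose_spec.symm

end Crest.Agent.R248
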