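import Crest.Agent.R248.Models
import Crest.Agent.R248.Tor

/-!
# Row 248: the category of elements of a model and its homology
-/

open CategoryTheory Limits Opposite Crest.GeometryTopology.Coherator
open Crest.GeometryTopology.Coherator.GlobTheory
open Crest.GeometryTopology.Coherator.GlobTheory.GlobModel

set_option backward.isDefEq.respectTransparency false

noncomputable section

namespace Crest.Agent.R248

universe u

variable {C : GlobTheory.{u}}

/-- The category of elements of a model. -/
structure El (X : GlobModel C) : Type u where
  S : Shape
  x : At X S

instance (X : GlobModel C) : SmallCategory (El X) where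
  Hom a b := {φ : C.arr a.S b.S // X.act φ b.x = a.x}
  id a := ⟨C.one a.S, act_one a.x⟩
  comp f g := ⟨C.seq f.1 g.1, by rw [act_seq, g.2, f.2]⟩
  id_comp f := Subtype.ext (C.one_seq f.1)
  comp_id f := Subtype.ext (C.seq_one f.1)
  assoc f g h := Subtype.ext (C.seq_assoc f.1 g.1 h.1)

/-- The projection from the category of elements to the theory. -/
def El.forget (X : GlobModel C) : El X ⥤ C.Ob where
  obj a := ⟨a.S⟩
  map f := f.1
  map_id _ := rfl
  map_comp _ _ := rfl

/-- Vanishing of the integral homology of a model in degree `q`. -/
def HZero (X : GlobModel C) (q : ℕ) : Prop := TorZero q (Zc (El X))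

end Crest.Agent.R248
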