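import Crest.Agent.R248.LinA

/-!
# Row 248: cellular chains and the Mayer-Vietoris argument
-/

open CategoryTheory Limits Opposite Crest.GeometryTopology.Coherator
open Crest.GeometryTopology.Coherator.GlobTheory
open Crest.GeometryTopology.Coherator.GlobTheory.GlobModel

set_option backward.isDefEq.respectTransparency false

noncomputable section

namespace Crest.Agent.R248

universe u

variable {C : GlobTheory.{u}}

section Chains

variable {k : ℕ} (e : Extn C (NΓ.{u} k)) {X Y : GlobModel C}

/-- The models of cochains. -/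
def GM : AddCommGrpCat.{u} ⥤ GlobModel C where
  obj A := e.model (respectsGlue_NΓ k) A
  map g := e.modelMap (respectsGlue_NΓ k) g
  map_id _ := model_hom_ext fun _ φ => Category.comp_id (obj := AddCommGrpCat.{u}) φ
  map_comp f g := model_hom_ext fun _ φ => (Category.assoc φ f g).symm

theorem contr_GM (A : AddCommGrpCat.{u}) : Contr ((GM e).obj A) := by
  intro n
  cases n with
  | zero => exact fills_zero_iff.mpr ⟨(0 : (NΓ k).obj _ ⟶ A)⟩
  | succ n =>
    refine fills_succ_iff.mpr fun a b h => ?_
    obtain ⟨H, H1, H2, -⟩ := exists_nfill (A := A) a b (by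
      cases n with
      | zero => trivial
      | succ n =>
        exact ⟨(e.model_res (respectsGlue_NΓ k) _ _ _).symm.trans (h.1.trans (e.model_res (respectsGlue_NΓ k) _ _ _)),
          (e.model_res (respectsGlue_NΓ k) _ _ _).symm.trans (h.2.trans (e.model_res (respectsGlue_NΓ k) _ _ _))⟩) 0
    exact ⟨H, (e.model_res (respectsGlue_NΓ k) _ _ _).trans H1, (e.model_res (respectsGlue_NΓ k) _ _ _).trans H2⟩

/-- The chains on the category of elements. -/
abbrev NEl (X : GlobModel C) : Fn (El X) := El.forget X ⋙ e.functor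

/-- The structure maps of the chain group of a model. -/
def nι (S : Shape) (x : At X S) : (NΓ.{u} k).obj S ⟶ colimit (NEl e X) :=
  colimit.ι (NEl e X) ⟨S, x⟩

theorem map_nι {S U : Shape} (o : C.arr S U) (x : At X U) :
    e.map o ≫ nι e U x = nι e S (X.act o x) :=
  colimit.w (NEl e X) (show (⟨S, X.act o x⟩ : El X) ⟶ ⟨U, x⟩ from ⟨o, rfl⟩)

theorem nι_ext {A : AddCommGrpCat.{u}} {φ ψ : colimit (NEl e X) ⟶ A}
    (h : ∀ S x, nι e S x ≫ φ = nι e S x ≫ ψ) : φ = ψ := colimit.hom_ext fun b => h b.S b.x

/-- A map to the model of cochains from a map out of the chain group. -/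
def nTo {A : AddCommGrpCat.{u}} (ψ : colimit (NEl e X) ⟶ A) : X ⟶ (GM e).obj A :=
  homMk (fun S x => (nι e S x ≫ ψ : _ ⟶ A)) (fun S U o x => by
    rw [← map_nι, Category.assoc]; rfl)

theorem app_nTo {A : AddCommGrpCat.{u}} (ψ : colimit (NEl e X) ⟶ A) (S : Shape) (x : At X S) :
    app (nTo e ψ) S x = nι e S x ≫ ψ := rfl

/-- The cocone given by a map to the model of cochains. -/
def nCocone {A : AddCommGrpCat.{u}} (m : X ⟶ (GM e).obj A) : Cocone (NEl e X) where
  pt := A
  ι :=
    { app := fun b => app m b.S b.x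
      naturality := fun b b' f => by
        refine Eq.trans ?_ (Category.comp_id _).symm
        rw [← f.2, app_act]
        rfl }

/-- A map out of the chain group from a map to the model of cochains. -/
def nOf {A : AddCommGrpCat.{u}} (m : X ⟶ (GM e).obj A) : colimit (NEl e X) ⟶ A :=
  colimit.desc (NEl e X) (nCocone e m)

theorem nι_nOf {A : AddCommGrpCat.{u}} (m : X ⟶ (GM e).obj A) (S : Shape) (x : At X S) :
    nι e S x ≫ nOf e m = app m S x := colimit.ι_desc (nCocone e m) ⟨S, x⟩

/-- Maps out of the chain group are maps to the model of cochains. -/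
def nEquiv (X : GlobModel C) (A : AddCommGrpCat.{u}) :
    (colimit (NEl e X) ⟶ A) ≃ (X ⟶ (GM e).obj A) where
  toFun := nTo e
  invFun := nOf e
  left_inv ψ := nι_ext e fun S x => nι_nOf e (nTo e ψ) S x
  right_inv m := model_hom_ext fun S x => nι_nOf e m S x

theorem nEquiv_comp (X : GlobModel C) (A A' : AddCommGrpCat.{u}) (g : A ⟶ A')
    (h : colimit (NEl e X) ⟶ A) : nEquiv e X A' (h ≫ g) = nEquiv e X A h ≫ (GM e).map g :=
  model_hom_ext fun S x => (app_nTo e (h ≫ g) S x).trans (Category.assoc (nι e S x) h g).symm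

/-- The chain group of a model, as a functor. -/
def NF : GlobModel C ⥤ AddCommGrpCat.{u} :=
  Adjunction.leftAdjointOfEquiv (F_obj := fun X => colimit (NEl e X)) (nEquiv e) (nEquiv_comp e)

/-- The adjunction between chains and cochains. -/
def nAdj : NF e ⊣ GM e := Adjunction.adjunctionOfEquivLeft (nEquiv e) (nEquiv_comp e)

theorem nι_map (f : X ⟶ Y) (S : Shape) (x : At X S) :
    nι e S x ≫ (NF e).map f = nι e S (app f S x) :=
  (nι_nOf e (f ≫ nTo e (𝟙 _)) S x).trans (Category.comp_id (nι e S (app f S x)))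

theorem NF_isPushout {A B A' P : GlobModel C} {f : B ⟶ A} {g : B ⟶ A'} {i : A ⟶ P} {j : A' ⟶ P}
    (sq : IsPushout f g i j) :
    IsPushout ((NF e).map f) ((NF e).map g) ((NF e).map i) ((NF e).map j) :=
  have := (nAdj e).leftAdjoint_preservesColimits.{0, 0}
  sq.map (NF e)

theorem NF_injective {g : X ⟶ Y} (hg : Cof g) : Function.Injective ((NF e).map g).hom := by
  obtain ⟨l, hl⟩ := hg.extend (contr_GM e _) (nTo e (𝟙 _))
  have : (NF e).map g ≫ nOf e l = 𝟙 _ := nι_ext e fun S x => by
    rw [← Category.assoc, nι_map]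
    exact (nι_nOf e l S _).trans (app_congr hl S x)
  exact Function.LeftInverse.injective (g := (nOf e l).hom) (ab_congr this)

/-- The layer with one globe. -/
def layG (k : ℕ) : Layer.{u} := ⟨PUnit, fun _ => Shape.globe k⟩

/-- The layer of generating operations. -/
def layT (T : C.Tower) (k : ℕ) : Layer.{u} := ⟨GenAt T k, fun g => g.shape⟩

/-- The generator given by a cell of a model. -/
def gcell (X : GlobModel C) (y : At X (Shape.globe k)) : (layG k).L X :=
  Finsupp.single ⟨PUnit.unit, y⟩ 1

theorem Lmap_gcell (f : X ⟶ Y) (y : At X (Shape.globe k)) :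
    (layG k).Lmap f (gcell X y) = gcell Y (app f _ y) := Layer.Lmap_single _ _ _ _

/-- Cells as operations, linearly. -/
def cellLift (X : GlobModel C) {S : Shape} (x : At X S) : (NΓ.{u} k).obj S →+ (layG k).L X :=
  zlift fun c : ULift.{u} (Cell k S) => gcell X (res X c.down x)

theorem cellLift_ncell {S : Shape} (x : At X S) (c : Cell k S) :
    cellLift X x (ncell c) = gcell X (res X c x) :=
  (zlift_single _ _ _).trans (one_smul _ _)

theorem Lmap_cellLift (f : X ⟶ Y) {S : Shape} (x : At X S) (z : (NΓ.{u} k).obj S) :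
    (layG k).Lmap f (cellLift X x z) = cellLift Y (app f S x) z := by
  induction z using n_induction with
  | h0 => simp
  | h1 c m =>
    rw [map_zsmul, map_zsmul, map_zsmul, cellLift_ncell, cellLift_ncell, Lmap_gcell, app_res]
  | h2 x y hx hy => simp only [map_add, hx, hy]

/-- The relations given by the generating operations. -/
def relB (T : C.Tower) : Layer.Bdy C (layT T k) (layG k) := fun g =>
  gcell (freeOn C g.shape) g.op -
    cellLift (freeOn C g.shape) (C.one _) ((e.map g.op).hom (ncell (𝟙 _)))

theorem dmap_relB (T : C.Tower) (g : GenAt T k) (x : At X g.shape) (n : ℤ) :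
    Layer.dmap (relB e T) X (Finsupp.single ⟨g, x⟩ n) =
      n • (gcell X (X.act g.op x) -
        cellLift X x ((e.map g.op).hom (ncell (𝟙 _)))) := by
  rw [Layer.dmap_single]
  congr 1
  refine (map_sub _ _ _).trans ?_
  exact congrArg₂ (· - ·) (Lmap_gcell _ _)
    ((Lmap_cellLift (yon x) (C.one _) _).trans (by rw [app_yon_one]))

theorem relB_injective (T : C.Tower) (cX : Cofibrant X) :
    Function.Injective (Layer.dmap (relB e T) X) := by
  obtain ⟨α, hα⟩ := exists_label T cX k (A := (layT T k).L X) 0 fun g p =>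
    Finsupp.single ⟨g, p.1⟩ 1 + (nlift (A := AddCommGrpCat.of ((layT T k).L X)) p.2).hom
      ((e.map g.op).hom (ncell (𝟙 _)))
  refine Function.LeftInverse.injective (g := zlift fun p : (layG k).Bas X => α p.2) fun z => ?_
  induction z using Finsupp.induction_linear with
  | zero => simp
  | add a b ha hb => rw [map_add, map_add, ha, hb]
  | single p n =>
    obtain ⟨g, x⟩ : ∃ (g : GenAt T k) (x : At X g.shape), p = ⟨g, x⟩ := ⟨p.1, p.2, rfl⟩
    obtain ⟨x, rfl⟩ := x
    have : ∀ z, zlift (fun p : (layG k).Bas X => α p.2) (cellLift X x z) =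
        (nlift (A := AddCommGrpCat.of ((layT T k).L X)) fun c => α (res X c x)).hom z := by
      intro z
      induction z using n_induction with
      | h0 => simp
      | h1 c m =>
        rw [map_zsmul, map_zsmul, map_zsmul, cellLift_ncell, nlift_ncell, gcell, zlift_single,
          one_smul]
      | h2 x y hx hy => simp only [map_add, hx, hy]
    rw [dmap_relB, map_zsmul, map_sub, gcell, zlift_single, one_smul, this, hα, add_sub_cancel_right,
      Finsupp.smul_single, smul_eq_mul, mul_one]

/-- The evaluation of operations on the top cell. -/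
def evalTop (S : Shape) : (layG k).L (freeOn C S) →+ (NΓ.{u} k).obj S :=
  zlift fun p : (layG k).Bas (freeOn C S) => (e.map p.2).hom (ncell (𝟙 _))

theorem evalTop_gcell {S : Shape} (o : C.arr (Shape.globe k) S) :
    evalTop e S (gcell (freeOn C S) o) = (e.map o).hom (ncell (𝟙 _)) :=
  (zlift_single _ _ _).trans (one_smul _ _)

theorem evalTop_cellLift {S U : Shape} (o : C.arr S U) (z : (NΓ.{u} k).obj S) :
    evalTop e U (cellLift (freeOn C U) o z) = (e.map o).hom z := by
  induction z using n_induction with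
  | h0 => simp
  | h1 c m =>
    rw [map_zsmul, map_zsmul, map_zsmul, cellLift_ncell, evalTop_gcell, free_res,
      e.map_seq, e.map_ofShape, ab_comp_apply, NΓ_map_ncell, Category.id_comp]
  | h2 x y hx hy => simp only [map_add, hx, hy]

theorem cellLift_sub_mem (T : C.Tower) {S U : Shape} (φ : C.arr S U) (x : At X U)
    (z : (NΓ.{u} k).obj S) : cellLift X (X.act φ x) z - cellLift X x ((e.map φ).hom z) ∈
      (Layer.dmap (relB e T) X).range := by
  have lin : ∀ {S U : Shape} (φ : C.arr S U) (x : At X U),
      (∀ c, cellLift X (X.act φ x) (ncell c) - cellLift X x ((e.map φ).hom (ncell c)) ∈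
        (Layer.dmap (relB e T) X).range) → ∀ z,
      cellLift X (X.act φ x) z - cellLift X x ((e.map φ).hom z) ∈
        (Layer.dmap (relB e T) X).range := by
    intro S U φ x h z
    induction z using n_induction with
    | h0 => simp
    | h1 c m =>
      rw [map_zsmul, map_zsmul, map_zsmul, ← smul_sub]
      exact AddSubgroup.zsmul_mem _ (h c) m
    | h2 x y hx hy =>
      rw [map_add, map_add, map_add, add_sub_add_comm]
      exact AddSubgroup.add_mem _ hx hy
  have cell : ∀ {S U V : Shape} (f : S ⟶ U) (φ : C.arr U V) (x : At X V) (c : Cell k S),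
      cellLift X (X.act (C.seq (C.ofShape f) φ) x) (ncell c) -
        cellLift X x ((e.map (C.seq (C.ofShape f) φ)).hom (ncell c)) =
      cellLift X (X.act φ x) (ncell (c ≫ f)) - cellLift X x ((e.map φ).hom (ncell (c ≫ f))) := by
    intro S U V f φ x c
    rw [e.map_seq, e.map_ofShape, ab_comp_apply, NΓ_map_ncell, cellLift_ncell, cellLift_ncell,
      act_seq, act_ofShape, res_comp]
  revert x z
  refine op_induction T (fun {S U} φ => ∀ (x : At X U) (z : (NΓ.{u} k).obj S),
    cellLift X (X.act φ x) z - cellLift X x ((e.map φ).hom z) ∈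
      (Layer.dmap (relB e T) X).range) ?_ ?_ ?_ ?_ φ
  · intro S U f x
    refine lin _ _ fun c => ?_
    rw [e.map_ofShape, NΓ_map_ncell, cellLift_ncell, cellLift_ncell, act_ofShape, res_comp,
      sub_self]
    exact AddSubgroup.zero_mem _
  · intro S U V φ ψ h1 h2 x z
    have := AddSubgroup.add_mem _ (h1 (X.act ψ x) z) (h2 x ((e.map φ).hom z))
    rwa [sub_add_sub_cancel, ← act_seq, ← ab_comp_apply, ← e.map_seq] at this
  · intro S b h hb hh U φ h1 h2 x
    refine lin _ _ fun c => ?_
    rcases cell_glue_cases c with ⟨c', rfl⟩ | ⟨c', rfl⟩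
    · rw [← cell]; exact h1 _ _
    · rw [← cell]; exact h2 _ _
  · intro n g h1 h2 x
    refine lin _ _ fun c => ?_
    rcases cell_succ_cases c with rfl | ⟨c', rfl⟩ | ⟨c', rfl⟩
    · refine ⟨Finsupp.single ⟨g, x⟩ 1, ?_⟩
      rw [dmap_relB, one_smul, cell_globe_top c, cellLift_ncell, res_id]
    · rw [← cell]; exact h1 _ _
    · rw [← cell]; exact h2 _ _

/-- The relations, as a natural transformation on the category of elements. -/
def relNat (T : C.Tower) (X : GlobModel C) :
    ((El.forget X ⋙ freeFunctor C) ⋙ (layT T k).basF C) ⋙ ZF ⟶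
      ((El.forget X ⋙ freeFunctor C) ⋙ (layG k).basF C) ⋙ ZF :=
  fnMk (fun b => Layer.dmap (relB e T) (freeOn C b.S))
    (fun _ _ f z => (Layer.Lmap_dmap _ (freeMap f.1) z).symm)

/-- The evaluation, as a natural transformation on the category of elements. -/
def evalNat (X : GlobModel C) :
    ((El.forget X ⋙ freeFunctor C) ⋙ (layG k).basF C) ⋙ ZF ⟶ NEl e X :=
  zfDesc (fun _ p => (e.map p.2).hom (ncell (𝟙 _)))
    (fun _ _ f p => ab_congr (e.map_seq p.2 f.1) _)

theorem ses_rel (T : C.Tower) (X : GlobModel C) : SES (relNat e T X) (evalNat e X) where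
  zero := zf_hom_ext fun b p => by
    obtain ⟨g, o⟩ := p
    refine (congrArg (evalTop e b.S) (dmap_relB e (X := freeOn C b.S) T g o 1)).trans ?_
    rw [one_smul, map_sub, evalTop_gcell, evalTop_cellLift, free_act, e.map_seq]
    exact sub_self _
  inj b := relB_injective e T (cofibrant_free _)
  surj b z := ⟨cellLift (freeOn C b.S) (C.one _) z, (evalTop_cellLift e (C.one b.S) z).trans
    (ab_congr (e.map_one b.S) z)⟩
  ex b z hz := by
    have : ∀ z : (layG k).L (freeOn C b.S), z - cellLift (freeOn C b.S) (C.one _)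
        (evalTop e b.S z) ∈ (Layer.dmap (relB e T) (freeOn C b.S)).range := by
      intro z
      induction z using Finsupp.induction_linear with
      | zero => simp
      | add a b ha hb =>
        rw [map_add, map_add, add_sub_add_comm]
        exact AddSubgroup.add_mem _ ha hb
      | single p n =>
        obtain ⟨o, rfl⟩ : ∃ o : C.arr (Shape.globe k) b.S, p = ⟨PUnit.unit, o⟩ := ⟨p.2, rfl⟩
        have := AddSubgroup.zsmul_mem _
          (cellLift_sub_mem e (X := freeOn C b.S) T o (C.one b.S) (ncell (𝟙 _))) n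
        rw [cellLift_ncell, res_id, free_act, C.seq_one, ← evalTop_gcell, smul_sub, ← map_zsmul,
          ← map_zsmul] at this
        have e' : n • gcell (freeOn C b.S) o = Finsupp.single ⟨PUnit.unit, o⟩ n := by
          rw [gcell, Finsupp.smul_single, smul_eq_mul, mul_one]
        rw [e'] at this
        exact this
    have h := this z
    rwa [show evalTop e b.S z = 0 from hz, map_zero, sub_zero] at h

theorem torZero_NEl (T : C.Tower) (cX : Cofibrant X) (q : ℕ) : TorZero (q + 1) (NEl e X) := by
  have fr : ∀ (A : Layer.{u}) i,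
      TorZero (i + 1) (((El.forget X ⋙ freeFunctor C) ⋙ A.basF C) ⋙ ZF) := fun A i =>
    torZero_free (freeGen_layer (U := X) (lam := fun b => yon b.x) _ (freeGen_el X)).isFree i
  intro z
  obtain ⟨y, rfl⟩ := (ses_rel e T X).ex₃ q z (by
    cases q with
    | succ q => exact fr _ q _
    | zero =>
      have col : ∀ A : Layer.{u}, IsColimit (zCocone ((El.forget X ⋙ freeFunctor C) ⋙ A.basF C)
          (fun b => A.basMap (yon b.x))
          (freeGen_layer A (freeGen_el X)).nat) := fun A =>
        isColimit_zCocone _ _ _ (freeGen_layer A (freeGen_el X)).setColim.surj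
          (freeGen_layer A (freeGen_el X)).setColim.rel
      obtain ⟨a, a1, a2⟩ := exists_tor_iso _ (col (layT T k))
      obtain ⟨b, b1, b2⟩ := exists_tor_iso _ (col (layG k))
      obtain ⟨w, hw⟩ := a1.2 (((ses_rel e T X).δ 0).hom z)
      have := tor_iso_nat (col (layT T k)) a2 b2 (f := relNat e T X)
        (g := AddCommGrpCat.ofHom (Layer.dmap (relB e T) X))
        (fun c => ab_ext fun x => (Layer.Lmap_dmap _ (yon c.x) x).symm) w
      rw [hw, SES.δ_comp] at this
      have h0 : Layer.dmap (relB e T) X w = 0 := b1.1 (this.trans (map_zero _).symm)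
      rw [← hw, relB_injective e T cX (h0.trans (map_zero _).symm), map_zero])
  rw [fr _ q y, map_zero]

end Chains

/-- Cellular chains extended to the operations. -/
structure ChainData (C : GlobTheory.{u}) where
  e : ∀ k, Extn C (NΓ.{u} k)
  comm : ∀ k {S U : Shape} (φ : C.arr S U),
    (e (k + 1)).map φ ≫ (dN k).app U = (dN k).app S ≫ (e k).map φ
  aug : ∀ {S U : Shape} (φ : C.arr S U), (e 0).map φ ≫ (dM 0).app U = (dM 0).app S

theorem exists_chainData (T : C.Tower) : Nonempty (ChainData C) := by
  obtain ⟨e, h0, h⟩ := exists_extn_chain T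
  refine ⟨⟨fun k => e (k + 1), fun k => h (k + 1), fun φ => (h 0 φ).trans ?_⟩⟩
  rw [h0]
  exact Category.comp_id _

namespace ChainData

variable (D : ChainData C)

/-- The cellular resolution on the category of elements. -/
def cx (X : GlobModel C) : Cx (El X) where
  X j := NEl (D.e j) X
  d j := { app := fun b => (dN j).app b.S, naturality := fun _ _ f => D.comm j f.1 }
  M := Zc (El X)
  ε :=
    { app := fun b => (dM 0).app b.S
      naturality := fun _ _ f => (D.aug f.1).trans
        ((Category.comp_id _).symm.trans (congrArg _ (ZF.map_id _).symm)) }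
  dd j := by
    ext b : 2
    exact dN_dM (j + 1) b.S
  dε := by
    ext b : 2
    exact dN_dM 0 b.S

/-- The differential of the cellular chains of a model. -/
def d (j : ℕ) (X : GlobModel C) : (NF (D.e (j + 1))).obj X ⟶ (NF (D.e j)).obj X :=
  colimMap ((D.cx X).d j)

theorem nι_d (j : ℕ) {X : GlobModel C} (S : Shape) (x : At X S) :
    nι (D.e (j + 1)) S x ≫ D.d j X = (dN j).app S ≫ nι (D.e j) S x :=
  ι_colimMap ((D.cx X).d j) ⟨S, x⟩

theorem d_nat (j : ℕ) {X Y : GlobModel C} (f : X ⟶ Y) :
    (NF (D.e (j + 1))).map f ≫ D.d j Y = D.d j X ≫ (NF (D.e j)).map f :=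
  nι_ext _ fun S x => by
    rw [← Category.assoc, ← Category.assoc, nι_map, nι_d, nι_d, Category.assoc, nι_map]

theorem d_d (j : ℕ) (X : GlobModel C) : D.d (j + 1) X ≫ D.d j X = 0 :=
  nι_ext _ fun S x => by
    rw [← Category.assoc, nι_d, Category.assoc, nι_d, ← Category.assoc, comp_zero]
    exact (congrArg (· ≫ _) (dN_dM (j + 1) S)).trans zero_comp

/-- The cellular chains of a model are the colimit of the cellular resolution. -/
def coCx (X : GlobModel C) : CoCx (D.cx X) where
  c j := colimit.cocone (NEl (D.e j) X)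
  isColimit _ := colimit.isColimit _
  d j := D.d j X
  comm j b := D.nι_d j b.S b.x

theorem hzero_iff (T : C.Tower) {X : GlobModel C} (cX : Cofibrant X) (q : ℕ) :
    HZero X (q + 1) ↔ ∀ x, (D.d q X).hom x = 0 → ∃ y, (D.d (q + 1) X).hom y = x := by
  have hs : (D.cx X).Surj := fun b => dM_zero_surjective b.S
  have hex : ∀ j, (D.cx X).Ex j := fun j => by
    cases j with
    | zero => exact fun b => n_exact b.S 0
    | succ j => exact fun b => n_exact b.S (j + 1)
  exact ⟨fun h => (D.coCx X).ex_of_torZero q hs (fun j _ => hex j)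
      (fun i j _ => torZero_NEl _ T cX i) h,
    fun h => (D.coCx X).torZero_of_ex q hs (fun j _ => hex j)
      (fun i j _ => torZero_NEl _ T cX i) h⟩

end ChainData

/-- A pushout along a cofibration of acyclic cofibrant models is acyclic in degrees at least 2. -/
theorem hzero_pushout (T : C.Tower) {A B A' P : GlobModel C} {f : B ⟶ A}
    {g : B ⟶ A'} {i : A ⟶ P} {j : A' ⟶ P} (sq : IsPushout f g i j) (hg : Cof g)
    (cB : Cofibrant B) (cA : Cofibrant A) (hA : ∀ q, HZero A (q + 1)) (hB : ∀ q, HZero B (q + 1))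
    (hA' : ∀ q, HZero A' (q + 1)) (q : ℕ) : HZero P (q + 2) := by
  obtain ⟨D⟩ := exists_chainData T
  refine (D.hzero_iff T (cA.of_cof (Cof.of_isPushout sq hg)) (q + 1)).mpr ?_
  refine mayer_vietoris (NF_isPushout (D.e (q + 2)) sq) (NF_isPushout (D.e (q + 1)) sq)
    (D.d_nat _ i) (D.d_nat _ j) (D.d_nat _ f) (D.d_nat _ g) (D.d_nat _ i) (D.d_nat _ j)
    ((D.hzero_iff T cA (q + 1)).mp (hA _)) ((D.hzero_iff T (cB.of_cof hg) (q + 1)).mp (hA' _))
    fun b a' H => (D.hzero_iff T cB q).mp (hB _) b (NF_injective (D.e q) hg ?_)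
  refine (ab_congr (D.d_nat q g) b).symm.trans ?_
  rw [map_zero, ab_comp_apply, H]
  exact ab_congr (D.d_d q A') a'

end Crest.Agent.R248
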