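import Crest.Agent.R248.Hurewicz
import Crest.Agent.R248.Lin

/-!
# Row 248: the gluing lemma for contractible cofibrant models
-/

open CategoryTheory Limits Opposite Crest.GeometryTopology.Coherator
open Crest.GeometryTopology.Coherator.GlobTheory
open Crest.GeometryTopology.Coherator.GlobTheory.GlobModel

noncomputable section

namespace Crest.Agent.R248

universe u

variable {C : GlobTheory.{u}}

theorem contr_pushout (hC : C.IsCoheratorTheory) {A B A' P : GlobModel C} {f : B ⟶ A}
    {g : B ⟶ A'} {i : A ⟶ P} {j : A' ⟶ P} (sq : IsPushout f g i j) (hg : Cof g)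
    (cB : Cofibrant B) (cA : Cofibrant A) (hA : Contr A) (hB : Contr B) (hA' : Contr A') :
    Contr P := by
  obtain ⟨h0, h1, h2⟩ := fills_pushout hC sq hA hA' (hB 0) (hB 1)
  exact contr_of_hzero hC h0 h1 h2 (hzero_pushout (tower hC) sq hg cB cA (hzero_of_contr hC hA)
    (hzero_of_contr hC hB) (hzero_of_contr hC hA'))

theorem cofibrant_pushout {A B A' P : GlobModel C} {f : B ⟶ A}
    {g : B ⟶ A'} {i : A ⟶ P} {j : A' ⟶ P} (sq : IsPushout f g i j) (hg : Cof g)
    (cA : Cofibrant A) : Cofibrant P := cA.of_cof (Cof.of_isPushout sq hg)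

end Crest.Agent.R248
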