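import Crest.Agent.R248.Contr
import Crest.Agent.R248.El

/-!
# Row 248: a fixed free resolution on the theory and the chain complex of a model
-/

open CategoryTheory Limits Opposite Crest.GeometryTopology.Coherator
open Crest.GeometryTopology.Coherator.GlobTheory
open Crest.GeometryTopology.Coherator.GlobTheory.GlobModel

set_option backward.isDefEq.respectTransparency false

noncomputable section

namespace Crest.Agent.R248

universe u

variable {C : GlobTheory.{u}}

theorem mem_of_mapDomain_eq_zero {α G : Type*} (π : α → G) (H : AddSubgroup (α →₀ ℤ))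
    (hH : ∀ a b, π a = π b → Finsupp.single a 1 - Finsupp.single b 1 ∈ H) (z : α →₀ ℤ)
    (hz : Finsupp.mapDomain π z = 0) : z ∈ H := by
  rcases isEmpty_or_nonempty α with h | h
  · rw [Subsingleton.elim z 0]; exact H.zero_mem
  have key : ∀ z : α →₀ ℤ, z - Finsupp.mapDomain (Function.invFun π ∘ π) z ∈ H := by
    intro z
    induction z using Finsupp.induction_linear with
    | zero => simp
    | add a b ha hb =>
      rw [Finsupp.mapDomain_add, add_sub_add_comm]; exact H.add_mem ha hb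
    | single a n =>
      rw [Finsupp.mapDomain_single]
      have := H.zsmul_mem (hH a (Function.invFun π (π a)) (Function.invFun_eq ⟨a, rfl⟩).symm) n
      simpa [smul_sub] using this
  have := key z
  rwa [Finsupp.mapDomain_comp, hz, Finsupp.mapDomain_zero, sub_zero] at this

/-- A family of shapes. -/
structure Layer : Type (u + 1) where
  I : Type u
  T : I → Shape

namespace Layer

variable {X Y Z : GlobModel C}

/-- The basis of the chain group of a model. -/
abbrev Bas (A : Layer.{u}) (X : GlobModel C) : Type u := Σ α : A.I, At X (A.T α)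

/-- The basis on maps of models. -/
def basMap (A : Layer.{u}) (f : X ⟶ Y) (p : A.Bas X) : A.Bas Y := ⟨p.1, app f _ p.2⟩

/-- The basis as a functor. -/
def basF (A : Layer.{u}) (C : GlobTheory.{u}) : GlobModel C ⥤ Type u where
  obj X := A.Bas X
  map f := TypeCat.ofHom (A.basMap f)
  map_id _ := rfl
  map_comp _ _ := rfl

/-- The chain group of a model. -/
abbrev L (A : Layer.{u}) (X : GlobModel C) : Type u := A.Bas X →₀ ℤ

/-- The chain group on maps of models. -/
def Lmap (A : Layer.{u}) (f : X ⟶ Y) : A.L X →+ A.L Y :=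
  Finsupp.mapDomain.addMonoidHom (A.basMap f)

theorem Lmap_apply (A : Layer.{u}) (f : X ⟶ Y) (z : A.L X) :
    A.Lmap f z = Finsupp.mapDomain (A.basMap f) z := rfl

theorem Lmap_single (A : Layer.{u}) (f : X ⟶ Y) (p : A.Bas X) (n : ℤ) :
    A.Lmap f (Finsupp.single p n) = Finsupp.single (A.basMap f p) n := Finsupp.mapDomain_single

theorem Lmap_comp (A : Layer.{u}) (f : X ⟶ Y) (g : Y ⟶ Z) (z : A.L X) :
    A.Lmap (f ≫ g) z = A.Lmap g (A.Lmap f z) :=
  Finsupp.mapDomain_comp (f := A.basMap f) (g := A.basMap g)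

theorem Lmap_id (A : Layer.{u}) (z : A.L X) : A.Lmap (𝟙 X) z = z := Finsupp.mapDomain_id

/-- Boundary data between two layers. -/
abbrev Bdy (C : GlobTheory.{u}) (A' A : Layer.{u}) : Type u :=
  ∀ α : A'.I, A.L (freeOn C (A'.T α))

/-- The differential given by boundary data. -/
def dmap {A' A : Layer.{u}} (β : Bdy C A' A) (X : GlobModel C) : A'.L X →+ A.L X :=
  Finsupp.liftAddHom fun p => zmultiplesHom _ (A.Lmap (yon p.2) (β p.1))

theorem dmap_single {A' A : Layer.{u}} (β : Bdy C A' A) (p : A'.Bas X) (n : ℤ) :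
    dmap β X (Finsupp.single p n) = n • A.Lmap (yon p.2) (β p.1) := by
  simp [dmap]

theorem Lmap_dmap {A' A : Layer.{u}} (β : Bdy C A' A) (f : X ⟶ Y) (z : A'.L X) :
    A.Lmap f (dmap β X z) = dmap β Y (A'.Lmap f z) := by
  induction z using Finsupp.induction_linear with
  | zero => simp
  | add a b ha hb => simp [ha, hb]
  | single p n =>
    rw [dmap_single, Lmap_single, dmap_single, map_zsmul, ← Lmap_comp, yon_comp]; rfl

end Layer

open Layer

/-- Two consecutive layers with their boundary data. -/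
structure LPair (C : GlobTheory.{u}) where
  A0 : Layer.{u}
  A1 : Layer.{u}
  β : Bdy C A1 A0

/-- The layers of the resolution. -/
def lpair (C : GlobTheory.{u}) : ℕ → LPair C
  | 0 => ⟨⟨PUnit, fun _ => Shape.globe 0⟩, ⟨PUnit, fun _ => Shape.globe 1⟩, fun _ =>
      Finsupp.single ⟨PUnit.unit, C.ofShape (Shape.τ 0)⟩ 1 -
        Finsupp.single ⟨PUnit.unit, C.ofShape (Shape.σ 0)⟩ 1⟩
  | n + 1 => ⟨(lpair C n).A1,
      ⟨Σ S : Shape, {z : (lpair C n).A1.L (freeOn C S) // dmap (lpair C n).β _ z = 0},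
        fun p => p.1⟩, fun p => p.2.1⟩

variable (C) in
/-- The `n`-th layer of the resolution. -/
def lay (n : ℕ) : Layer.{u} := (lpair C n).A0

/-- The differential of the chain complex of a model. -/
def dL (n : ℕ) (X : GlobModel C) : (lay C (n + 1)).L X →+ (lay C n).L X :=
  dmap (A' := lay C (n + 1)) (A := lay C n) (lpair C n).β X

section

variable {X Y : GlobModel C}

theorem Lmap_dL (n : ℕ) (f : X ⟶ Y) (z : (lay C (n + 1)).L X) :
    (lay C n).Lmap f (dL n X z) = dL n Y ((lay C (n + 1)).Lmap f z) := Lmap_dmap _ f z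

/-- A point as a basis element. -/
def b0 (x : At X (Shape.globe 0)) : (lay C 0).Bas X := ⟨PUnit.unit, x⟩

/-- A `1`-cell as a basis element. -/
def b1 (x : At X (Shape.globe 1)) : (lay C 1).Bas X := ⟨PUnit.unit, x⟩

theorem b0_surj (p : (lay C 0).Bas X) : b0 p.2 = p := rfl
theorem b1_surj (p : (lay C 1).Bas X) : b1 p.2 = p := rfl

theorem dL_b1 (x : At X (Shape.globe 1)) (n : ℤ) : dL 0 X (Finsupp.single (b1 x) n) =
    Finsupp.single (b0 (tgt X x)) n - Finsupp.single (b0 (src X x)) n := by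
  refine (dmap_single _ _ _).trans ?_
  change n • (lay C 0).Lmap (yon x) (Finsupp.single (b0 _) 1 - Finsupp.single (b0 _) 1) = _
  rw [map_sub, Lmap_single, Lmap_single, smul_sub, Finsupp.smul_single, Finsupp.smul_single,
    smul_eq_mul, mul_one]
  rfl

theorem dL_succ_single (n : ℕ) (p : (lay C (n + 2)).Bas X) (k : ℤ) :
    ∃ (S : Shape) (t : At X S) (z : (lay C (n + 1)).L (freeOn C S)), dL n _ z = 0 ∧
      dL (n + 1) X (Finsupp.single p k) = k • (lay C (n + 1)).Lmap (yon t) z :=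
  ⟨p.1.1, p.2, p.1.2.1, p.1.2.2, dmap_single _ _ _⟩

theorem dL_dL (n : ℕ) (z : (lay C (n + 2)).L X) : dL n X (dL (n + 1) X z) = 0 := by
  induction z using Finsupp.induction_linear with
  | zero => simp
  | add a b ha hb => simp [ha, hb]
  | single p k =>
    obtain ⟨S, t, z, h1, h2⟩ := dL_succ_single n p k
    rw [h2, map_zsmul, ← Lmap_dL, h1, map_zero, smul_zero]

theorem mapDomain_dL_zero {G : Type*} (π : (lay C 0).Bas X → G)
    (hπ : ∀ x : At X (Shape.globe 1), π (b0 (tgt X x)) = π (b0 (src X x)))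
    (z : (lay C 1).L X) : Finsupp.mapDomain π (dL 0 X z) = 0 := by
  induction z using Finsupp.induction_linear with
  | zero => simp
  | add a b ha hb => rw [map_add, Finsupp.mapDomain_add, ha, hb, add_zero]
  | single p k =>
    rw [← b1_surj p, dL_b1, Finsupp.mapDomain_sub, Finsupp.mapDomain_single,
      Finsupp.mapDomain_single, hπ, sub_self]

theorem exists_dL_zero {G : Type*} (π : (lay C 0).Bas X → G)
    (hπ : ∀ a b : At X (Shape.globe 0), π (b0 a) = π (b0 b) → Htp X 0 a b)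
    (z : (lay C 0).L X) (hz : Finsupp.mapDomain π z = 0) : ∃ w, dL 0 X w = z := by
  refine mem_of_mapDomain_eq_zero π (dL 0 X).range (fun a b h => ?_) z hz
  obtain ⟨w, h1, h2⟩ := hπ b.2 a.2 h.symm
  exact ⟨Finsupp.single (b1 w) 1, by rw [dL_b1, h1, h2]; rfl⟩

end

/-- Exactness of the chain complex of a model in positive degree `j + 1`. -/
def Acyc (X : GlobModel C) (j : ℕ) : Prop :=
  ∀ z : (lay C (j + 1)).L X, dL j X z = 0 → ∃ w, dL (j + 1) X w = z

theorem acyc_free (S : Shape) (j : ℕ) : Acyc (freeOn C S) j := by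
  intro z hz
  refine ⟨Finsupp.single ⟨⟨S, z, hz⟩, C.one S⟩ 1, (dmap_single _ _ _).trans ?_⟩
  change (1 : ℤ) • (lay C (j + 1)).Lmap (freeMap (C.one S)) z = z
  rw [one_smul, freeMap_one, Lmap_id]

/-- Exactness passes to disjoint unions. -/
theorem acyc_of_sum {G : Type u} {U : GlobModel C} (V : G → GlobModel C) (ι : ∀ g, V g ⟶ U)
    (bij : ∀ S, Function.Bijective (fun p : Σ g, At (V g) S => app (ι p.1) S p.2)) (j : ℕ)
    (hV : ∀ g, Acyc (V g) j) : Acyc U j := by
  classical
  have inj : ∀ (A : Layer.{u}) (g g' : G) (p : A.Bas (V g)) (p' : A.Bas (V g')),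
      A.basMap (ι g) p = A.basMap (ι g') p' → (⟨g, p⟩ : Σ g, A.Bas (V g)) = ⟨g', p'⟩ := by
    rintro A g g' ⟨α, a⟩ ⟨α', a'⟩ h
    obtain rfl : α = α' := congrArg Sigma.fst h
    have h' : app (ι g) _ a = app (ι g') _ a' := eq_of_heq (Sigma.mk.inj h).2
    have := (bij (A.T α)).1 (a₁ := ⟨g, a⟩) (a₂ := ⟨g', a'⟩) h'
    obtain rfl : g = g' := congrArg Sigma.fst this
    obtain rfl : a = a' := eq_of_heq (Sigma.mk.inj this).2
    rfl
  have inj' : ∀ (A : Layer.{u}) (g : G), Function.Injective (A.basMap (ι g)) := fun A g p p' h =>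
    eq_of_heq (Sigma.mk.inj (inj A g g p p' h)).2
  have dec : ∀ (A : Layer.{u}) (z : A.L U), ∃ (I : Finset G) (w : ∀ g, A.L (V g)),
      z = ∑ g ∈ I, A.Lmap (ι g) (w g) := by
    intro A z
    have : ∃ w : Π₀ g, A.L (V g), z = DFinsupp.sumAddHom (fun g => A.Lmap (ι g)) w := by
      induction z using Finsupp.induction_linear with
      | zero => exact ⟨0, by simp⟩
      | add a b ha hb =>
        obtain ⟨w, rfl⟩ := ha
        obtain ⟨w', rfl⟩ := hb
        exact ⟨w + w', by simp⟩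
      | single p n =>
        obtain ⟨⟨g, a⟩, h⟩ := (bij (A.T p.1)).2 p.2
        refine ⟨DFinsupp.single g (Finsupp.single ⟨p.1, a⟩ n), ?_⟩
        rw [DFinsupp.sumAddHom_single, Lmap_single]
        exact congrArg (fun q => Finsupp.single (⟨p.1, q⟩ : A.Bas U) n) h.symm
    obtain ⟨w, rfl⟩ := this
    exact ⟨w.support, w, DFinsupp.sumAddHom_apply _ _⟩
  have sep : ∀ (A : Layer.{u}) (I : Finset G) (w : ∀ g, A.L (V g)),
      ∑ g ∈ I, A.Lmap (ι g) (w g) = 0 → ∀ g ∈ I, w g = 0 := by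
    intro A I w h g hg
    ext p
    have := congrArg (fun z : A.L U => z (A.basMap (ι g) p)) h
    simp only [Finsupp.coe_finset_sum, Finset.sum_apply, Finsupp.coe_zero, Pi.zero_apply] at this
    rw [Finset.sum_eq_single_of_mem g hg, Lmap_apply, Finsupp.mapDomain_apply (inj' A g)] at this
    · exact this
    · intro g' _ hne
      rw [Lmap_apply]
      refine Finsupp.mapDomain_notin_range _ _ ?_
      rintro ⟨p', hp'⟩
      exact hne (congrArg Sigma.fst (inj A g' g p' p hp'))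
  intro z hz
  obtain ⟨I, w, rfl⟩ := dec _ z
  rw [map_sum] at hz
  simp only [← Lmap_dL] at hz
  have : ∀ g, ∃ y, g ∈ I → dL (j + 1) _ y = w g := fun g => by
    by_cases hg : g ∈ I
    · exact (hV g (w g) (sep _ I _ hz g hg)).imp fun _ h _ => h
    · exact ⟨0, fun h => absurd h hg⟩
  choose y hy using this
  refine ⟨∑ g ∈ I, (lay C (j + 2)).Lmap (ι g) (y g), ?_⟩
  rw [map_sum]
  exact Finset.sum_congr rfl fun g hg => by rw [← Lmap_dL, hy g hg]

/-! ### Complexes of functors given by diagrams of models -/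

section Diagram

variable {B : Type u} [SmallCategory B]

/-- The elements at a shape, as a functor on models. -/
def atF (C : GlobTheory.{u}) (T : Shape) : GlobModel C ⥤ Type u where
  obj X := At X T
  map f := TypeCat.ofHom (app f T)
  map_id _ := rfl
  map_comp _ _ := rfl

/-- The differential, as a natural transformation. -/
def dNat (Φ : B ⥤ GlobModel C) (j : ℕ) :
    (Φ ⋙ (lay C (j + 1)).basF C) ⋙ ZF ⟶ (Φ ⋙ (lay C j).basF C) ⋙ ZF where
  app b := AddCommGrpCat.ofHom (dL j (Φ.obj b))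
  naturality _ _ f := by
    ext1
    exact AddMonoidHom.ext fun z => (Lmap_dL j (Φ.map f) z).symm

/-- The augmented complex of a diagram of models over a set-valued functor. -/
def cxOf (Φ : B ⥤ GlobModel C) (G : B ⥤ Type u) (π : Φ ⋙ (lay C 0).basF C ⟶ G)
    (hπ : ∀ b (x : At (Φ.obj b) (Shape.globe 1)),
      π.app b (b0 (tgt _ x)) = π.app b (b0 (src _ x))) : Cx B where
  X j := (Φ ⋙ (lay C j).basF C) ⋙ ZF
  d := dNat Φ
  M := G ⋙ ZF
  ε := Functor.whiskerRight π ZF
  dd j := by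
    ext b : 2
    ext1
    exact AddMonoidHom.ext fun z => dL_dL j z
  dε := by
    ext b : 2
    ext1
    exact AddMonoidHom.ext fun z => mapDomain_dL_zero (π.app b) (hπ b) z

theorem cxOf_surj (Φ : B ⥤ GlobModel C) (G : B ⥤ Type u) (π : Φ ⋙ (lay C 0).basF C ⟶ G) (hπ)
    (h : ∀ b, Function.Surjective (π.app b)) : (cxOf Φ G π hπ).Surj :=
  fun b => Finsupp.mapDomain_surjective (h b)

theorem cxOf_ex_zero (Φ : B ⥤ GlobModel C) (G : B ⥤ Type u) (π : Φ ⋙ (lay C 0).basF C ⟶ G) (hπ)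
    (h : ∀ b (a a' : At (Φ.obj b) (Shape.globe 0)), π.app b (b0 a) = π.app b (b0 a') →
      Htp _ 0 a a') : (cxOf Φ G π hπ).Ex 0 :=
  fun b z hz => exists_dL_zero (π.app b) (h b) z hz

theorem cxOf_ex_succ (Φ : B ⥤ GlobModel C) (G : B ⥤ Type u) (π : Φ ⋙ (lay C 0).basF C ⟶ G) (hπ)
    (j : ℕ) (h : ∀ b, Acyc (Φ.obj b) j) : (cxOf Φ G π hπ).Ex (j + 1) :=
  fun b z hz => h b z hz

/-- A family of functions exhibiting a set as the colimit of a set-valued functor. -/
structure SetColim (F : B ⥤ Type u) {ι : Type u} (lam : ∀ b, F.obj b → ι) : Prop where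
  surj : ∀ i, ∃ b x, lam b x = i
  rel : ∀ {Y : Type u} (μ : ∀ b, F.obj b → Y),
      (∀ b b' (f : b ⟶ b') x, μ b' (F.map f x) = μ b x) →
      ∀ b x b' x', lam b x = lam b' x' → μ b x = μ b' x'

/-- Generators of a set-valued functor indexed by its colimit. -/
structure FreeGen (F : B ⥤ Type u) {ι : Type u} (lam : ∀ b, F.obj b → ι) : Prop where
  nat : ∀ b b' (f : b ⟶ b') x, lam b' (F.map f x) = lam b x
  gen : ∀ i, ∃ (b : B) (e : F.obj b), lam b e = i ∧
    ∀ b' (x : F.obj b'), lam b' x = i → ∃! f : b ⟶ b', F.map f e = x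

theorem FreeGen.isFree {F : B ⥤ Type u} {ι : Type u} {lam : ∀ b, F.obj b → ι}
    (h : FreeGen F lam) : IsFree F := by
  choose b e he using h.gen
  refine ⟨ι, b, e, fun b' => ⟨?_, fun x => ?_⟩⟩
  · rintro ⟨i, f⟩ ⟨i', f'⟩ H
    dsimp only at H
    obtain rfl : i = i' := by
      rw [← (he i).1, ← (he i').1, ← h.nat _ _ f, ← h.nat _ _ f', H]
    obtain rfl : f = f' := ((he i).2 b' _ ((h.nat _ _ f' _).trans (he i).1)).unique H rfl
    rfl
  · obtain ⟨f, hf, -⟩ := (he (lam b' x)).2 b' x rfl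
    exact ⟨⟨_, f⟩, hf⟩

theorem FreeGen.setColim {F : B ⥤ Type u} {ι : Type u} {lam : ∀ b, F.obj b → ι}
    (h : FreeGen F lam) : SetColim F lam where
  surj i := by
    obtain ⟨b, e, he, -⟩ := h.gen i
    exact ⟨b, e, he⟩
  rel μ hμ b x b' x' H := by
    obtain ⟨b0, e, -, he⟩ := h.gen (lam b x)
    obtain ⟨f, rfl, -⟩ := he b x rfl
    obtain ⟨f', rfl, -⟩ := he b' x' H.symm
    rw [hμ, hμ]

variable {Φ : B ⥤ GlobModel C} {U : GlobModel C} {lam : ∀ b, Φ.obj b ⟶ U}

theorem setColim_layer (A : Layer.{u})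
    (h : ∀ T, SetColim (Φ ⋙ atF C T) (fun b => app (lam b) T)) :
    SetColim (Φ ⋙ A.basF C) (fun b => A.basMap (lam b)) where
  surj p := by
    obtain ⟨b, x, hx⟩ := (h (A.T p.1)).surj p.2
    exact ⟨b, ⟨p.1, x⟩, congrArg (Sigma.mk p.1) hx⟩
  rel μ hμ := by
    rintro b ⟨α, x⟩ b' ⟨α', x'⟩ H
    obtain rfl : α = α' := congrArg Sigma.fst H
    exact (h (A.T α)).rel (fun b x => μ b ⟨α, x⟩) (fun b b' f x => hμ b b' f ⟨α, x⟩) b x b' x'
      (eq_of_heq (Sigma.mk.inj H).2)

theorem freeGen_layer (A : Layer.{u})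
    (h : ∀ T, FreeGen (Φ ⋙ atF C T) (fun b => app (lam b) T)) :
    FreeGen (Φ ⋙ A.basF C) (fun b => A.basMap (lam b)) where
  nat b b' f p := congrArg (Sigma.mk p.1) ((h (A.T p.1)).nat b b' f p.2)
  gen p := by
    obtain ⟨b, e, h1, h2⟩ := (h (A.T p.1)).gen p.2
    refine ⟨b, ⟨p.1, e⟩, congrArg (Sigma.mk p.1) h1, ?_⟩
    obtain ⟨α, t⟩ := p
    rintro b' ⟨α', x⟩ H
    obtain rfl : α' = α := congrArg Sigma.fst H
    obtain ⟨f, hf, hu⟩ := h2 b' x (eq_of_heq (Sigma.mk.inj H).2)
    exact ⟨f, congrArg (Sigma.mk α') hf, fun f' hf' => hu f' (eq_of_heq (Sigma.mk.inj hf').2)⟩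

/-- The colimit of the complex of a diagram of models is the complex of a model. -/
def coCxOf (G : B ⥤ Type u) (π : Φ ⋙ (lay C 0).basF C ⟶ G) (hπ)
    (nat : ∀ b b' (f : b ⟶ b'), Φ.map f ≫ lam b' = lam b)
    (h : ∀ T, SetColim (Φ ⋙ atF C T) (fun b => app (lam b) T)) : CoCx (cxOf Φ G π hπ) where
  c j := zCocone (Φ ⋙ (lay C j).basF C) (fun b => (lay C j).basMap (lam b))
    (fun b b' f x => by rw [← nat b b' f]; rfl)
  isColimit j := isColimit_zCocone _ _ _ (setColim_layer _ h).surj (setColim_layer _ h).rel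
  d j := AddCommGrpCat.ofHom (dL j U)
  comm j b := by
    ext1
    exact AddMonoidHom.ext fun z => (Lmap_dL j (lam b) z).symm

theorem coCxOf_ex (G : B ⥤ Type u) (π : Φ ⋙ (lay C 0).basF C ⟶ G) (hπ) (nat)
    (h : ∀ T, SetColim (Φ ⋙ atF C T) (fun b => app (lam b) T)) (j : ℕ) :
    (coCxOf G π hπ nat h).Ex j ↔ Acyc U j := Iff.rfl

/-- The map to the one-point functor. -/
def toPoint (F : B ⥤ Type u) : F ⟶ (Functor.const B).obj PUnit.{u + 1} where
  app _ := TypeCat.ofHom fun _ => PUnit.unit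
  naturality _ _ _ := rfl

/-- The resolution of the constant functor given by a diagram of free models. -/
def freeCx (Ψ : B ⥤ C.Ob) : Cx B :=
  cxOf (Ψ ⋙ freeFunctor C) ((Functor.const B).obj PUnit.{u + 1}) (toPoint _) (fun _ _ => rfl)

theorem freeCx_surj (Ψ : B ⥤ C.Ob) : (freeCx Ψ).Surj :=
  cxOf_surj _ _ _ _ fun b _ => ⟨b0 (C.ofShape (cell_zero_nonempty (Ψ.obj b).shape).some), rfl⟩

theorem freeCx_ex (hC : C.IsCoheratorTheory) (Ψ : B ⥤ C.Ob) (j : ℕ) : (freeCx Ψ).Ex j := by
  cases j with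
  | zero => exact cxOf_ex_zero _ _ _ _ fun b a a' _ => (contr_free hC _).htp trivial
  | succ j => exact cxOf_ex_succ _ _ _ _ j fun b => acyc_free _ j

end Diagram

theorem freeGen_el (X : GlobModel C) (T : Shape) :
    FreeGen ((El.forget X ⋙ freeFunctor C) ⋙ atF C T) (fun b => app (yon b.x) T) where
  nat b b' f x := by
    change X.act (C.seq x f.1) b'.x = X.act x b.x
    rw [act_seq, f.2]
  gen t := ⟨⟨T, t⟩, C.one T, act_one t, fun b' x hx =>
    ⟨⟨x, hx⟩, C.one_seq x, fun f hf => Subtype.ext ((C.one_seq _).symm.trans hf)⟩⟩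

/-- The colimit of the resolution over the category of elements. -/
def elCoCx (X : GlobModel C) : CoCx (freeCx (El.forget X)) :=
  coCxOf (U := X) (lam := fun b => yon b.x) _ _ _
    (fun _ _ f => (freeMap_yon f.1 _).trans (congrArg yon f.2))
    (fun T => (freeGen_el X T).setColim)

theorem hzero_iff_acyc (hC : C.IsCoheratorTheory) (X : GlobModel C) (q : ℕ) :
    HZero X (q + 1) ↔ Acyc X q := by
  have fr : ∀ i j, TorZero (i + 1) ((freeCx (El.forget X)).X j) := fun i j =>
    torZero_free (freeGen_layer (U := X) (lam := fun b => yon b.x) _ (freeGen_el X)).isFree i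
  exact ⟨fun h => (elCoCx X).ex_of_torZero q (freeCx_surj _) (fun j _ => freeCx_ex hC _ j)
      (fun i j _ => fr i j) h,
    fun h => (elCoCx X).torZero_of_ex q (freeCx_surj _) (fun j _ => freeCx_ex hC _ j)
      (fun i j _ => fr i j) h⟩

end Crest.Agent.R248
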