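import Crest.Agent.R248.Pi1
import Crest.Agent.R248.Res

/-!
# Row 248: connectivity and homology
-/

open CategoryTheory Limits Opposite Crest.GeometryTopology.Coherator
open Crest.GeometryTopology.Coherator.GlobTheory
open Crest.GeometryTopology.Coherator.GlobTheory.GlobModel

set_option backward.isDefEq.respectTransparency false

noncomputable section

namespace Crest.Agent.R248

universe u

variable {C : GlobTheory.{u}}

section Fam

variable (σ : SuspData C) {Y Y' X : GlobModel C} {G G' : Type u}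

/-- The elements of a disjoint union of hom-models. -/
def FamAt (Y : GlobModel C) (i : G → At Y (Shape.globe 0)) (x : At Y (Shape.globe 0))
    (S : Shape) : Type u :=
  {p : G × At Y (susp S) // res Y (spt false S) p.2 = i p.1 ∧ res Y (spt true S) p.2 = x}

/-- A disjoint union of hom-models with a common target point. -/
def FamM (Y : GlobModel C) (i : G → At Y (Shape.globe 0)) (x : At Y (Shape.globe 0)) :
    GlobModel C :=
  mkModel (FamAt Y i x)
    (fun o p => ⟨(p.1.1, Y.act (σ.map o) p.1.2),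
      by rw [res_act, σ.spt_map, act_ofShape, p.2.1],
      by rw [res_act, σ.spt_map, act_ofShape, p.2.2]⟩)
    (fun S p => Subtype.ext (Prod.ext rfl (by dsimp only; rw [σ.map_one, act_one])))
    (fun o o' p => Subtype.ext (Prod.ext rfl (by dsimp only; rw [σ.map_seq, act_seq])))
    (by
      rintro S b h hb hh ⟨⟨g, z⟩, a1, a2⟩ ⟨⟨g', z'⟩, b1, b2⟩ h1 h2
      obtain rfl : g = g' := congrArg (fun p => p.1.1) h1
      have := glue_ext (X := HomM σ Y (i g) x) (x := homElt σ z a1 a2) (y := homElt σ z' b1 b2)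
        (hval_injective σ (congrArg (fun p => p.1.2) h1))
        (hval_injective σ (congrArg (fun p => p.1.2) h2))
      exact Subtype.ext (Prod.ext rfl (congrArg hval this)))
    (by
      rintro S b h hb hh ⟨⟨g, z⟩, a1, a2⟩ ⟨⟨g', z'⟩, b1, b2⟩ w
      obtain rfl : g = g' := congrArg (fun p => p.1.1) w
      obtain ⟨p, h1, h2⟩ := exists_glue (X := HomM σ Y (i g) x) hb hh (homElt σ z a1 a2)
        (homElt σ z' b1 b2) (hval_injective σ (congrArg (fun p => p.1.2) w))
      exact ⟨⟨(g, hval p), hval_src σ p, hval_tgt σ p⟩,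
        Subtype.ext (Prod.ext rfl (congrArg hval h1)),
        Subtype.ext (Prod.ext rfl (congrArg hval h2))⟩)

variable {i : G → At Y (Shape.globe 0)} {x : At Y (Shape.globe 0)}
  {i' : G' → At Y' (Shape.globe 0)} {x' : At Y' (Shape.globe 0)}

/-- The inclusion of a summand. -/
def famι (i : G → At Y (Shape.globe 0)) (g : G) : HomM σ Y (i g) x ⟶ FamM σ Y i x :=
  homMk (fun _ z => ⟨(g, hval z), hval_src σ z, hval_tgt σ z⟩) (fun _ _ _ _ => rfl)

theorem famι_bijective (S : Shape) :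
    Function.Bijective (fun p : Σ g, At (HomM σ Y (i g) x) S => app (famι σ i p.1) S p.2) := by
  constructor
  · rintro ⟨g, z⟩ ⟨g', z'⟩ h
    obtain rfl : g = g' := congrArg (fun p => p.1.1) h
    obtain rfl : z = z' := hval_injective σ (congrArg (fun p => p.1.2) h)
    rfl
  · rintro ⟨⟨g, z⟩, h1, h2⟩
    exact ⟨⟨g, homElt σ z h1 h2⟩, rfl⟩

/-- Maps of disjoint unions of hom-models. -/
def famMap (κ : G → G') (f : Y ⟶ Y') (hκ : ∀ g, app f _ (i g) = i' (κ g)) (hx : app f _ x = x') :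
    FamM σ Y i x ⟶ FamM σ Y' i' x' :=
  homMk (fun S p => ⟨(κ p.1.1, app f _ p.1.2), by rw [← app_res, p.2.1, hκ],
      by rw [← app_res, p.2.2, hx]⟩)
    (fun _ _ o p => Subtype.ext (Prod.ext rfl (app_act f (σ.map o) p.1.2)))

/-- Maps from a disjoint union of hom-models to a hom-model. -/
def famDesc (f : Y ⟶ X) {y0 x0 : At X (Shape.globe 0)} (hy : ∀ g, app f _ (i g) = y0)
    (hx : app f _ x = x0) : FamM σ Y i x ⟶ HomM σ X y0 x0 :=
  homMk (fun S p => homElt σ (app f _ p.1.2) (by rw [← app_res, p.2.1, hy])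
      (by rw [← app_res, p.2.2, hx]))
    (fun _ _ o p => hval_injective σ (app_act f (σ.map o) p.1.2))

end Fam

/-- Elements of a model with a vertex over a fixed point. -/
structure ElP (X : GlobModel C) (x0 : At X (Shape.globe 0)) : Type u where
  S : Shape
  x : At X S
  v : C.arr (Shape.globe 0) S
  hv : X.act v x = x0

section ElP

variable {X : GlobModel C} {x0 : At X (Shape.globe 0)}

instance : SmallCategory (ElP X x0) where
  Hom a b := {φ : C.arr a.S b.S // X.act φ b.x = a.x ∧ C.seq a.v φ = b.v}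
  id a := ⟨C.one a.S, act_one a.x, C.seq_one _⟩
  comp f g := ⟨C.seq f.1 g.1, by rw [act_seq, g.2.1, f.2.1], by rw [← C.seq_assoc, f.2.2, g.2.2]⟩
  id_comp f := Subtype.ext (C.one_seq f.1)
  comp_id f := Subtype.ext (C.seq_one f.1)
  assoc f g h := Subtype.ext (C.seq_assoc f.1 g.1 h.1)

/-- Forgetting the vertex. -/
def toEl (x0 : At X (Shape.globe 0)) : ElP X x0 ⥤ El X where
  obj a := ⟨a.S, a.x⟩
  map f := ⟨f.1, f.2.1⟩
  map_id _ := rfl
  map_comp _ _ := rfl

theorem isFree_point : IsFree ((Functor.const (ElP X x0)).obj PUnit.{u + 1}) := by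
  refine ⟨PUnit, fun _ => ⟨Shape.globe 0, x0, C.one _, act_one _⟩, fun _ => PUnit.unit,
    fun c => ⟨?_, fun _ => ⟨⟨PUnit.unit, c.v, c.hv, C.one_seq _⟩, rfl⟩⟩⟩
  rintro ⟨_, f⟩ ⟨_, f'⟩ -
  have : f = f' := Subtype.ext (((C.one_seq _).symm.trans f.2.2).trans
    ((C.one_seq _).symm.trans f'.2.2).symm)
  rw [this]

/-- Maps out of a fixed element, as a functor on pointed elements. -/
def GFF (x0 : At X (Shape.globe 0)) : (El X)ᵒᵖ ⥤ ElP X x0 ⥤ Type u :=
  coyoneda ⋙ (Functor.whiskeringLeft _ _ _).obj (toEl x0)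

/-- Maps out of a fixed element. -/
abbrev GF (x0 : At X (Shape.globe 0)) (b : El X) : ElP X x0 ⥤ Type u := (GFF x0).obj (op b)

variable (σ : SuspData C) {y0 : At X (Shape.globe 0)} {b : El X}

/-- A point as an element. -/
abbrev ptEl (y : At X (Shape.globe 0)) : El X := ⟨Shape.globe 0, y⟩

/-- The diagram of disjoint unions of hom-models of free models. -/
def PhiF (x0 : At X (Shape.globe 0)) (φ0 : ptEl y0 ⟶ b) : ElP X x0 ⥤ GlobModel C where
  obj c := FamM σ (freeOn C c.S) (fun g : b ⟶ (toEl x0).obj c => (φ0 ≫ g).1) c.v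
  map f := famMap σ (fun g => g ≫ (toEl x0).map f) (freeMap f.1)
    (fun _ => C.seq_assoc _ _ _) f.2.2
  map_id _ := model_hom_ext fun _ _ =>
    Subtype.ext (Prod.ext (Category.comp_id _) (C.seq_one _))
  map_comp f g := model_hom_ext fun _ p =>
    Subtype.ext (Prod.ext (Subtype.ext (C.seq_assoc p.1.1.1 f.1 g.1).symm)
      (C.seq_assoc p.1.2 f.1 g.1).symm)

/-- The cocone to the hom-model. -/
def phiLam (φ0 : ptEl y0 ⟶ b) (c : ElP X x0) : (PhiF σ x0 φ0).obj c ⟶ HomM σ X y0 x0 :=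
  famDesc σ (yon c.x) (fun g => (φ0 ≫ g).2) c.hv

theorem phiLam_nat (φ0 : ptEl y0 ⟶ b) (c c' : ElP X x0) (f : c ⟶ c') :
    (PhiF σ x0 φ0).map f ≫ phiLam σ φ0 c' = phiLam σ φ0 c :=
  model_hom_ext fun _ p => hval_injective σ
    ((act_seq p.1.2 f.1 c'.x).trans (congrArg (X.act p.1.2) f.2.1))

/-- The vertex can be used to attach suspensions. -/
def IsWedge (φ0 : ptEl y0 ⟶ b) : Prop := ∃ w, Wedgeable C b.S w ∧ φ0.1 = C.ofShape w

theorem freeGen_phi {φ0 : ptEl y0 ⟶ b} (hw : IsWedge φ0) (T : Shape) :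
    FreeGen (PhiF σ x0 φ0 ⋙ atF C T) (fun c => app (phiLam σ φ0 c) T) where
  nat c c' f p := app_congr (phiLam_nat σ φ0 c c' f) T p
  gen τ := by
    obtain ⟨w, hw, e⟩ := hw
    obtain ⟨R', a, c, h, U⟩ := hw T
    obtain ⟨z, ⟨z1, z2⟩, zu⟩ := U X b.x (hval τ) (by
      rw [hval_src, ← act_ofShape, ← e]; exact φ0.2)
    refine ⟨⟨R', z, C.ofShape (spt true T ≫ c), by rw [act_ofShape, res_comp, z2, hval_tgt]⟩,
      ⟨(⟨C.ofShape a, z1⟩, C.ofShape c), ?_, (C.ofShape_comp _ _).symm⟩, hval_injective σ z2, ?_⟩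
    · change C.seq (C.ofShape (spt false T)) (C.ofShape c) = C.seq φ0.1 (C.ofShape a)
      rw [e, ← C.ofShape_comp, ← C.ofShape_comp, h]
    · rintro c' ⟨⟨g, ζ⟩, p1, p2⟩ hp
      replace hp : X.act ζ c'.x = hval τ := congrArg hval hp
      obtain ⟨f, ⟨f1, f2⟩, fu⟩ := U (freeOn C c'.S) g.1 ζ (by
        rw [p1]; change C.seq (C.ofShape w) g.1 = C.seq φ0.1 g.1; rw [e])
      refine ⟨⟨f, zu _ ⟨?_, ?_⟩, ?_⟩, Subtype.ext (Prod.ext (Subtype.ext f1) f2), fun f' hf' =>
        Subtype.ext (fu _ ⟨congrArg (fun p => p.1.1.1) hf', congrArg (fun p => p.1.2) hf'⟩)⟩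
      · rw [res_act]; exact (congrArg (X.act · c'.x) f1).trans g.2
      · rw [res_act]; exact (congrArg (X.act · c'.x) f2).trans hp
      · change C.seq (C.ofShape (spt true T ≫ c)) f = c'.v
        rw [C.ofShape_comp, C.seq_assoc]
        exact (congrArg _ f2).trans p2

/-- The projection to the index of the summand. -/
def phiπ (φ0 : ptEl y0 ⟶ b) : PhiF σ x0 φ0 ⋙ (lay C 0).basF C ⟶ GF x0 b where
  app _ := TypeCat.ofHom fun p => p.2.1.1
  naturality _ _ _ := rfl

/-- The resolution of the functor of maps out of an element. -/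
def phiCx (x0 : At X (Shape.globe 0)) (φ0 : ptEl y0 ⟶ b) : Cx (ElP X x0) :=
  cxOf (PhiF σ x0 φ0) (GF x0 b) (phiπ σ φ0) (fun _ _ => rfl)

theorem exists_phi_point (hC : C.IsCoheratorTheory) (φ0 : ptEl y0 ⟶ b) (c : ElP X x0)
    (g : b ⟶ (toEl x0).obj c) : ∃ p : At ((PhiF σ x0 φ0).obj c) (Shape.globe 0), p.1.1 = g := by
  obtain ⟨z⟩ := fills_zero_iff.mp (contr_hom σ (contr_free hC c.S) (φ0 ≫ g).1 c.v 0)
  exact ⟨app (famι σ (Y := freeOn C c.S) (x := c.v)
    (fun g : b ⟶ (toEl x0).obj c => (φ0 ≫ g).1) g) (Shape.globe 0) z, rfl⟩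

theorem phiCx_surj (hC : C.IsCoheratorTheory) (φ0 : ptEl y0 ⟶ b) : (phiCx σ x0 φ0).Surj :=
  cxOf_surj _ _ _ _ fun c g => by
    obtain ⟨p, hp⟩ := exists_phi_point σ hC φ0 c g
    exact ⟨b0 p, hp⟩

theorem phiCx_ex (hC : C.IsCoheratorTheory) (φ0 : ptEl y0 ⟶ b) (j : ℕ)
    (h : ∀ i, i < j → ∀ Y : GlobModel C, Contr Y → Acyc Y i) : (phiCx σ x0 φ0).Ex j := by
  cases j with
  | zero =>
    refine cxOf_ex_zero _ _ _ _ fun c a a' e => ?_
    obtain ⟨⟨g, z⟩, rfl⟩ := (famι_bijective σ _).2 a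
    obtain ⟨⟨g', z'⟩, rfl⟩ := (famι_bijective σ _).2 a'
    obtain rfl : g = g' := e
    exact ((contr_hom σ (contr_free hC c.S) _ _).htp (par_zero z z')).map _
  | succ j =>
    exact cxOf_ex_succ _ _ _ _ j fun c => acyc_of_sum _ _ (famι_bijective σ) j
      fun g => h j (Nat.lt_succ_self j) _ (contr_hom σ (contr_free hC c.S) _ _)

theorem phiCx_free {φ0 : ptEl y0 ⟶ b} (hw : IsWedge φ0) (i j : ℕ) :
    TorZero (i + 1) ((phiCx σ x0 φ0).X j) :=
  torZero_free (freeGen_layer _ (freeGen_phi σ hw)).isFree i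

/-- The colimit of the resolution is the complex of the hom-model. -/
def phiCoCx {φ0 : ptEl y0 ⟶ b} (hw : IsWedge φ0) : CoCx (phiCx σ x0 φ0) :=
  coCxOf _ _ _ (phiLam_nat σ φ0) (fun T => (freeGen_phi σ hw T).setColim)

theorem torZero_GF (hC : C.IsCoheratorTheory) {φ0 : ptEl y0 ⟶ b} (hw : IsWedge φ0) (q : ℕ)
    (h : ∀ i, i < q → ∀ Y : GlobModel C, Contr Y → Acyc Y i) (hU : Acyc (HomM σ X y0 x0) q) :
    TorZero (q + 1) (GF x0 b ⋙ ZF) :=
  (phiCoCx σ hw).torZero_of_ex q (phiCx_surj σ hC φ0)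
    (fun j hj => phiCx_ex σ hC φ0 j fun i hi => h i (by omega)) (fun i j _ => phiCx_free σ hw i j)
    hU

theorem isWedge_id (y : At X (Shape.globe 0)) : IsWedge (𝟙 (ptEl y)) :=
  ⟨𝟙 _, wedgeable_point, (C.ofShape_id _).symm⟩

theorem exists_isWedge (b : El X) : ∃ (y : At X (Shape.globe 0)) (φ : ptEl y ⟶ b), IsWedge φ := by
  obtain ⟨w, hw⟩ := exists_wedgeable (C := C) b.S
  exact ⟨res X w b.x, ⟨C.ofShape w, rfl⟩, w, hw, rfl⟩

theorem acyc_hom_of_torZero (hC : C.IsCoheratorTheory) (q : ℕ)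
    (h : ∀ i (Y : GlobModel C), Contr Y → Acyc Y i)
    (H : TorZero (q + 1) (GF x0 (ptEl y0) ⋙ ZF)) : Acyc (HomM σ X y0 x0) q :=
  (phiCoCx σ (isWedge_id y0)).ex_of_torZero q (phiCx_surj σ hC _)
    (fun j _ => phiCx_ex σ hC _ j fun i _ => h i) (fun i j _ => phiCx_free σ (isWedge_id y0) i j) H

/-- The comparison with the diagram for the vertex. -/
def phiν (φ0 : ptEl y0 ⟶ b) : PhiF σ x0 φ0 ⟶ PhiF σ x0 (𝟙 (ptEl y0)) where
  app _ := famMap σ (fun g => φ0 ≫ g) (𝟙 _) (fun _ => (C.one_seq _).symm) rfl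
  naturality _ _ _ := model_hom_ext fun _ _ =>
    Subtype.ext (Prod.ext (Category.assoc _ _ _).symm rfl)

theorem tor_GF_bijective (hC : C.IsCoheratorTheory) {φ0 : ptEl y0 ⟶ b} (hw : IsWedge φ0)
    (h : ∀ i (Y : GlobModel C), Contr Y → Acyc Y i) (q : ℕ) :
    Function.Bijective ((Tor _ q).map (Functor.whiskerRight ((GFF x0).map φ0.op) ZF)).hom := by
  obtain ⟨σ⟩ := exists_suspData hC
  refine tor_bijective (phiCoCx σ hw) (phiCoCx σ (isWedge_id y0))
    (fun j => Functor.whiskerRight (Functor.whiskerRight (phiν σ φ0) ((lay C j).basF C)) ZF) _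
    (fun j => fn_ext fun c z => Lmap_dL j ((phiν σ φ0).app c) z) ?_ (fun j => 𝟙 _)
    (fun j c => ?_) (fun j => Function.bijective_id) (phiCx_surj σ hC _) (phiCx_surj σ hC _)
    (fun j => phiCx_ex σ hC _ j fun i _ => h i) (fun j => phiCx_ex σ hC _ j fun i _ => h i)
    (phiCx_free σ hw) (phiCx_free σ (isWedge_id y0)) q
  · exact (Functor.whiskerRight_comp (phiπ σ φ0) ((GFF x0).map φ0.op) ZF).symm.trans
      (Functor.whiskerRight_comp (Functor.whiskerRight (phiν σ φ0) ((lay C 0).basF C))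
        (phiπ σ (𝟙 (ptEl y0))) ZF)
  · exact ab_ext fun z => Layer.Lmap_comp (lay C j) ((phiν σ φ0).app c)
      (phiLam σ (𝟙 (ptEl y0)) c) z

/-- The resolution of the constant functor on pointed elements. -/
def pCx (x0 : At X (Shape.globe 0)) : Cx (ElP X x0) := freeCx (toEl x0 ⋙ El.forget X)

theorem setColim_elP (hC : C.IsCoheratorTheory) (h1 : Fills X 1) (h2 : Fills X 2) (T : Shape) :
    SetColim (((toEl x0 ⋙ El.forget X) ⋙ freeFunctor C) ⋙ atF C T)
      (fun c => app (yon c.x) T) := by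
  obtain ⟨σ⟩ := exists_suspData hC
  constructor
  · intro t
    obtain ⟨y, φ, hw⟩ := exists_isWedge (⟨T, t⟩ : El X)
    obtain ⟨τ⟩ := fills_zero_iff.mp (fills_hom σ h1 y x0)
    obtain ⟨c, p, -⟩ := (freeGen_phi σ hw _).setColim.surj τ
    exact ⟨c, p.1.1.1, p.1.1.2⟩
  · intro Y μ hμ c o c' o' e
    obtain ⟨y, φ, hw⟩ := exists_isWedge (⟨T, X.act o c.x⟩ : El X)
    obtain ⟨p, hp⟩ := exists_phi_point σ hC φ c ⟨o, rfl⟩
    obtain ⟨p', hp'⟩ := exists_phi_point σ hC φ c' ⟨o', e.symm⟩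
    obtain ⟨θ, a1, a2⟩ := (fills_hom σ h2 y x0).fill (app (phiLam σ φ c) _ p)
      (app (phiLam σ φ c') _ p') trivial
    obtain ⟨d, r, rfl⟩ := (freeGen_phi σ hw _).setColim.surj θ
    have R := (freeGen_phi (x0 := x0) σ hw (Shape.globe 0)).setColim.rel
      (fun c p => μ c p.1.1.1) (fun c c' f p => hμ c c' f p.1.1.1)
    have b1 := R d (src ((PhiF σ x0 φ).obj d) r) c p ((app_res _ _ _).trans a1)
    have b2 := R d (tgt ((PhiF σ x0 φ).obj d) r) c' p' ((app_res _ _ _).trans a2)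
    rw [hp] at b1
    rw [hp'] at b2
    exact b1.symm.trans b2

/-- The colimit of the resolution of the constant functor on pointed elements. -/
def pCoCx (hC : C.IsCoheratorTheory) (h1 : Fills X 1) (h2 : Fills X 2) : CoCx (pCx x0) :=
  coCxOf (U := X) (lam := fun c => yon c.x) _ _ (fun _ _ => rfl)
    (fun _ _ f => (freeMap_yon f.1 _).trans (congrArg yon f.2.1)) (setColim_elP hC h1 h2)

/-- The summands of the terms of the resolution. -/
def pInj (x0 : At X (Shape.globe 0)) (A : Layer.{u}) (p : A.Bas X) :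
    GF x0 ⟨A.T p.1, p.2⟩ ⟶ ((toEl x0 ⋙ El.forget X) ⋙ freeFunctor C) ⋙ A.basF C where
  app _ := TypeCat.ofHom fun g => ⟨p.1, g.1⟩
  naturality _ _ _ := rfl

theorem isSum_pInj (A : Layer.{u}) : IsSum _ _ (pInj x0 A) := by
  intro c
  constructor
  · rintro ⟨⟨α, t⟩, o, ho⟩ ⟨⟨α', t'⟩, o', ho'⟩ h
    obtain rfl : α = α' := congrArg Sigma.fst h
    obtain rfl : o = o' := eq_of_heq (Sigma.mk.inj h).2
    obtain rfl : t = t' := ho.symm.trans ho'
    rfl
  · rintro ⟨α, o⟩
    exact ⟨⟨⟨α, X.act o c.x⟩, o, rfl⟩, rfl⟩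

theorem torZero_pCx (hC : C.IsCoheratorTheory) (q j : ℕ)
    (h : ∀ i, i < q → ∀ Y : GlobModel C, Contr Y → Acyc Y i)
    (hU : ∀ y, Acyc (HomM σ X y x0) q) : TorZero (q + 1) ((pCx x0).X j) :=
  (isSum_pInj (lay C j)).torZero _ fun p => by
    obtain ⟨y, φ, hw⟩ := exists_isWedge (⟨(lay C j).T p.1, p.2⟩ : El X)
    exact torZero_GF σ hC hw q h (hU y)

end ElP

theorem acyc_of_fills (hC : C.IsCoheratorTheory) (q : ℕ) (X : GlobModel C)
    (h : ∀ k, k ≤ q + 2 → Fills X k) : Acyc X q := by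
  obtain ⟨σ⟩ := exists_suspData hC
  induction q using Nat.strong_induction_on generalizing X with
  | _ q ih =>
    obtain ⟨x0⟩ := fills_zero_iff.mp (h 0 (by omega))
    refine (pCoCx (x0 := x0) hC (h 1 (by omega)) (h 2 (by omega))).ex_of_torZero q
      (freeCx_surj _) (fun j _ => freeCx_ex hC _ j) (fun i j e => ?_)
      (torZero_free isFree_point q)
    exact torZero_pCx σ hC i j (fun i' hi Y hY => ih i' (by omega) Y fun k _ => hY k)
      fun y => ih i (by omega) _ fun k hk => fills_hom σ (h _ (by omega)) y x0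

theorem acyc_of_contr (hC : C.IsCoheratorTheory) (q : ℕ) (X : GlobModel C) (h : Contr X) :
    Acyc X q := acyc_of_fills hC q X fun k _ => h k

theorem hzero_of_contr (hC : C.IsCoheratorTheory) {X : GlobModel C} (hX : Contr X) (q : ℕ) :
    HZero X (q + 1) := (hzero_iff_acyc hC X q).mpr (acyc_of_contr hC q X hX)

/-- A `1`-cell as an element. -/
abbrev arEl {X : GlobModel C} (u : At X (Shape.globe 1)) : El X := ⟨Shape.globe 1, u⟩

/-- The source of a `1`-cell, as a map of elements. -/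
def sEl {X : GlobModel C} (u : At X (Shape.globe 1)) {y : At X (Shape.globe 0)}
    (h : src X u = y) : ptEl y ⟶ arEl u := ⟨C.ofShape (Shape.σ 0), h⟩

/-- The target of a `1`-cell, as a map of elements. -/
def tEl {X : GlobModel C} (u : At X (Shape.globe 1)) {y : At X (Shape.globe 0)}
    (h : tgt X u = y) : ptEl y ⟶ arEl u := ⟨C.ofShape (Shape.τ 0), h⟩

/-- Trivialization of a local system on a simply connected model. -/
theorem exists_transport (hC : C.IsCoheratorTheory) {X : GlobModel C} (h1 : Fills X 1)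
    (h2 : Fills X 2) (T : (El X)ᵒᵖ ⥤ AddCommGrpCat.{u})
    (hT : ∀ (y : At X (Shape.globe 0)) (b : El X) (φ : ptEl y ⟶ b), IsWedge φ →
      Function.Bijective (T.map φ.op).hom) (y0 : At X (Shape.globe 0)) :
    ∃ τ : ∀ y, T.obj (op (ptEl y)) →+ T.obj (op (ptEl y0)), (∀ ξ, τ y0 ξ = ξ) ∧
      ∀ (u : At X (Shape.globe 1)) (ξ : T.obj (op (arEl u))),
        τ _ ((T.map (tEl u rfl).op).hom ξ) = τ _ ((T.map (sEl u rfl).op).hom ξ) := by
  have comp : ∀ {a b c : El X} (f : a ⟶ b) (g : b ⟶ c) (ξ : T.obj (op c)),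
      (T.map f.op).hom ((T.map g.op).hom ξ) = (T.map (f ≫ g).op).hom ξ := fun f g ξ =>
    (ab_congr (T.map_comp g.op f.op) ξ).symm
  have hinge : ∀ (y : At X (Shape.globe 0)) (b : El X) (hb : 0 < b.S.last) (φ : ptEl y ⟶ b),
      φ.1 = C.ofShape (b.S.hinge hb) → Function.Bijective (T.map φ.op).hom :=
    fun y b hb φ e => hT y b φ ⟨_, wedgeable_hinge _ hb, e⟩
  have ht : ∀ (u : At X (Shape.globe 1)) y (h : tgt X u = y),
      Function.Bijective (T.map (tEl u h).op).hom := fun u y h =>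
    hinge y (arEl u) Nat.one_pos _ (congrArg C.ofShape (hinge_globe _).symm)
  choose e e1 e2 using fun y => h1.fill y0 y trivial
  obtain ⟨τ, hτ⟩ : ∃ τ : ∀ y, T.obj (op (ptEl y)) →+ T.obj (op (ptEl y0)), ∀ y ξ,
      τ y ((T.map (tEl (e y) (e2 y)).op).hom ξ) = (T.map (sEl (e y) (e1 y)).op).hom ξ :=
    ⟨fun y => (T.map (sEl (e y) (e1 y)).op).hom.comp
      (AddEquiv.ofBijective _ (ht (e y) y (e2 y))).symm.toAddMonoidHom, fun y ξ =>
      congrArg (T.map (sEl (e y) (e1 y)).op).hom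
        ((AddEquiv.ofBijective _ (ht (e y) y (e2 y))).symm_apply_apply ξ)⟩
  have K1 : ∀ (u : At X (Shape.globe 1)) y (a1 : src X u = y0) (a2 : tgt X u = y) ξ,
      τ y ((T.map (tEl u a2).op).hom ξ) = (T.map (sEl u a1).op).hom ξ := by
    intro u y a1 a2 ξ
    obtain ⟨θ, b1, b2⟩ := h2.fill u (e y) ⟨a1.trans (e1 y).symm, a2.trans (e2 y).symm⟩
    let l : arEl u ⟶ (⟨Shape.globe 2, θ⟩ : El X) := ⟨C.ofShape (Shape.σ 1), b1⟩
    let r : arEl (e y) ⟶ (⟨Shape.globe 2, θ⟩ : El X) := ⟨C.ofShape (Shape.τ 1), b2⟩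
    have c1 : tEl u a2 ≫ l = tEl (e y) (e2 y) ≫ r := Subtype.ext (by
      change C.seq (C.ofShape _) (C.ofShape _) = C.seq (C.ofShape _) (C.ofShape _)
      rw [← C.ofShape_comp, ← C.ofShape_comp, τ_eq, τ_eq, σ_eq, faceMap_comp, faceMap_comp])
    have c2 : sEl u a1 ≫ l = sEl (e y) (e1 y) ≫ r := Subtype.ext (by
      change C.seq (C.ofShape _) (C.ofShape _) = C.seq (C.ofShape _) (C.ofShape _)
      rw [← C.ofShape_comp, ← C.ofShape_comp, σ_eq, τ_eq, σ_eq, faceMap_comp, faceMap_comp])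
    obtain ⟨η, hη⟩ := (hinge y _ (Nat.succ_pos 1) (tEl u a2 ≫ l) (by
      change C.seq (C.ofShape _) (C.ofShape _) = C.ofShape _
      rw [← C.ofShape_comp, τ_eq, σ_eq, faceMap_comp, hinge_globe])).2
      ((T.map (tEl u a2).op).hom ξ)
    rw [← comp] at hη
    rw [← (ht u y a2).1 hη, comp, comp, c1, c2, ← comp, ← comp, hτ]
  refine ⟨τ, fun ξ => ?_, fun u ξ => ?_⟩
  · obtain ⟨ε⟩ := exists_unitChoice hC
    let l : arEl (X.unitCell ε 0 y0) ⟶ ptEl y0 := ⟨ε.unit 0, rfl⟩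
    have := K1 _ y0 (src_unitCell X ε 0 y0) (tgt_unitCell X ε 0 y0) ((T.map l.op).hom ξ)
    rw [comp, comp, show tEl _ (tgt_unitCell X ε 0 y0) ≫ l = 𝟙 _ from Subtype.ext (ε.tgt_unit 0),
      show sEl _ (src_unitCell X ε 0 y0) ≫ l = 𝟙 _ from Subtype.ext (ε.src_unit 0), op_id,
      T.map_id] at this
    exact this
  · obtain ⟨p, p1, p2⟩ := exists_two (e (src X u)) u (e2 _)
    obtain ⟨o, o1, o2⟩ := fill_op hC (C.ofShape (Shape.σ 0 ≫ twoL 0))
      (C.ofShape (Shape.τ 0 ≫ twoR 0)) trivial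
    let l : arEl (e (src X u)) ⟶ (⟨two 0, p⟩ : El X) := ⟨C.ofShape (twoL 0), p1⟩
    let r : arEl u ⟶ (⟨two 0, p⟩ : El X) := ⟨C.ofShape (twoR 0), p2⟩
    let m : arEl (X.act o p) ⟶ (⟨two 0, p⟩ : El X) := ⟨o, rfl⟩
    have m1 : src X (X.act o p) = y0 := by
      rw [src, res_act, o1, act_ofShape, res_comp, p1]; exact e1 _
    have m2 : tgt X (X.act o p) = tgt X u := by
      rw [tgt, res_act, o2, act_ofShape, res_comp, p2]
    have c1 : tEl u rfl ≫ r = tEl _ m2 ≫ m :=
      Subtype.ext ((C.ofShape_comp _ _).symm.trans o2.symm)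
    have c2 : sEl u rfl ≫ r = tEl _ (e2 _) ≫ l := Subtype.ext (by
      change C.seq (C.ofShape _) (C.ofShape _) = C.seq (C.ofShape _) (C.ofShape _)
      rw [← C.ofShape_comp, ← C.ofShape_comp, τ_twoL])
    have c3 : sEl _ m1 ≫ m = sEl _ (e1 _) ≫ l := Subtype.ext (o1.trans (C.ofShape_comp _ _))
    obtain ⟨η, hη⟩ := (hinge _ _ Nat.one_pos (tEl u rfl ≫ r) (C.ofShape_comp _ _).symm).2
      ((T.map (tEl u rfl).op).hom ξ)
    rw [← comp] at hη
    rw [← (ht u _ rfl).1 hη, comp, comp, c1, c2, ← comp, ← comp, hτ, K1 _ _ m1 m2, comp, comp, c3]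

theorem acyc_hom (hC : C.IsCoheratorTheory) (σ : SuspData C) (q : ℕ) {X : GlobModel C}
    (h : ∀ k, k ≤ q + 2 → Fills X k) (hA : Acyc X (q + 1)) (y0 x0 : At X (Shape.globe 0)) :
    Acyc (HomM σ X y0 x0) q := by
  classical
  refine acyc_hom_of_torZero σ hC q (acyc_of_contr hC) fun ξ0 => ?_
  have surj := (pCoCx (x0 := x0) hC (h 1 (by omega)) (h 2 (by omega))).tor_d_surjective q
    (freeCx_surj _) (freeCx_ex hC _) (fun i j e => torZero_pCx σ hC i j
      (fun i' _ => acyc_of_contr hC i') fun y => acyc_of_fills hC i _ fun k hk =>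
        fills_hom σ (h _ (by omega)) y x0) (torZero_free isFree_point q) hA
  obtain ⟨τ, τ1, τ2⟩ := exists_transport hC (h 1 (by omega)) (h 2 (by omega))
    (GFF x0 ⋙ (Functor.whiskeringRight _ _ _).obj ZF ⋙ Tor _ (q + 1))
    (fun y b φ hw => tor_GF_bijective hC hw (acyc_of_contr hC) (q + 1)) y0
  choose pr pr1 pr2 using (isSum_pInj (x0 := x0) (lay C 0)).exists_proj
  obtain ⟨ζ, hζ⟩ := surj
    (((Tor _ (q + 1)).map (Functor.whiskerRight (pInj x0 (lay C 0) (b0 y0)) ZF)).hom ξ0)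
  obtain ⟨I, w, rfl⟩ := (isSum_pInj (x0 := x0) (lay C 1)).tor_sum (q + 1) ζ
  obtain ⟨J, hJ0, hJ⟩ : ∃ J : Finset (At X (Shape.globe 0)), y0 ∈ J ∧
      ∀ p ∈ I, src X p.2 ∈ J ∧ tgt X p.2 ∈ J :=
    ⟨insert y0 (I.image (fun p => src X p.2) ∪ I.image (fun p => tgt X p.2)),
      Finset.mem_insert_self _ _, fun p hp =>
      ⟨Finset.mem_insert_of_mem (Finset.mem_union_left _ (Finset.mem_image_of_mem _ hp)),
        Finset.mem_insert_of_mem (Finset.mem_union_right _ (Finset.mem_image_of_mem _ hp))⟩⟩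
  obtain ⟨Ψ, hΨ⟩ : ∃ Ψ : (Tor _ (q + 1)).obj ((pCx x0).X 0) →+
      (Tor _ (q + 1)).obj (GF x0 (ptEl y0) ⋙ ZF), ∀ y ∈ J, ∀ η,
      Ψ (((Tor _ (q + 1)).map (Functor.whiskerRight (pInj x0 (lay C 0) (b0 y)) ZF)).hom η) =
        τ y η := by
    refine ⟨∑ y ∈ J, (τ y).comp ((Tor _ (q + 1)).map (pr (b0 y))).hom, fun y hy η => ?_⟩
    refine (AddMonoidHom.finsetSum_apply _ _ _).trans
      ((Finset.sum_eq_single_of_mem y hy ?_).trans ?_)
    rotate_left
    · refine congrArg (τ y) ((tor_comp _ _ _ _).symm.trans ?_)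
      rw [pr1]
      exact tor_id _ _ _
    · intro y' _ hne
      refine (congrArg (τ y') (tor_comp_zero (pr2 (b0 y') (b0 y) ?_) _ _)).trans (map_zero _)
      exact fun e => hne (eq_of_heq (Sigma.mk.inj e).2).symm
  have hd : ∀ u : At X (Shape.globe 1),
      Functor.whiskerRight (pInj x0 (lay C 1) (b1 u)) ZF ≫ (pCx x0).d 0 =
      Functor.whiskerRight ((GFF x0).map (tEl u rfl).op) ZF ≫
        Functor.whiskerRight (pInj x0 (lay C 0) (b0 (tgt X u))) ZF -
      Functor.whiskerRight ((GFF x0).map (sEl u rfl).op) ZF ≫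
        Functor.whiskerRight (pInj x0 (lay C 0) (b0 (src X u))) ZF := by
    intro u
    refine zf_hom_ext fun c g => ?_
    refine (congrArg (dL 0 (freeOn C c.S))
      (ZF_map_single ((pInj x0 (lay C 1) (b1 u)).app c) g 1)).trans ?_
    refine (dL_b1 (X := freeOn C c.S) g.1 1).trans ?_
    rw [← Functor.whiskerRight_comp, ← Functor.whiskerRight_comp]
    exact congrArg₂ (· - ·)
      (ZF_map_single (((GFF x0).map (tEl u rfl).op ≫ pInj x0 (lay C 0) (b0 (tgt X u))).app c)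
        g 1).symm
      (ZF_map_single (((GFF x0).map (sEl u rfl).op ≫ pInj x0 (lay C 0) (b0 (src X u))).app c)
        g 1).symm
  rw [← τ1 ξ0, ← hΨ y0 hJ0, ← hζ, map_sum, map_sum]
  refine Finset.sum_eq_zero fun p hp => ?_
  refine (congrArg Ψ (tor_comp _ _ _ _).symm).trans ?_
  have := hd p.2
  refine (congrArg (fun φ => Ψ (((Tor _ (q + 1)).map φ).hom (w p))) this).trans ?_
  rw [Functor.map_sub, AddCommGrpCat.hom_sub, AddMonoidHom.sub_apply, map_sub, tor_comp, tor_comp]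
  exact sub_eq_zero.mpr ((hΨ _ (hJ p hp).2 _).trans ((τ2 p.2 (w p)).trans
    (hΨ _ (hJ p hp).1 _).symm))

theorem fills_two_hom (hC : C.IsCoheratorTheory) (σ : SuspData C) {X : GlobModel C}
    (h1 : Fills X 1) (h2 : Fills X 2) (y x : At X (Shape.globe 0))
    (hA : Acyc (HomM σ X y x) 0) : Fills (HomM σ X y x) 2 := by
  obtain ⟨Γ, _, cls, tri, sep⟩ := exists_cls_hom hC σ X h1 h2 y x
  generalize HomM σ X y x = U at *
  refine fills_succ_iff.mpr fun a b hab => sep a b hab ?_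
  obtain ⟨w, hw⟩ := hA (Finsupp.single (b1 a) 1 - Finsupp.single (b1 b) 1) (by
    rw [map_sub, dL_b1, dL_b1, show src U a = src U b from hab.1,
      show tgt U a = tgt U b from hab.2, sub_self])
  have key : ∀ w, zlift (fun p : (lay C 1).Bas U => cls p.2) (dL 1 U w) = 0 := by
    intro w
    induction w using Finsupp.induction_linear with
    | zero => simp
    | add a b ha hb => rw [map_add, map_add, ha, hb, add_zero]
    | single p k =>
      obtain ⟨S, t, z, hz, e⟩ := dL_succ_single 0 p k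
      obtain ⟨v0⟩ := cell_zero_nonempty S
      choose e e1 e2 using fun v => fill_op hC (C.ofShape v0) v trivial
      have : ∀ z, zlift (fun p : (lay C 1).Bas U => cls p.2) ((lay C 1).Lmap (yon t) z) =
          zlift (fun p : (lay C 0).Bas (freeOn C S) => cls (U.act (e p.2) t)) (dL 0 _ z) := by
        intro z
        induction z using Finsupp.induction_linear with
        | zero => simp
        | add a b ha hb => simp only [map_add, ha, hb]
        | single o n =>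
          rw [← b1_surj o, dL_b1, map_sub, Layer.Lmap_single, zlift_single, zlift_single,
            zlift_single, ← smul_sub]
          congr 1
          exact eq_sub_of_add_eq' (tri S t (e (src _ o.2)) o.2 (e (tgt _ o.2)) (e2 _)
            ((e1 _).trans (e1 _).symm) (e2 _)).symm
      rw [‹dL _ _ _ = k • _›, map_zsmul, this, hz, map_zero, smul_zero]
  have := key w
  rw [hw, map_sub, zlift_single, zlift_single, one_smul, one_smul] at this
  exact sub_eq_zero.mp this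

theorem fills_of_acyc (hC : C.IsCoheratorTheory) (q : ℕ) (X : GlobModel C)
    (h : ∀ k, k ≤ q + 2 → Fills X k) (hA : Acyc X (q + 1)) : Fills X (q + 3) := by
  obtain ⟨σ⟩ := exists_suspData hC
  induction q generalizing X with
  | zero =>
    exact fills_of_hom σ fun y x => fills_two_hom hC σ (h 1 (by omega)) (h 2 le_rfl) y x
      (acyc_hom hC σ 0 h hA y x)
  | succ q ih =>
    exact fills_of_hom σ fun y x => ih _ (fun k hk => fills_hom σ (h _ (by omega)) y x)
      (acyc_hom hC σ (q + 1) h hA y x)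

theorem contr_of_hzero (hC : C.IsCoheratorTheory) {X : GlobModel C} (h0 : Fills X 0)
    (h1 : Fills X 1) (h2 : Fills X 2) (h : ∀ q, HZero X (q + 2)) : Contr X := by
  intro n
  induction n using Nat.strong_induction_on with
  | _ n ih =>
    match n, ih with
    | 0, _ => exact h0
    | 1, _ => exact h1
    | 2, _ => exact h2
    | q + 3, ih =>
      exact fills_of_acyc hC q X (fun k hk => ih k (by omega))
        ((hzero_iff_acyc hC X (q + 1)).mp (h q))

end Crest.Agent.R248
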