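import Crest.Agent.R248.Models

/-!
# Row 248: extending functors on shapes along the tower of a coherator

A functor on shapes preserving the gluings extends to all operations of a theory with a tower as
soon as the generating operations can be lifted one at a time.
-/

open CategoryTheory Limits Opposite Crest.GeometryTopology.Coherator
open Crest.GeometryTopology.Coherator.GlobTheory
open Crest.GeometryTopology.Coherator.GlobTheory.GlobModel

set_option backward.isDefEq.respectTransparency false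

noncomputable section

namespace Crest.Agent.R248

universe u v w

variable {C : GlobTheory.{u}}

/-- An extension of a functor on shapes to the operations of `C`. -/
structure Extn (C : GlobTheory.{u}) {D : Type w} [Category.{u} D] (Γ : Shape ⥤ D) where
  map : ∀ {S T : Shape}, C.arr S T → (Γ.obj S ⟶ Γ.obj T)
  map_one : ∀ S : Shape, map (C.one S) = 𝟙 (Γ.obj S)
  map_seq : ∀ {R S T : Shape} (f : C.arr R S) (g : C.arr S T), map (C.seq f g) = map f ≫ map g
  map_ofShape : ∀ {S T : Shape} (f : S ⟶ T), map (C.ofShape f) = Γ.map f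

namespace Extn

variable {D : Type w} [Category.{u} D] {Γ : Shape ⥤ D}

/-- The functor on the theory given by an extension. -/
def functor (e : Extn C Γ) : C.Ob ⥤ D where
  obj S := Γ.obj S.shape
  map o := e.map o
  map_id S := e.map_one S.shape
  map_comp o o' := e.map_seq o o'

/-- The model of maps into a fixed object. -/
def model (e : Extn C Γ) (hΓ : RespectsGlue Γ) (d : D) : GlobModel C :=
  mkModel (fun S => Γ.obj S ⟶ d) (fun o φ => e.map o ≫ φ)
    (fun S φ => by rw [e.map_one, Category.id_comp])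
    (fun o o' φ => by rw [e.map_seq, Category.assoc])
    (fun S b h hb hh φ ψ h1 h2 => by
      rw [e.map_ofShape] at h1 h2
      exact (hΓ S b h hb hh).hom_ext h1 h2)
    (fun S b h hb hh φ ψ w => by
      rw [e.map_ofShape, e.map_ofShape] at w
      refine ⟨(hΓ S b h hb hh).desc φ ψ w, ?_, ?_⟩
      · rw [e.map_ofShape, IsPushout.inl_desc]
      · rw [e.map_ofShape, IsPushout.inr_desc])

theorem model_act (e : Extn C Γ) (hΓ : RespectsGlue Γ) (d : D) {S T : Shape} (o : C.arr S T)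
    (φ : Γ.obj T ⟶ d) : (e.model hΓ d).act o φ = e.map o ≫ φ := rfl

theorem model_res (e : Extn C Γ) (hΓ : RespectsGlue Γ) (d : D) {S T : Shape} (o : S ⟶ T)
    (φ : Γ.obj T ⟶ d) : res (e.model hΓ d) o φ = Γ.map o ≫ φ := by
  rw [← e.map_ofShape]; rfl

/-- The map of models induced by a map of the fixed objects. -/
def modelMap (e : Extn C Γ) (hΓ : RespectsGlue Γ) {d d' : D} (g : d ⟶ d') :
    e.model hΓ d ⟶ e.model hΓ d' :=
  homMk (fun _ φ => (φ ≫ g : _ ⟶ d')) (fun _ _ _ _ => Category.assoc _ _ _)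

theorem app_modelMap (e : Extn C Γ) (hΓ : RespectsGlue Γ) {d d' : D} (g : d ⟶ d') (S : Shape)
    (φ : Γ.obj S ⟶ d) : app (e.modelMap hΓ g) S φ = φ ≫ g := rfl

end Extn

/-- The generating operations of dimension `k` of a tower. -/
structure GenAt (T : C.Tower) (k : ℕ) : Type u where
  r : ℕ
  g : T.gen r
  h : (T.prob r g).n + 1 = k

namespace GenAt

variable {T : C.Tower} {k : ℕ}

/-- The arity of a generating operation. -/
def shape (g : GenAt T k) : Shape := (T.prob g.r g.g).shape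

theorem dim_le (g : GenAt T k) : g.shape.dim ≤ k := (T.prob g.r g.g).dim_le.trans g.h.le

theorem pos (g : GenAt T k) : 0 < k := (Nat.succ_pos _).trans_le g.h.le

/-- The generating operation. -/
def op (g : GenAt T k) : C.arr (Shape.globe k) g.shape :=
  Eq.rec (motive := fun k _ => C.arr (Shape.globe k) g.shape)
    ((T.toEnd (g.r + 1)).map (T.fill g.r g.g)) g.h

end GenAt

/-- Parallel maps out of the image of a globe. -/
def ParD {D : Type w} [Category.{v} D] (Γ : Shape ⥤ D) {d : D} :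
    (n : ℕ) → (Γ.obj (Shape.globe n) ⟶ d) → (Γ.obj (Shape.globe n) ⟶ d) → Prop
  | 0, _, _ => True
  | n + 1, F, G => Γ.map (Shape.σ n) ≫ F = Γ.map (Shape.σ n) ≫ G ∧
      Γ.map (Shape.τ n) ≫ F = Γ.map (Shape.τ n) ≫ G

theorem ParD.face {D : Type w} [Category.{v} D] {Γ : Shape ⥤ D} {d : D} {n : ℕ}
    {F G : Γ.obj (Shape.globe n) ⟶ d} (h : ParD Γ n F G) {k : ℕ} (hk : k < n) (e : Bool) :
    Γ.map (Shape.faceMap hk e) ≫ F = Γ.map (Shape.faceMap hk e) ≫ G := by
  obtain ⟨n, rfl⟩ : ∃ m, n = m + 1 := ⟨n - 1, by omega⟩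
  rcases Nat.lt_succ_iff_lt_or_eq.mp hk with h' | rfl
  · rw [← faceMap_comp h' (Nat.lt_succ_self n) e false, Γ.map_comp, Category.assoc,
      Category.assoc]
    exact congrArg _ h.1
  · cases e
    · exact h.1
    · exact h.2

section LiftThm

variable {D : Type w} [Category.{u} D] (Γ : Shape ⥤ D)

/-- A relation between operations and maps, closed under the structure of a globular theory. -/
structure GoodRel (C : GlobTheory.{u}) (Γ : Shape ⥤ D)
    (R : ∀ {S T : Shape}, C.arr S T → (Γ.obj S ⟶ Γ.obj T) → Prop) : Prop where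
  ofShape : ∀ {S T : Shape} (f : S ⟶ T), R (C.ofShape f) (Γ.map f)
  seq : ∀ {S T U : Shape} {φ : C.arr S T} {ψ : C.arr T U} {Φ : Γ.obj S ⟶ Γ.obj T}
    {Ψ : Γ.obj T ⟶ Γ.obj U}, R φ Φ → R ψ Ψ → R (C.seq φ ψ) (Φ ≫ Ψ)
  glue : ∀ (S : Shape) (b h : ℕ) (hb : b < S.last) (hh : b < h) {U : Shape}
    (φ : C.arr (S.glue b h hb hh) U) (Φ : Γ.obj (S.glue b h hb hh) ⟶ Γ.obj U),
    R (C.seq (C.ofShape (S.inLeft b h hb hh)) φ) (Γ.map (S.inLeft b h hb hh) ≫ Φ) →
    R (C.seq (C.ofShape (S.inRight b h hb hh)) φ) (Γ.map (S.inRight b h hb hh) ≫ Φ) → R φ Φ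

variable {Γ}

/-- The pre-theory of related pairs. -/
def pairPre {R : ∀ {S T : Shape}, C.arr S T → (Γ.obj S ⟶ Γ.obj T) → Prop}
    (hR : GoodRel C Γ R) : PreTheory.{u} where
  arr S T := {p : C.arr S T × (Γ.obj S ⟶ Γ.obj T) // R p.1 p.2}
  one S := ⟨(C.one S, 𝟙 _), by
    have := hR.ofShape (𝟙 S)
    rwa [C.ofShape_id, Γ.map_id] at this⟩
  seq f g := ⟨(C.seq f.1.1 g.1.1, f.1.2 ≫ g.1.2), hR.seq f.2 g.2⟩
  one_seq f := Subtype.ext (Prod.ext (C.one_seq _) (Category.id_comp _))
  seq_one f := Subtype.ext (Prod.ext (C.seq_one _) (Category.comp_id _))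
  seq_assoc f g h := Subtype.ext (Prod.ext (C.seq_assoc _ _ _) (Category.assoc _ _ _))
  ofShape f := ⟨(C.ofShape f, Γ.map f), hR.ofShape f⟩
  ofShape_id S := Subtype.ext (Prod.ext (C.ofShape_id S) (Γ.map_id S))
  ofShape_comp f g := Subtype.ext (Prod.ext (C.ofShape_comp f g) (Γ.map_comp f g))

/-- The theory of related pairs. -/
def pairThy (hΓ : RespectsGlue Γ) {R : ∀ {S T : Shape}, C.arr S T → (Γ.obj S ⟶ Γ.obj T) → Prop}
    (hR : GoodRel C Γ R) : GlobTheory.{u} where
  toPreTheory := pairPre hR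
  respectsSums S b h hb hh := by
    have P := C.respectsSums S b h hb hh
    have Q := hΓ S b h hb hh
    refine ⟨⟨Subtype.ext (Prod.ext P.w Q.w)⟩, ⟨PushoutCocone.IsColimit.mk _
      (fun s => ⟨(P.desc (W := ⟨s.pt.shape⟩) s.inl.1.1 s.inr.1.1
          (congrArg (fun p => p.1.1) s.condition),
        Q.desc s.inl.1.2 s.inr.1.2 (congrArg (fun p => p.1.2) s.condition)), ?_⟩)
      (fun s => Subtype.ext (Prod.ext (P.inl_desc _ _ _) (Q.inl_desc _ _ _)))
      (fun s => Subtype.ext (Prod.ext (P.inr_desc _ _ _) (Q.inr_desc _ _ _)))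
      (fun s m h1 h2 => Subtype.ext (Prod.ext ?_ ?_))⟩⟩
    · refine hR.glue S b h hb hh _ _ ?_ ?_
      · have h1 := P.inl_desc (W := ⟨s.pt.shape⟩) s.inl.1.1 s.inr.1.1
          (congrArg (fun p => p.1.1) s.condition)
        have h2 := Q.inl_desc s.inl.1.2 s.inr.1.2 (congrArg (fun p => p.1.2) s.condition)
        exact (congrArg₂ R h1 h2).mpr s.inl.2
      · have h1 := P.inr_desc (W := ⟨s.pt.shape⟩) s.inl.1.1 s.inr.1.1
          (congrArg (fun p => p.1.1) s.condition)
        have h2 := Q.inr_desc s.inl.1.2 s.inr.1.2 (congrArg (fun p => p.1.2) s.condition)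
        exact (congrArg₂ R h1 h2).mpr s.inr.2
    · exact P.hom_ext (W := ⟨s.pt.shape⟩)
        ((congrArg (fun p => p.1.1) h1).trans (P.inl_desc (W := ⟨s.pt.shape⟩) _ _ _).symm)
        ((congrArg (fun p => p.1.1) h2).trans (P.inr_desc (W := ⟨s.pt.shape⟩) _ _ _).symm)
    · exact Q.hom_ext ((congrArg (fun p => p.1.2) h1).trans (Q.inl_desc _ _ _).symm)
        ((congrArg (fun p => p.1.2) h2).trans (Q.inr_desc _ _ _).symm)

/-- The projection from the theory of related pairs. -/
def pairFst (hΓ : RespectsGlue Γ) {R : ∀ {S T : Shape}, C.arr S T → (Γ.obj S ⟶ Γ.obj T) → Prop}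
    (hR : GoodRel C Γ R) : TheoryMap (pairThy hΓ hR) C where
  map f := f.1.1
  map_one _ := rfl
  map_seq _ _ := rfl
  map_ofShape _ := rfl

theorem theoryMap_comp_assoc {A B E F : GlobTheory.{u}} (f : TheoryMap A B) (g : TheoryMap B E)
    (h : TheoryMap E F) : (f.comp g).comp h = f.comp (g.comp h) := rfl

theorem gen_faces (T : C.Tower) (r : ℕ) (g : T.gen r) :
    C.seq (C.ofShape (Shape.σ _)) ((T.toEnd (r + 1)).map (T.fill r g)) =
        (T.toEnd r).map (T.prob r g).lower ∧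
      C.seq (C.ofShape (Shape.τ _)) ((T.toEnd (r + 1)).map (T.fill r g)) =
        (T.toEnd r).map (T.prob r g).upper := by
  obtain ⟨h1, h2⟩ := (T.free r).1 g
  constructor
  · rw [← (T.toEnd (r + 1)).map_ofShape, ← (T.toEnd (r + 1)).map_seq, h1, ← T.toEnd_comm r]; rfl
  · rw [← (T.toEnd (r + 1)).map_ofShape, ← (T.toEnd (r + 1)).map_seq, h2, ← T.toEnd_comm r]; rfl

/-- A section of a map of theories to `C`, built along the tower. -/
theorem exists_section (T : C.Tower) {E : GlobTheory.{u}} (π : TheoryMap E C)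
    (Q : ∀ (r : ℕ) (g : T.gen r), E.arr (Shape.globe ((T.prob r g).n + 1)) (T.prob r g).shape → Prop)
    (hfill : ∀ (r : ℕ) (g : T.gen r) (H : TheoryMap (T.stage r) E), H.comp π = T.toEnd r →
      ∃ w, IsFillerAlong H (T.prob r g) w ∧ π.map w = (T.toEnd (r + 1)).map (T.fill r g) ∧
        Q r g w) :
    ∃ G : TheoryMap C E, G.comp π = TheoryMap.id C ∧
      ∀ r g, Q r g (G.map ((T.toEnd (r + 1)).map (T.fill r g))) := by
  have step : ∀ (r : ℕ) (H : {H : TheoryMap (T.stage r) E // H.comp π = T.toEnd r}),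
      ∃ H' : {H : TheoryMap (T.stage (r + 1)) E // H.comp π = T.toEnd (r + 1)},
        (T.next r).comp H'.1 = H.1 ∧ ∀ g, Q r g (H'.1.map (T.fill r g)) := by
    intro r H
    choose w hw using fun g => hfill r g H.1 H.2
    obtain ⟨H', ⟨h1, h2⟩, -⟩ := (T.free r).2 E H.1 w (fun g => (hw g).1)
    refine ⟨⟨H', ?_⟩, h1, fun g => (h2 g).symm ▸ (hw g).2.2⟩
    refine ((T.free r).2 C (T.toEnd r) (fun g => (T.toEnd (r + 1)).map (T.fill r g))
      (fun g => gen_faces T r g)).unique ⟨?_, fun g => ?_⟩ ⟨T.toEnd_comm r, fun _ => rfl⟩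
    · rw [← theoryMap_comp_assoc, h1, H.2]
    · change π.map (H'.map (T.fill r g)) = _
      rw [h2, (hw g).2.1]
  choose nxt hnxt using step
  obtain ⟨u0⟩ := T.stage_zero E
  obtain ⟨u1⟩ := T.stage_zero C
  let H : ∀ r, {H : TheoryMap (T.stage r) E // H.comp π = T.toEnd r} := fun r =>
    Nat.rec ⟨u0.default, (u1.uniq _).trans (u1.uniq _).symm⟩ nxt r
  obtain ⟨G, hG, -⟩ := T.colim E (fun r => (H r).1) (fun r => (hnxt r (H r)).1)
  refine ⟨G, ?_, fun r g => ?_⟩
  · refine (T.colim C T.toEnd T.toEnd_comm).unique (fun r => ?_) (fun r => rfl)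
    rw [← theoryMap_comp_assoc, hG, (H r).2]
  · have : G.map ((T.toEnd (r + 1)).map (T.fill r g)) = (H (r + 1)).1.map (T.fill r g) := by
      rw [← hG (r + 1)]; rfl
    rw [this]
    exact (hnxt r (H r)).2 g

/-- The extension theorem along a tower. -/
theorem exists_extn (T : C.Tower) (hΓ : RespectsGlue Γ)
    {R : ∀ {S T : Shape}, C.arr S T → (Γ.obj S ⟶ Γ.obj T) → Prop} (hR : GoodRel C Γ R)
    (Q : ∀ (k : ℕ) (g : GenAt T k), (Γ.obj (Shape.globe k) ⟶ Γ.obj g.shape) → Prop)
    (hfill : ∀ (n : ℕ) (g : GenAt T (n + 1)) (F G : Γ.obj (Shape.globe n) ⟶ Γ.obj g.shape),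
      R (C.seq (C.ofShape (Shape.σ n)) g.op) F → R (C.seq (C.ofShape (Shape.τ n)) g.op) G →
      ParD Γ n F G → ∃ H : Γ.obj (Shape.globe (n + 1)) ⟶ Γ.obj g.shape,
        Γ.map (Shape.σ n) ≫ H = F ∧ Γ.map (Shape.τ n) ≫ H = G ∧ R g.op H ∧ Q (n + 1) g H) :
    ∃ e : Extn C Γ, (∀ {S U : Shape} (φ : C.arr S U), R φ (e.map φ)) ∧
      ∀ k (g : GenAt T k), Q k g (e.map g.op) := by
  obtain ⟨G, hG, hQ⟩ := exists_section T (pairFst hΓ hR)
    (fun r g w => Q _ ⟨r, g, rfl⟩ w.1.2) (by
      intro r g H hH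
      have e1 : (H.map (T.prob r g).lower).1.1 = (T.toEnd r).map (T.prob r g).lower := by
        rw [← hH]; rfl
      have e2 : (H.map (T.prob r g).upper).1.1 = (T.toEnd r).map (T.prob r g).upper := by
        rw [← hH]; rfl
      obtain ⟨f1, f2⟩ := gen_faces T r g
      have par : ParD Γ (T.prob r g).n (H.map (T.prob r g).lower).1.2
          (H.map (T.prob r g).upper).1.2 := by
        have hp := (T.prob r g).parallel
        generalize (T.prob r g).lower = lo at hp ⊢
        generalize (T.prob r g).upper = up at hp ⊢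
        generalize (T.prob r g).n = n at lo up hp ⊢
        cases n with
        | zero => trivial
        | succ n =>
          have a1 := congrArg (fun x => (H.map x).1.2) hp.1
          have a2 := congrArg (fun x => (H.map x).1.2) hp.2
          simp only [H.map_seq, H.map_ofShape] at a1 a2
          exact ⟨a1, a2⟩
      obtain ⟨W, w1, w2, w3, w4⟩ := hfill _ ⟨r, g, rfl⟩ _ _
        ((congrArg₂ R (f1.trans e1.symm) rfl).mpr (H.map (T.prob r g).lower).2)
        ((congrArg₂ R (f2.trans e2.symm) rfl).mpr (H.map (T.prob r g).upper).2) par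
      exact ⟨⟨((T.toEnd (r + 1)).map (T.fill r g), W), w3⟩,
        ⟨Subtype.ext (Prod.ext (f1.trans e1.symm) w1),
          Subtype.ext (Prod.ext (f2.trans e2.symm) w2)⟩, rfl, w4⟩)
  have hG' : ∀ {S U : Shape} (φ : C.arr S U), (G.map φ).1.1 = φ := fun φ =>
    congrArg (fun F : TheoryMap C C => F.map φ) hG
  refine ⟨{ map := fun φ => (G.map φ).1.2
            map_one := fun S => by rw [G.map_one]; rfl
            map_seq := fun f g => by rw [G.map_seq]; rfl
            map_ofShape := fun f => by rw [G.map_ofShape]; rfl }, fun φ => ?_, ?_⟩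
  · exact (congrArg₂ R (hG' φ) rfl).mp (G.map φ).2
  · rintro k ⟨r, g, rfl⟩
    exact hQ r g

end LiftThm

/-- Induction on the operations of a theory with a tower. -/
theorem op_induction (T : C.Tower) (P : ∀ {S U : Shape}, C.arr S U → Prop)
    (ofShape : ∀ {S U : Shape} (f : S ⟶ U), P (C.ofShape f))
    (seq : ∀ {S U V : Shape} {φ : C.arr S U} {ψ : C.arr U V}, P φ → P ψ → P (C.seq φ ψ))
    (glue : ∀ (S : Shape) (b h : ℕ) (hb : b < S.last) (hh : b < h) {U : Shape}
      (φ : C.arr (S.glue b h hb hh) U), P (C.seq (C.ofShape (S.inLeft b h hb hh)) φ) →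
      P (C.seq (C.ofShape (S.inRight b h hb hh)) φ) → P φ)
    (gen : ∀ (n : ℕ) (g : GenAt T (n + 1)), P (C.seq (C.ofShape (Shape.σ n)) g.op) →
      P (C.seq (C.ofShape (Shape.τ n)) g.op) → P g.op)
    {S U : Shape} (φ : C.arr S U) : P φ := by
  let Γ : Shape ⥤ Discrete PUnit.{u + 1} := (Functor.const _).obj ⟨PUnit.unit⟩
  have hΓ : RespectsGlue Γ := fun S b h hb hh =>
    ⟨⟨Subsingleton.elim _ _⟩, ⟨PushoutCocone.IsColimit.mk _ (fun s => s.inl)
      (fun _ => Subsingleton.elim _ _) (fun _ => Subsingleton.elim _ _)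
      (fun _ _ _ _ => Subsingleton.elim _ _)⟩⟩
  obtain ⟨e, he, -⟩ := exists_extn (Γ := Γ) T hΓ (R := fun φ _ => P φ)
    ⟨ofShape, seq, fun S b h hb hh _ φ _ => glue S b h hb hh φ⟩ (fun _ _ _ => True)
    (fun n g F G h1 h2 _ => ⟨𝟙 _, Subsingleton.elim _ _, Subsingleton.elim _ _,
      gen n g h1 h2, trivial⟩)
  exact he φ

end Crest.Agent.R248
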