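import Crest.Agent.R248.Res

/-!
# Row 248: cellular chains of shapes and their extension to the operations
-/

open CategoryTheory Limits Opposite Crest.GeometryTopology.Coherator
open Crest.GeometryTopology.Coherator.GlobTheory
open Crest.GeometryTopology.Coherator.GlobTheory.GlobModel

set_option backward.isDefEq.respectTransparency false

noncomputable section

namespace Crest.Agent.R248

universe u v

variable {C : GlobTheory.{u}}

theorem cell_succ_desc {k n : ℕ} {Y : Type v} (α β : Cell k (Shape.globe n) → Y)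
    (h : ∀ (hk : k < n) e, α (Shape.faceMap hk e) = β (Shape.faceMap hk e)) (t : Y) :
    ∃ l : Cell k (Shape.globe (n + 1)) → Y, (∀ c, l (c ≫ Shape.σ n) = α c) ∧
      (∀ c, l (c ≫ Shape.τ n) = β c) ∧ (k = n + 1 → ∀ c, l c = t) := by
  classical
  rcases lt_trichotomy k n with hk | rfl | hk
  · refine ⟨fun c => if c = Shape.faceMap (hk.trans (Nat.lt_succ_self n)) false then
      α (Shape.faceMap hk false) else α (Shape.faceMap hk true), fun c => ?_, fun c => ?_,
      fun h => absurd h (by omega)⟩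
    · obtain ⟨e, rfl⟩ := cell_globe_lt hk c
      rw [σ_eq, faceMap_comp]
      cases e
      · exact if_pos rfl
      · exact if_neg (faceMap_ne _).symm
    · obtain ⟨e, rfl⟩ := cell_globe_lt hk c
      rw [τ_eq, faceMap_comp, ← h]
      cases e
      · exact if_pos rfl
      · exact if_neg (faceMap_ne _).symm
  · refine ⟨fun c => if c = Shape.σ k then α (𝟙 _) else β (𝟙 _), fun c => ?_, fun c => ?_,
      fun h => absurd h (by omega)⟩
    · rw [cell_globe_top c, Category.id_comp]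
      exact if_pos rfl
    · rw [cell_globe_top c, Category.id_comp]
      exact if_neg (faceMap_ne _).symm
  · exact ⟨fun _ => t, fun c => absurd (cell_globe_le c) (by omega),
      fun c => absurd (cell_globe_le c) (by omega), fun _ _ => rfl⟩

theorem cell_succ_cases {k n : ℕ} (c : Cell k (Shape.globe (n + 1))) :
    k = n + 1 ∨ (∃ c', c = c' ≫ Shape.σ n) ∨ ∃ c', c = c' ≫ Shape.τ n := by
  rcases (cell_globe_le c).eq_or_lt with h | h
  · exact Or.inl h
  · obtain ⟨e, rfl⟩ := cell_globe_lt h c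
    rcases Nat.lt_succ_iff_lt_or_eq.mp h with h' | rfl
    · exact Or.inr (Or.inl ⟨Shape.faceMap h' e, (faceMap_comp _ _ _ _).symm⟩)
    · cases e
      · exact Or.inr (Or.inl ⟨𝟙 _, (Category.id_comp _).symm⟩)
      · exact Or.inr (Or.inr ⟨𝟙 _, (Category.id_comp _).symm⟩)

/-! ### A recursion principle for cells of cofibrant models -/

/-- Elements with labelled cells. -/
def labΓ (X : GlobModel C) (k : ℕ) (A : Type u) : Shape ⥤ (Type u)ᵒᵖ where
  obj S := op (At X S × (Cell k S → A))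
  map f := (TypeCat.ofHom fun p : At X _ × (Cell k _ → A) =>
    (res X f p.1, fun c => p.2 (c ≫ f))).op
  map_id S := Quiver.Hom.unop_inj (by
    ext p
    · exact res_id p.1
    · exact congrArg p.2 (Category.comp_id _))
  map_comp f g := Quiver.Hom.unop_inj (by
    ext p
    · exact res_comp f g p.1
    · exact congrArg p.2 (Category.assoc _ _ _).symm)

theorem lab_ext {X : GlobModel C} {k : ℕ} {A : Type u} {S : Shape} {b h : ℕ} {hb : b < S.last}
    {hh : b < h} (p q : At X (S.glue b h hb hh) × (Cell k (S.glue b h hb hh) → A))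
    (h1 : ((labΓ X k A).map (S.inLeft b h hb hh)).unop p =
      ((labΓ X k A).map (S.inLeft b h hb hh)).unop q)
    (h2 : ((labΓ X k A).map (S.inRight b h hb hh)).unop p =
      ((labΓ X k A).map (S.inRight b h hb hh)).unop q) : p = q := by
  refine Prod.ext (glue_ext (congrArg Prod.fst h1) (congrArg Prod.fst h2)) (funext fun c => ?_)
  rcases cell_glue_cases c with ⟨c', rfl⟩ | ⟨c', rfl⟩
  · exact congrFun (congrArg Prod.snd h1) c'
  · exact congrFun (congrArg Prod.snd h2) c'

theorem lab_glue {X : GlobModel C} {k : ℕ} {A : Type u} {S : Shape} {b h : ℕ} (hb : b < S.last)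
    (hh : b < h) (p : At X S × (Cell k S → A))
    (q : At X (Shape.globe h) × (Cell k (Shape.globe h) → A))
    (w : ((labΓ X k A).map (S.hinge hb)).unop p =
      ((labΓ X k A).map (Shape.faceMap hh false)).unop q) :
    ∃ z : At X (S.glue b h hb hh) × (Cell k (S.glue b h hb hh) → A),
      ((labΓ X k A).map (S.inLeft b h hb hh)).unop z = p ∧
      ((labΓ X k A).map (S.inRight b h hb hh)).unop z = q := by
  obtain ⟨z, h1, h2⟩ := exists_glue hb hh p.1 q.1 (congrArg Prod.fst w)
  obtain ⟨l, l1, l2⟩ := cell_glue_desc (hb := hb) (hh := hh) p.2 q.2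
    (congrFun (congrArg Prod.snd w))
  exact ⟨(z, l), Prod.ext h1 (funext l1), Prod.ext h2 (funext l2)⟩

theorem respectsGlue_labΓ (X : GlobModel C) (k : ℕ) (A : Type u) : RespectsGlue (labΓ X k A) := by
  intro S b h hb hh
  have : IsPullback ((labΓ X k A).map (S.inLeft b h hb hh)).unop
      ((labΓ X k A).map (S.inRight b h hb hh)).unop ((labΓ X k A).map (S.hinge hb)).unop
      ((labΓ X k A).map (Shape.faceMap hh false)).unop := by
    rw [Types.isPullback_iff]
    refine ⟨?_, fun p q H => lab_ext p q H.1 H.2, lab_glue hb hh⟩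
    rw [← unop_comp, ← unop_comp, ← Functor.map_comp, ← Functor.map_comp, hinge_inLeft]
  exact this.op.flip

/-- Recursion on the cells of a cofibrant model along the generating operations. -/
theorem exists_label (T : C.Tower) {X : GlobModel C} (cX : Cofibrant X) (k : ℕ) {A : Type u}
    (a0 : A) (val : ∀ g : GenAt T k, At X g.shape × (Cell k g.shape → A) → A) :
    ∃ α : At X (Shape.globe k) → A,
      ∀ (g : GenAt T k) x, α (X.act g.op x) = val g (x, fun c => α (res X c x)) := by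
  classical
  obtain ⟨val', hval⟩ : ∃ val' : ∀ k' (g : GenAt T k'), At X g.shape × (Cell k g.shape → A) → A,
      val' k = val := ⟨Function.update (fun _ _ _ => a0) k val, Function.update_self _ _ _⟩
  have fill : ∀ (n : ℕ) (a b : At X (Shape.globe n) × (Cell k (Shape.globe n) → A)),
      (∀ m (hm : m < n) e, ((labΓ X k A).map (Shape.faceMap hm e)).unop a =
        ((labΓ X k A).map (Shape.faceMap hm e)).unop b) →
      ∀ t, ∃ l : Cell k (Shape.globe (n + 1)) → A, (∀ c, l (c ≫ Shape.σ n) = a.2 c) ∧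
        (∀ c, l (c ≫ Shape.τ n) = b.2 c) ∧ (k = n + 1 → ∀ c, l c = t) := by
    intro n a b h t
    refine cell_succ_desc a.2 b.2 (fun hk e => ?_) t
    have := congrFun (congrArg Prod.snd (h k hk e)) (𝟙 _)
    change a.2 (𝟙 _ ≫ _) = b.2 (𝟙 _ ≫ _) at this
    rwa [Category.id_comp] at this
  obtain ⟨e, he, hQ⟩ := exists_extn (Γ := labΓ X k A) T (respectsGlue_labΓ X k A)
    (R := fun φ Φ => ∀ p, (Φ.unop p).1 = X.act φ p.1)
    ⟨fun _ _ => rfl, fun {S U V φ ψ Φ Ψ} h1 h2 p => by
        rw [act_seq, ← h2]; exact h1 _,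
      fun S b h hb hh U φ Φ h1 h2 p => glue_ext ((h1 p).trans (act_seq _ _ _))
        ((h2 p).trans (act_seq _ _ _))⟩
    (fun k' g Φ => k = k' → ∀ p c, (Φ.unop p).2 c = val' k' g p)
    (fun n g F G h1 h2 hp => by
      choose l l1 l2 l3 using fun p => fill n (F.unop p) (G.unop p)
        (fun m hm e => types_congr_hom (congrArg Quiver.Hom.unop (hp.face hm e)) p)
        (val' _ g p)
      refine ⟨(TypeCat.ofHom fun p : At X g.shape × (Cell k g.shape → A) =>
        (X.act g.op p.1, l p)).op, Quiver.Hom.unop_inj ?_, Quiver.Hom.unop_inj ?_, fun _ => rfl,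
        fun hk p c => l3 p hk c⟩
      · ext p
        exact Prod.ext ((res_act _ _ _).trans (h1 p).symm) (funext (l1 p))
      · ext p
        exact Prod.ext ((res_act _ _ _).trans (h2 p).symm) (funext (l2 p)))
  let E : GlobModel C := mkModel (fun S => At X S × (Cell k S → A)) (fun o p => (e.map o).unop p)
    (fun S p => by rw [e.map_one]; rfl) (fun o o' p => by rw [e.map_seq]; rfl)
    (fun S b h hb hh p q h1 h2 => by
      rw [e.map_ofShape] at h1 h2
      exact lab_ext p q h1 h2)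
    (fun S b h hb hh p q w => by
      rw [e.map_ofShape, e.map_ofShape] at w
      rw [e.map_ofShape, e.map_ofShape]
      exact lab_glue hb hh p q w)
  have hres : ∀ {S U : Shape} (f : S ⟶ U) (p : At E U),
      res E f p = ((labΓ X k A).map f).unop p := fun f p => by
    rw [← e.map_ofShape]; rfl
  let π : E ⟶ X := homMk (fun _ p => p.1) (fun _ _ o p => he o p)
  have hπ : TFib π := by
    refine TFib.mk' (fun b => ⟨(b, fun _ => a0), rfl⟩) fun n a a' h z h1 h2 => ?_
    obtain ⟨l, l1, l2, -⟩ := fill n a a' (fun m hm e => by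
      rw [← hres, ← hres]; exact par_face h hm e) a0
    exact ⟨(z, l), (hres _ _).trans (Prod.ext h1 (funext l1)),
      (hres _ _).trans (Prod.ext h2 (funext l2)), rfl⟩
  obtain ⟨s, hs⟩ := cX π hπ (𝟙 X)
  refine ⟨fun y => (app s _ y).2 (𝟙 _), fun g x => ?_⟩
  refine (congrArg (fun p : At E (Shape.globe k) => p.2 (𝟙 _)) (app_act s g.op x)).trans ?_
  refine (hQ k g rfl _ _).trans ?_
  rw [hval]
  congr 1
  refine Prod.ext (app_congr hs _ x) (funext fun c => ?_)
  refine Eq.trans ?_ (congrArg (fun p : At E (Shape.globe k) => p.2 (𝟙 _))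
    ((app_res s c x).trans (hres _ _))).symm
  exact congrArg (app s _ x).2 (Category.id_comp c).symm

/-! ### Pushouts of abelian groups -/

theorem ab_pushout_surj {A B A' P : AddCommGrpCat.{u}} {f : B ⟶ A} {g : B ⟶ A'} {i : A ⟶ P}
    {j : A' ⟶ P} (sq : IsPushout f g i j) (z : P) : ∃ a a', z = i.hom a + j.hom a' := by
  let H : AddSubgroup P := (i.hom.coprod j.hom).range
  have : AddCommGrpCat.ofHom (QuotientAddGroup.mk' H) = 0 := sq.hom_ext
    (ab_ext fun a => (QuotientAddGroup.eq_zero_iff _).mpr ⟨(a, 0), by simp; rfl⟩)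
    (ab_ext fun a => (QuotientAddGroup.eq_zero_iff _).mpr ⟨(0, a), by simp; rfl⟩)
  obtain ⟨⟨a, a'⟩, h⟩ := (QuotientAddGroup.eq_zero_iff z).mp (ab_congr this z)
  exact ⟨a, a', h.symm⟩

theorem ab_pushout_exact {A B A' P : AddCommGrpCat.{u}} {f : B ⟶ A} {g : B ⟶ A'} {i : A ⟶ P}
    {j : A' ⟶ P} (sq : IsPushout f g i j) (a : A) (a' : A') (h : i.hom a + j.hom a' = 0) :
    ∃ b, f.hom b = a ∧ -g.hom b = a' := by
  let H : AddSubgroup (A × A') := (f.hom.prod (-g.hom)).range
  let α : A ⟶ AddCommGrpCat.of ((A × A') ⧸ H) :=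
    AddCommGrpCat.ofHom ((QuotientAddGroup.mk' H).comp (AddMonoidHom.inl _ _))
  let α' : A' ⟶ AddCommGrpCat.of ((A × A') ⧸ H) :=
    AddCommGrpCat.ofHom ((QuotientAddGroup.mk' H).comp (AddMonoidHom.inr _ _))
  have w : f ≫ α = g ≫ α' := ab_ext fun b => by
    refine QuotientAddGroup.eq_iff_sub_mem.mpr ⟨b, ?_⟩
    exact Prod.ext (sub_zero _).symm (zero_sub _).symm
  have h1 := ab_congr (sq.inl_desc α α' w) a
  have h2 := ab_congr (sq.inr_desc α α' w) a'
  have h3 := congrArg (sq.desc α α' w).hom h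
  rw [map_add, map_zero] at h3
  have h4 : QuotientAddGroup.mk' H (a, a') = 0 := by
    rw [← h3]
    refine Eq.trans ?_ (congrArg₂ (· + ·) h1 h2).symm
    change _ = QuotientAddGroup.mk' H (a, 0) + QuotientAddGroup.mk' H (0, a')
    rw [← map_add, Prod.mk_add_mk, add_zero, zero_add]
  obtain ⟨b, hb⟩ := (QuotientAddGroup.eq_zero_iff _).mp h4
  exact ⟨b, congrArg Prod.fst hb, congrArg Prod.snd hb⟩

/-- The Mayer-Vietoris argument. -/
theorem mayer_vietoris {A₂ A'₂ P₂ A₁ B₁ A'₁ P₁ A₀ B₀ A'₀ P₀ : AddCommGrpCat.{u}}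
    {i₂ : A₂ ⟶ P₂} {j₂ : A'₂ ⟶ P₂}
    {f₁ : B₁ ⟶ A₁} {g₁ : B₁ ⟶ A'₁} {i₁ : A₁ ⟶ P₁} {j₁ : A'₁ ⟶ P₁} (sq₁ : IsPushout f₁ g₁ i₁ j₁)
    {f₀ : B₀ ⟶ A₀} {g₀ : B₀ ⟶ A'₀} {i₀ : A₀ ⟶ P₀} {j₀ : A'₀ ⟶ P₀} (sq₀ : IsPushout f₀ g₀ i₀ j₀)
    {dA₂ : A₂ ⟶ A₁} {dA'₂ : A'₂ ⟶ A'₁} {dP₂ : P₂ ⟶ P₁}
    {dA : A₁ ⟶ A₀} {dB : B₁ ⟶ B₀} {dA' : A'₁ ⟶ A'₀} {dP : P₁ ⟶ P₀}
    (ci₂ : i₂ ≫ dP₂ = dA₂ ≫ i₁) (cj₂ : j₂ ≫ dP₂ = dA'₂ ≫ j₁)
    (cf : f₁ ≫ dA = dB ≫ f₀) (cg : g₁ ≫ dA' = dB ≫ g₀) (ci : i₁ ≫ dP = dA ≫ i₀)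
    (cj : j₁ ≫ dP = dA' ≫ j₀)
    (hA : ∀ x, dA.hom x = 0 → ∃ y, dA₂.hom y = x) (hA' : ∀ x, dA'.hom x = 0 → ∃ y, dA'₂.hom y = x)
    (hB : ∀ b a', g₀.hom b = dA'.hom a' → ∃ b', dB.hom b' = b)
    (z : P₁) (hz : dP.hom z = 0) : ∃ y, dP₂.hom y = z := by
  obtain ⟨a, a', rfl⟩ := ab_pushout_surj sq₁ z
  rw [map_add, ← ab_comp_apply, ← ab_comp_apply, ci, cj, ab_comp_apply, ab_comp_apply] at hz
  obtain ⟨b, h1, h2⟩ := ab_pushout_exact sq₀ _ _ hz
  obtain ⟨b', rfl⟩ := hB b (-a') (by rw [map_neg, ← h2, neg_neg])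
  obtain ⟨y, hy⟩ := hA (a - f₁.hom b') (by
    rw [map_sub, ← h1, ← ab_comp_apply f₁, cf, ab_comp_apply, sub_self])
  obtain ⟨y', hy'⟩ := hA' (a' + g₁.hom b') (by
    rw [map_add, ← h2, ← ab_comp_apply g₁, cg, ab_comp_apply, neg_add_cancel])
  refine ⟨i₂.hom y + j₂.hom y', ?_⟩
  rw [map_add, ← ab_comp_apply, ← ab_comp_apply, ci₂, cj₂, ab_comp_apply, ab_comp_apply, hy, hy',
    map_sub, map_add, ← ab_comp_apply f₁, sq₁.w, ab_comp_apply]
  abel

/-! ### Cellular chains of shapes -/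

/-- The cellular chains of a shape in one dimension. -/
def NΓ (k : ℕ) : Shape ⥤ AddCommGrpCat.{u} :=
  (coyoneda.obj (op (Shape.globe k)) ⋙ uliftFunctor.{u, 0}) ⋙ ZF

/-- The generator given by a cell. -/
def ncell {k : ℕ} {S : Shape} (c : Cell k S) : (NΓ.{u} k).obj S := Finsupp.single (ULift.up c) 1

theorem NΓ_map_ncell {k : ℕ} {S U : Shape} (f : S ⟶ U) (c : Cell k S) :
    ((NΓ.{u} k).map f).hom (ncell c) = ncell (c ≫ f) := ZF_map_single _ _ _

theorem n_hom_ext {k : ℕ} {S : Shape} {A : AddCommGrpCat.{u}} {φ ψ : (NΓ.{u} k).obj S ⟶ A}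
    (h : ∀ c, φ.hom (ncell c) = ψ.hom (ncell c)) : φ = ψ := by
  ext1
  exact z_ext fun c => h c.down

/-- Maps out of the cellular chains. -/
def nlift {k : ℕ} {S : Shape} {A : AddCommGrpCat.{u}} (φ : Cell k S → A) :
    (NΓ.{u} k).obj S ⟶ A := AddCommGrpCat.ofHom (zlift fun c : ULift.{u} (Cell k S) => φ c.down)

theorem nlift_ncell {k : ℕ} {S : Shape} {A : AddCommGrpCat.{u}} (φ : Cell k S → A)
    (c : Cell k S) : (nlift φ).hom (ncell c) = φ c := (zlift_single _ _ _).trans (one_smul _ _)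

theorem respectsGlue_NΓ (k : ℕ) : RespectsGlue (NΓ.{u} k) := by
  intro S b h hb hh
  have E : ∀ s : PushoutCocone ((NΓ.{u} k).map (S.hinge hb))
      ((NΓ.{u} k).map (Shape.faceMap hh false)), ∃ F : Cell k (S.glue b h hb hh) → s.pt,
      (∀ c, F (c ≫ S.inLeft b h hb hh) = s.inl.hom (ncell c)) ∧
      ∀ c, F (c ≫ S.inRight b h hb hh) = s.inr.hom (ncell c) := fun s =>
    cell_glue_desc _ _ fun c => by
      rw [← NΓ_map_ncell, ← NΓ_map_ncell]
      exact ab_congr s.condition _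
  choose F F1 F2 using E
  refine ⟨⟨by rw [← Functor.map_comp, ← Functor.map_comp, hinge_inLeft]⟩,
    ⟨PushoutCocone.IsColimit.mk _ (fun s => nlift (F s)) (fun s => n_hom_ext fun c => ?_)
      (fun s => n_hom_ext fun c => ?_) (fun s m h1 h2 => n_hom_ext fun c => ?_)⟩⟩
  · rw [ab_comp_apply, NΓ_map_ncell, nlift_ncell, F1]
  · rw [ab_comp_apply, NΓ_map_ncell, nlift_ncell, F2]
  · rw [nlift_ncell]
    rcases cell_glue_cases c with ⟨c', rfl⟩ | ⟨c', rfl⟩
    · rw [F1, ← h1, ab_comp_apply, NΓ_map_ncell]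
    · rw [F2, ← h2, ab_comp_apply, NΓ_map_ncell]

theorem exists_nfill {k n : ℕ} {A : AddCommGrpCat.{u}} (F G : (NΓ.{u} k).obj (Shape.globe n) ⟶ A)
    (h : ParD (NΓ.{u} k) n F G) (t : A) :
    ∃ H : (NΓ.{u} k).obj (Shape.globe (n + 1)) ⟶ A, (NΓ k).map (Shape.σ n) ≫ H = F ∧
      (NΓ k).map (Shape.τ n) ≫ H = G ∧ (k = n + 1 → ∀ c, H.hom (ncell c) = t) := by
  obtain ⟨l, l1, l2, l3⟩ := cell_succ_desc (fun c => F.hom (ncell c)) (fun c => G.hom (ncell c))
    (fun hk e => by
      have := ab_congr (h.face hk e) (ncell (𝟙 _))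
      rwa [ab_comp_apply, ab_comp_apply, NΓ_map_ncell, Category.id_comp] at this) t
  exact ⟨nlift l, n_hom_ext fun c => by rw [ab_comp_apply, NΓ_map_ncell, nlift_ncell, l1],
    n_hom_ext fun c => by rw [ab_comp_apply, NΓ_map_ncell, nlift_ncell, l2],
    fun hk c => by rw [nlift_ncell, l3 hk]⟩

/-- The augmented cellular chains. -/
def MΓ : ℕ → Shape ⥤ AddCommGrpCat.{u}
  | 0 => (Functor.const _).obj (ZF.obj PUnit)
  | k + 1 => NΓ k

/-- The generator of the augmentation group. -/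
def mone (S : Shape) : (MΓ.{u} 0).obj S := Finsupp.single PUnit.unit 1

/-- The boundary of a cell. -/
def cellBd : ∀ (k : ℕ) {S : Shape}, Cell k S → (MΓ.{u} k).obj S
  | 0, S, _ => mone S
  | k + 1, _, c => ncell (Shape.τ k ≫ c) - ncell (Shape.σ k ≫ c)

theorem map_cellBd (k : ℕ) {S U : Shape} (f : S ⟶ U) (c : Cell k S) :
    ((MΓ.{u} k).map f).hom (cellBd k c) = cellBd k (c ≫ f) := by
  cases k with
  | zero => rfl
  | succ k =>
    refine (map_sub ((NΓ.{u} k).map f).hom _ _).trans ?_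
    rw [NΓ_map_ncell, NΓ_map_ncell, Category.assoc, Category.assoc]
    rfl

/-- The differential of the augmented cellular chains. -/
def dM (k : ℕ) : NΓ.{u} k ⟶ MΓ.{u} k where
  app _ := nlift (cellBd k)
  naturality _ _ f := n_hom_ext fun c => by
    rw [ab_comp_apply, ab_comp_apply, NΓ_map_ncell, nlift_ncell, nlift_ncell, map_cellBd]

theorem dM_ncell (k : ℕ) {S : Shape} (c : Cell k S) :
    ((dM.{u} k).app S).hom (ncell c) = cellBd k c := nlift_ncell _ _

theorem cellBd_σ_τ (k : ℕ) {S : Shape} (c : Cell (k + 1) S) :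
    cellBd.{u} k (Shape.τ k ≫ c) = cellBd k (Shape.σ k ≫ c) := by
  cases k with
  | zero => rfl
  | succ k =>
    change ncell _ - ncell _ = ncell _ - ncell _
    simp only [σ_eq, τ_eq, faceMap_comp_assoc]

/-- The differential of the cellular chains. -/
def dN (k : ℕ) : NΓ.{u} (k + 1) ⟶ NΓ.{u} k := dM (k + 1)

theorem dN_ncell (k : ℕ) {S : Shape} (c : Cell (k + 1) S) :
    ((dN.{u} k).app S).hom (ncell c) = ncell (Shape.τ k ≫ c) - ncell (Shape.σ k ≫ c) :=
  dM_ncell _ _

theorem dN_dM (k : ℕ) (S : Shape) : (dN.{u} k).app S ≫ (dM.{u} k).app S = 0 :=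
  n_hom_ext fun c => by
    rw [ab_comp_apply, dN_ncell, map_sub, dM_ncell, dM_ncell, cellBd_σ_τ, sub_self]
    rfl

theorem dM_dN (k : ℕ) (S : Shape) (z : (NΓ.{u} (k + 1)).obj S) :
    ((dM.{u} k).app S).hom (((dN.{u} k).app S).hom z) = 0 := ab_congr (dN_dM k S) z

theorem cellBd_ne_zero (k : ℕ) {n : ℕ} (c : Cell k (Shape.globe n)) (m : ℤ)
    (h : m • cellBd.{u} k c = 0) : m = 0 := by
  cases k with
  | zero =>
    have := DFunLike.congr_fun (F := PUnit →₀ ℤ) h PUnit.unit
    change m * Finsupp.single PUnit.unit (1 : ℤ) PUnit.unit = 0 at this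
    rwa [Finsupp.single_eq_same, mul_one] at this
  | succ k =>
    have hne : Shape.σ k ≫ c ≠ Shape.τ k ≫ c := by
      rcases (cell_globe_le c).eq_or_lt with rfl | h'
      · rw [cell_globe_top c, Category.comp_id, Category.comp_id]; exact faceMap_ne _
      · obtain ⟨e, rfl⟩ := cell_globe_lt h' c
        rw [σ_eq, τ_eq, faceMap_comp, faceMap_comp]; exact faceMap_ne _
    have := DFunLike.congr_fun (F := ULift.{u} (Cell k (Shape.globe n)) →₀ ℤ) h
      (ULift.up (Shape.τ k ≫ c))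
    change m * (Finsupp.single (ULift.up (Shape.τ k ≫ c)) (1 : ℤ) (ULift.up (Shape.τ k ≫ c)) -
      Finsupp.single (ULift.up (Shape.σ k ≫ c)) (1 : ℤ) (ULift.up (Shape.τ k ≫ c))) = 0 at this
    rwa [Finsupp.single_eq_same, Finsupp.single_eq_of_ne (fun e => hne (ULift.up.inj e).symm),
      sub_zero, mul_one] at this

theorem n_induction {k : ℕ} {S : Shape} {P : (NΓ.{u} k).obj S → Prop} (h0 : P 0)
    (h1 : ∀ c (m : ℤ), P (m • ncell c)) (h2 : ∀ x y, P x → P y → P (x + y)) (x) : P x := by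
  induction x using Finsupp.induction_linear with
  | zero => exact h0
  | add a b ha hb => exact h2 a b ha hb
  | single c m =>
    have : Finsupp.single c m = m • ncell c.down := by
      change _ = m • Finsupp.single c (1 : ℤ)
      simp
    rw [this]
    exact h1 _ _

theorem n_exact_globe (k n : ℕ) (z : (NΓ.{u} k).obj (Shape.globe n))
    (hz : ((dM k).app _).hom z = 0) : ∃ y, ((dN k).app _).hom y = z := by
  rcases lt_trichotomy k n with h | rfl | h
  · obtain ⟨c0⟩ : Nonempty (Cell (k + 1) (Shape.globe n)) := by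
      rcases Nat.lt_or_eq_of_le (Nat.succ_le_of_lt h) with h' | rfl
      · exact ⟨Shape.faceMap h' false⟩
      · exact ⟨𝟙 _⟩
    have : ∀ z : (NΓ.{u} k).obj (Shape.globe n), ∃ (y : _) (m : ℤ),
        z = ((dN k).app _).hom y + m • ncell (Shape.σ k ≫ c0) := by
      intro z
      induction z using n_induction with
      | h0 => exact ⟨0, 0, by simp⟩
      | h1 c m =>
        have : c = Shape.σ k ≫ c0 ∨ c = Shape.τ k ≫ c0 := by
          obtain ⟨e, rfl⟩ := cell_globe_lt h c
          rcases (cell_globe_le c0).eq_or_lt with rfl | h'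
          · rw [cell_globe_top c0, Category.comp_id, Category.comp_id]
            cases e
            · exact Or.inl rfl
            · exact Or.inr rfl
          · obtain ⟨e', rfl⟩ := cell_globe_lt h' c0
            rw [σ_eq, τ_eq, faceMap_comp, faceMap_comp]
            cases e
            · exact Or.inl rfl
            · exact Or.inr rfl
        rcases this with rfl | rfl
        · exact ⟨0, m, by simp⟩
        · refine ⟨m • ncell c0, m, ?_⟩
          rw [map_zsmul, dN_ncell, ← smul_add, sub_add_cancel]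
      | h2 x y hx hy =>
        obtain ⟨a, m, rfl⟩ := hx
        obtain ⟨b, m', rfl⟩ := hy
        exact ⟨a + b, m + m', by rw [map_add, add_smul]; abel⟩
    obtain ⟨y, m, rfl⟩ := this z
    rw [map_add, map_zsmul, dM_ncell, dM_dN, zero_add] at hz
    exact ⟨y, by rw [cellBd_ne_zero _ _ _ hz, zero_smul, add_zero]⟩
  · have : ∀ z : (NΓ.{u} k).obj (Shape.globe k), ∃ m : ℤ, z = m • ncell (𝟙 _) := by
      intro z
      induction z using n_induction with
      | h0 => exact ⟨0, by simp⟩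
      | h1 c m => exact ⟨m, by rw [cell_globe_top c]⟩
      | h2 x y hx hy =>
        obtain ⟨m, rfl⟩ := hx
        obtain ⟨m', rfl⟩ := hy
        exact ⟨m + m', (add_smul _ _ _).symm⟩
    obtain ⟨m, rfl⟩ := this z
    rw [map_zsmul, dM_ncell] at hz
    exact ⟨0, by rw [cellBd_ne_zero _ _ _ hz, zero_smul, map_zero]⟩
  · refine ⟨0, (map_zero _).trans ?_⟩
    clear hz
    induction z using n_induction with
    | h0 => rfl
    | h1 c m => exact absurd (cell_globe_le c) (by omega)
    | h2 x y hx hy => rw [← hx, ← hy, add_zero]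

theorem faceMap_comp_injective {k b h : ℕ} (hh : b < h) (e : Bool) :
    Function.Injective (fun c : Cell k (Shape.globe b) => c ≫ Shape.faceMap hh e) := by
  intro c c' H
  rcases (cell_globe_le c).eq_or_lt with rfl | h'
  · rw [cell_globe_top c, cell_globe_top c']
  · obtain ⟨e1, rfl⟩ := cell_globe_lt h' c
    obtain ⟨e2, rfl⟩ := cell_globe_lt h' c'
    dsimp only at H
    rw [faceMap_comp, faceMap_comp] at H
    rw [faceMap_injective _ H]

theorem MΓ_face_injective (k : ℕ) {b h : ℕ} (hh : b < h) (e : Bool) :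
    Function.Injective ((MΓ.{u} k).map (Shape.faceMap hh e)).hom := by
  cases k with
  | zero => exact Function.injective_id
  | succ k =>
    exact Finsupp.mapDomain_injective fun c c' H =>
      ULift.ext _ _ (faceMap_comp_injective hh e (congrArg ULift.down H))

theorem respectsGlue_MΓ (k : ℕ) : RespectsGlue (MΓ.{u} k) := by
  cases k with
  | zero => exact fun S b h hb hh => IsPushout.of_id_fst
  | succ k => exact respectsGlue_NΓ k

theorem dM_zero_surjective (S : Shape) : Function.Surjective ((dM.{u} 0).app S).hom := by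
  intro (z : PUnit →₀ ℤ)
  obtain ⟨c⟩ := cell_zero_nonempty S
  refine ⟨z PUnit.unit • ncell c, ?_⟩
  rw [map_zsmul, dM_ncell]
  change _ • Finsupp.single PUnit.unit (1 : ℤ) = z
  ext
  simp

/-- The augmented cellular chain complex of a shape is exact. -/
theorem n_exact (S : Shape) (k : ℕ) (z : (NΓ.{u} k).obj S)
    (hz : ((dM k).app _).hom z = 0) : ∃ y, ((dN k).app _).hom y = z := by
  induction S using shape_induction with
  | hg n => exact n_exact_globe k n z hz
  | hs S b h hb hh ih =>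
    refine mayer_vietoris (respectsGlue_NΓ k S b h hb hh) (respectsGlue_MΓ k S b h hb hh)
      ((dN k).naturality _) ((dN k).naturality _) ((dM k).naturality _)
      ((dM k).naturality _) ((dM k).naturality _) ((dM k).naturality _) ih (n_exact_globe k h)
      (fun x a' H => ?_) z hz
    cases k with
    | zero => exact dM_zero_surjective _ x
    | succ k =>
      refine n_exact_globe k b x (MΓ_face_injective k hh false ?_)
      refine (ab_congr ((dM k).naturality (Shape.faceMap hh false)) x).symm.trans ?_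
      rw [map_zero]
      exact (congrArg ((dM k).app _).hom H).trans (dM_dN k _ a')

/-! ### Extension to the operations -/

theorem exists_extn_step (T : C.Tower) (k : ℕ) (e' : Extn C (MΓ.{u} k))
    (hc : ∀ g : GenAt T k, ∃ t : (NΓ.{u} k).obj g.shape,
      ((dM k).app _).hom t = (e'.map g.op).hom (cellBd k (𝟙 _))) :
    ∃ e : Extn C (NΓ.{u} k), ∀ {S U : Shape} (φ : C.arr S U),
      e.map φ ≫ (dM k).app U = (dM k).app S ≫ e'.map φ := by
  have cell : ∀ {S U V : Shape} (f : S ⟶ U) (φ : C.arr U V)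
      (Φ : (NΓ.{u} k).obj U ⟶ (NΓ k).obj V), ((NΓ k).map f ≫ Φ) ≫ (dM k).app V =
        (dM k).app S ≫ e'.map (C.seq (C.ofShape f) φ) → ∀ c : Cell k S,
        (Φ ≫ (dM k).app V).hom (ncell (c ≫ f)) =
          ((dM k).app U ≫ e'.map φ).hom (ncell (c ≫ f)) := by
    intro S U V f φ Φ H c
    rw [e'.map_seq, e'.map_ofShape, ← (dM k).naturality_assoc, Category.assoc] at H
    rw [← NΓ_map_ncell]
    exact ab_congr H _
  obtain ⟨e, he, -⟩ := exists_extn (Γ := NΓ.{u} k) T (respectsGlue_NΓ k)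
    (R := fun {S U} φ Φ => Φ ≫ (dM k).app U = (dM k).app S ≫ e'.map φ)
    ⟨fun f => by rw [e'.map_ofShape]; exact (dM k).naturality f,
      fun h1 h2 => by rw [Category.assoc, h2, ← Category.assoc, h1, e'.map_seq, Category.assoc],
      fun S b h hb hh U φ Φ h1 h2 => n_hom_ext fun c => by
        rcases cell_glue_cases c with ⟨c', rfl⟩ | ⟨c', rfl⟩
        · exact cell _ _ _ h1 c'
        · exact cell _ _ _ h2 c'⟩ (fun _ _ _ => True)
    (fun n g F G h1 h2 hp => by
      obtain ⟨t, ht⟩ : ∃ t : (NΓ.{u} k).obj g.shape, k = n + 1 → ∀ c : Cell k (Shape.globe (n + 1)),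
          ((dM k).app _).hom t = (e'.map g.op).hom (cellBd k c) := by
        by_cases hk : k = n + 1
        · subst hk
          obtain ⟨t, ht⟩ := hc g
          exact ⟨t, fun _ c => by rw [cell_globe_top c, ht]⟩
        · exact ⟨0, fun h => absurd h hk⟩
      obtain ⟨H, H1, H2, H3⟩ := exists_nfill F G hp t
      refine ⟨H, H1, H2, n_hom_ext fun c => ?_, trivial⟩
      rcases cell_succ_cases c with hk | ⟨c', rfl⟩ | ⟨c', rfl⟩
      · rw [ab_comp_apply, ab_comp_apply, H3 hk, ht hk c, dM_ncell]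
      · exact cell _ _ _ (H1.symm ▸ h1) c'
      · exact cell _ _ _ (H2.symm ▸ h2) c')
  exact ⟨e, he⟩

/-- The trivial extension on the augmentation group. -/
def extnZero (C : GlobTheory.{u}) : Extn C (MΓ.{u} 0) where
  map _ := 𝟙 _
  map_one _ := rfl
  map_seq _ _ := (Category.id_comp _).symm
  map_ofShape _ := rfl

theorem exists_extn_chain (T : C.Tower) : ∃ e : ∀ k, Extn C (MΓ.{u} k), e 0 = extnZero C ∧
    ∀ k {S U : Shape} (φ : C.arr S U),
      (e (k + 1)).map φ ≫ (dM k).app U = (dM k).app S ≫ (e k).map φ := by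
  let Good : ∀ k, Extn C (MΓ.{u} k) → Prop := fun k e' => ∀ g : GenAt T k,
    ∃ t : (NΓ.{u} k).obj g.shape, ((dM k).app _).hom t = (e'.map g.op).hom (cellBd k (𝟙 _))
  have step : ∀ k (e' : {e // Good k e}), ∃ e : {e // Good (k + 1) e},
      ∀ {S U : Shape} (φ : C.arr S U),
        e.1.map φ ≫ (dM k).app U = (dM k).app S ≫ e'.1.map φ := by
    intro k e'
    obtain ⟨e, he⟩ := exists_extn_step T k e'.1 e'.2
    refine ⟨⟨e, fun g => n_exact _ k _ ?_⟩, he⟩
    refine (ab_congr (he g.op) _).trans ?_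
    refine (congrArg (e'.1.map g.op).hom ?_).trans (map_zero _)
    exact (congrArg ((dM k).app _).hom (dM_ncell (k + 1) _).symm).trans (dM_dN k _ _)
  choose nxt hnxt using step
  let e : ∀ k, {e // Good k e} := fun k =>
    Nat.rec ⟨extnZero C, fun g => absurd g.pos (lt_irrefl _)⟩ nxt k
  exact ⟨fun k => (e k).1, rfl, fun k => hnxt k (e k)⟩

end Crest.Agent.R248
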