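import Crest.Agent.R248.Shapes

/-!
# Row 248: elementwise interface to models of a globular theory

Elements of a model at a shape, the action of operations, spheres, trivial fibrations,
cofibrations (defined by the left lifting property), and the elementary lemmas on weak
equivalences.
-/

open CategoryTheory Limits Opposite Crest.GeometryTopology.Coherator
open Crest.GeometryTopology.Coherator.GlobTheory
open Crest.GeometryTopology.Coherator.GlobTheory.GlobModel

set_option backward.isDefEq.respectTransparency false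

noncomputable section

namespace Crest.Agent.R248

universe u v w

variable {C : GlobTheory.{u}}

/-- The elements of a model at a shape. -/
abbrev At (X : GlobModel C) (S : Shape) : Type u := X.functor.obj (op (⟨S⟩ : C.Ob))

/-- The component of a map of models at a shape. -/
def app {X Y : GlobModel C} (f : X ⟶ Y) (S : Shape) (x : At X S) : At Y S :=
  NatTrans.app (F := X.functor) (G := Y.functor) f (op (⟨S⟩ : C.Ob)) x

/-- Restriction along a map of shapes. -/
def res (X : GlobModel C) {S T : Shape} (f : S ⟶ T) (x : At X T) : At X S :=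
  X.act (C.ofShape f) x

section Basic

variable {X Y Z : GlobModel C} {R S T : Shape}

theorem act_seq (o : C.arr R S) (o' : C.arr S T) (x : At X T) :
    X.act (C.seq o o') x = X.act o (X.act o' x) :=
  types_congr_hom (X.functor.map_comp (Quiver.Hom.op (X := (⟨S⟩ : C.Ob)) (Y := (⟨T⟩ : C.Ob)) o')
    (Quiver.Hom.op (X := (⟨R⟩ : C.Ob)) (Y := (⟨S⟩ : C.Ob)) o)) x

@[simp] theorem act_one (x : At X S) : X.act (C.one S) x = x :=
  types_congr_hom (X.functor.map_id (op (⟨S⟩ : C.Ob))) x

theorem act_ofShape (f : S ⟶ T) (x : At X T) : X.act (C.ofShape f) x = res X f x := rfl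

theorem res_comp (f : R ⟶ S) (g : S ⟶ T) (x : At X T) :
    res X (f ≫ g) x = res X f (res X g x) := by
  rw [res, C.ofShape_comp, act_seq]; rfl

@[simp] theorem res_id (x : At X S) : res X (𝟙 S) x = x := by
  rw [res, C.ofShape_id, act_one]

theorem res_act (f : R ⟶ S) (o : C.arr S T) (x : At X T) :
    res X f (X.act o x) = X.act (C.seq (C.ofShape f) o) x := (act_seq _ _ _).symm

theorem app_act (f : X ⟶ Y) (o : C.arr S T) (x : At X T) :
    app f S (X.act o x) = Y.act o (app f T x) :=
  types_congr_hom (NatTrans.naturality (F := X.functor) (G := Y.functor) f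
    (Quiver.Hom.op (X := (⟨S⟩ : C.Ob)) (Y := (⟨T⟩ : C.Ob)) o)) x

theorem app_res (f : X ⟶ Y) (o : S ⟶ T) (x : At X T) :
    app f S (res X o x) = res Y o (app f T x) := app_act f _ x

@[simp] theorem app_comp (f : X ⟶ Y) (g : Y ⟶ Z) (x : At X S) :
    app (f ≫ g) S x = app g S (app f S x) := rfl

@[simp] theorem app_id (x : At X S) : app (𝟙 X) S x = x := rfl

theorem model_hom_ext {f g : X ⟶ Y} (h : ∀ S x, app f S x = app g S x) : f = g := by
  refine NatTrans.ext (F := X.functor) (G := Y.functor) ?_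
  funext S
  ext x
  exact h S.unop.shape x

theorem app_congr {f g : X ⟶ Y} (h : f = g) (S : Shape) (x : At X S) : app f S x = app g S x := by
  rw [h]

/-- A map of models from its components. -/
def homMk (φ : ∀ S, At X S → At Y S)
    (nat : ∀ S T (o : C.arr S T) (x : At X T), φ S (X.act o x) = Y.act o (φ T x)) : X ⟶ Y :=
  ({ app := fun S => TypeCat.ofHom (φ S.unop.shape)
     naturality := fun S T o => by
       ext x
       exact nat T.unop.shape S.unop.shape o.unop x } : X.functor ⟶ Y.functor)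

@[simp] theorem app_homMk (φ : ∀ S, At X S → At Y S) (nat) (x : At X S) :
    app (homMk φ nat) S x = φ S x := rfl

theorem glue_ext {b h : ℕ} {hb : b < S.last} {hh : b < h} {x y : At X (S.glue b h hb hh)}
    (h1 : res X (S.inLeft b h hb hh) x = res X (S.inLeft b h hb hh) y)
    (h2 : res X (S.inRight b h hb hh) x = res X (S.inRight b h hb hh) y) : x = y :=
  Types.ext_of_isPullback (X.sums S b h hb hh) h1 h2

theorem exists_glue {b h : ℕ} (hb : b < S.last) (hh : b < h) (x : At X S)
    (y : At X (Shape.globe h)) (w : res X (S.hinge hb) x = res X (Shape.faceMap hh false) y) :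
    ∃ z : At X (S.glue b h hb hh), res X (S.inLeft b h hb hh) z = x ∧
      res X (S.inRight b h hb hh) z = y :=
  Types.exists_of_isPullback (X.sums S b h hb hh) x y w

/-- Elements of a model at a shape are determined by their cells. -/
theorem at_ext {x y : At X S} (H : ∀ k (c : Cell k S), res X c x = res X c y) : x = y := by
  induction S using shape_induction with
  | hg n => simpa using H n (𝟙 _)
  | hs S b h hb hh ih =>
    refine glue_ext (ih fun k c => ?_) (H h (S.inRight b h hb hh))
    rw [← res_comp, ← res_comp, H]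

end Basic

/-- A model from a family of sets with an action of the operations. -/
def mkModel (F : Shape → Type u) (act : ∀ {S T : Shape}, C.arr S T → F T → F S)
    (act_one : ∀ S x, act (C.one S) x = x)
    (act_seq : ∀ {R S T : Shape} (o : C.arr R S) (o' : C.arr S T) x,
      act (C.seq o o') x = act o (act o' x))
    (ext : ∀ (S : Shape) (b h : ℕ) (hb : b < S.last) (hh : b < h) (x y : F (S.glue b h hb hh)),
      act (C.ofShape (S.inLeft b h hb hh)) x = act (C.ofShape (S.inLeft b h hb hh)) y →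
      act (C.ofShape (S.inRight b h hb hh)) x = act (C.ofShape (S.inRight b h hb hh)) y → x = y)
    (glue : ∀ (S : Shape) (b h : ℕ) (hb : b < S.last) (hh : b < h) (x : F S)
      (y : F (Shape.globe h)),
      act (C.ofShape (S.hinge hb)) x = act (C.ofShape (Shape.faceMap hh false)) y →
      ∃ z : F (S.glue b h hb hh), act (C.ofShape (S.inLeft b h hb hh)) z = x ∧
        act (C.ofShape (S.inRight b h hb hh)) z = y) : GlobModel C where
  functor :=
    { obj := fun S => F S.unop.shape
      map := fun o => TypeCat.ofHom (act (S := _) (T := _) o.unop)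
      map_id := fun S => by ext x; exact act_one _ x
      map_comp := fun o o' => by ext x; exact act_seq o'.unop o.unop x }
  sums S b h hb hh := by
    rw [Types.isPullback_iff]
    refine ⟨?_, fun x y H => ext S b h hb hh x y H.1 H.2, glue S b h hb hh⟩
    ext x
    change act (C.ofShape (S.hinge hb)) (act (C.ofShape (S.inLeft b h hb hh)) x) =
      act (C.ofShape (Shape.faceMap hh false)) (act (C.ofShape (S.inRight b h hb hh)) x)
    rw [← act_seq, ← act_seq, ← C.ofShape_comp, ← C.ofShape_comp, hinge_inLeft]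

theorem mkModel_act (F : Shape → Type u) (act : ∀ {S T : Shape}, C.arr S T → F T → F S)
    (h1 h2 h3 h4) {S T : Shape} (o : C.arr S T) (x : F T) :
    (mkModel F act h1 h2 h3 h4).act o x = act o x := rfl

/-! ### Free models on shapes -/

section Free

variable {X Y : GlobModel C} {R S T : Shape}

theorem free_act (o : C.arr R S) (f : C.arr S T) : (freeOn C T).act o f = C.seq o f := rfl

theorem free_res (o : R ⟶ S) (f : C.arr S T) :
    res (freeOn C T) o f = C.seq (C.ofShape o) f := rfl

/-- The map out of a free model classifying an element. -/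
def yon (x : At X S) : freeOn C S ⟶ X :=
  homMk (fun _ o => X.act o x) (fun _ _ o o' => act_seq o o' x)

@[simp] theorem app_yon (x : At X S) (o : C.arr R S) : app (yon x) R o = X.act o x := rfl

theorem app_yon_one (x : At X S) : app (yon x) S (C.one S) = x := act_one x

theorem yon_app_one (f : freeOn C S ⟶ X) : yon (app f S (C.one S)) = f :=
  model_hom_ext fun T o => by
    rw [app_yon, ← app_act, free_act, C.seq_one]

theorem free_hom_ext {f g : freeOn C S ⟶ X} (h : app f S (C.one S) = app g S (C.one S)) :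
    f = g := by rw [← yon_app_one f, h, yon_app_one]

theorem yon_comp (x : At X S) (f : X ⟶ Y) : yon x ≫ f = yon (app f S x) :=
  free_hom_ext (by rw [app_comp, app_yon_one, app_yon_one])

theorem yon_injective : Function.Injective (yon : At X S → (freeOn C S ⟶ X)) := fun x y h => by
  rw [← app_yon_one x, h, app_yon_one]

/-- The map of free models induced by an operation. -/
def freeMap (o : C.arr S T) : freeOn C S ⟶ freeOn C T := yon (X := freeOn C T) o

@[simp] theorem app_freeMap (o : C.arr S T) (o' : C.arr R S) :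
    app (freeMap o) R o' = C.seq o' o := rfl

theorem freeMap_yon (o : C.arr S T) (x : At X T) : freeMap o ≫ yon x = yon (X.act o x) :=
  yon_comp _ _

theorem freeMap_comp_eq_yon (o : C.arr S T) (f : freeOn C T ⟶ X) :
    freeMap o ≫ f = yon (app f S o) := yon_comp _ _

theorem freeMap_one : freeMap (C.one S) = 𝟙 (freeOn C S) :=
  model_hom_ext fun _ o => C.seq_one o

theorem freeMap_seq (o : C.arr R S) (o' : C.arr S T) :
    freeMap (C.seq o o') = freeMap o ≫ freeMap o' := (freeMap_yon o _).symm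

theorem sourceIncl_eq (n : ℕ) : sourceIncl C n = freeMap (C.ofShape (Shape.σ n)) :=
  model_hom_ext fun _ _ => rfl

/-- Free models on shapes, as a functor on the theory. -/
noncomputable def freeFunctor (C : GlobTheory.{u}) : C.Ob ⥤ GlobModel C where
  obj S := freeOn C S.shape
  map o := freeMap o
  map_id _ := freeMap_one
  map_comp o o' := freeMap_seq o o'

theorem isPushout_free (S : Shape) (b h : ℕ) (hb : b < S.last) (hh : b < h) :
    IsPushout (freeMap (C.ofShape (S.hinge hb))) (freeMap (C.ofShape (Shape.faceMap hh false)))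
      (freeMap (C.ofShape (S.inLeft b h hb hh))) (freeMap (C.ofShape (S.inRight b h hb hh))) := by
  have w : freeMap (C.ofShape (S.hinge hb)) ≫ freeMap (C.ofShape (S.inLeft b h hb hh)) =
      freeMap (C.ofShape (Shape.faceMap hh false)) ≫
        freeMap (C.ofShape (S.inRight b h hb hh)) := by
    rw [← freeMap_seq, ← freeMap_seq, ← C.ofShape_comp, ← C.ofShape_comp, hinge_inLeft]
  have E : ∀ s : PushoutCocone (freeMap (C.ofShape (S.hinge hb)))
      (freeMap (C.ofShape (Shape.faceMap hh false))), ∃ z : At s.pt (S.glue b h hb hh),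
      res _ (S.inLeft b h hb hh) z = app s.inl S (C.one S) ∧
      res _ (S.inRight b h hb hh) z = app s.inr _ (C.one _) := by
    intro s
    refine exists_glue hb hh _ _ ?_
    have := app_congr s.condition _ (C.one _)
    rw [app_comp, app_comp, app_freeMap, app_freeMap, C.one_seq, C.one_seq] at this
    rw [← app_res, ← app_res, free_res, free_res, C.seq_one, C.seq_one, this]
  choose z hz using E
  refine ⟨⟨w⟩, ⟨PushoutCocone.IsColimit.mk _ (fun s => yon (z s)) (fun s => ?_) (fun s => ?_)
    (fun s m h1 h2 => ?_)⟩⟩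
  · rw [freeMap_yon, act_ofShape, (hz s).1, yon_app_one]
  · rw [freeMap_yon, act_ofShape, (hz s).2, yon_app_one]
  · rw [← yon_app_one m]
    congr 1
    refine glue_ext ?_ ?_
    · rw [(hz s).1, ← h1, ← app_res, app_comp, app_freeMap, free_res, C.one_seq, C.seq_one]
    · rw [(hz s).2, ← h2, ← app_res, app_comp, app_freeMap, free_res, C.one_seq, C.seq_one]

theorem respectsGlue_free (C : GlobTheory.{u}) : RespectsGlue (C.incl ⋙ freeFunctor C) :=
  isPushout_free

/-- A compatible family of cells gives an element at a shape. -/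
theorem exists_at (x : ∀ k, Cell k S → At X (Shape.globe k))
    (hx : ∀ k l (h : k < l) (e : Bool) (c : Cell l S),
      x k (Shape.faceMap h e ≫ c) = res X (Shape.faceMap h e) (x l c)) :
    ∃ z : At X S, ∀ k (c : Cell k S), res X c z = x k c := by
  obtain ⟨φ, hφ⟩ := (respectsGlue_free C).exists_desc (S := S) (d := X) (fun k c => yon (x k c))
    (fun k l h e c => by rw [hx]; exact (freeMap_yon _ _).symm)
  refine ⟨app φ S (C.one S), fun k c => yon_injective ?_⟩
  refine Eq.trans ?_ (hφ k c)
  rw [← act_ofShape, ← freeMap_yon, yon_app_one]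
  rfl

end Free

/-! ### Cells and spheres -/

section Spheres

variable {X Y Z : GlobModel C}

/-- The source of a cell. -/
noncomputable abbrev src (X : GlobModel C) {n : ℕ} (x : At X (Shape.globe (n + 1))) :
    At X (Shape.globe n) := res X (Shape.σ n) x

/-- The target of a cell. -/
noncomputable abbrev tgt (X : GlobModel C) {n : ℕ} (x : At X (Shape.globe (n + 1))) :
    At X (Shape.globe n) := res X (Shape.τ n) x

theorem cells_src (n : ℕ) (x : At X (Shape.globe (n + 1))) : X.cells.src n x = src X x := rfl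
theorem cells_tgt (n : ℕ) (x : At X (Shape.globe (n + 1))) : X.cells.tgt n x = tgt X x := rfl
theorem cellsMap_app (f : X ⟶ Y) (n : ℕ) (x : At X (Shape.globe n)) :
    (cellsMap f).app n x = app f _ x := rfl

theorem src_src {n : ℕ} (x : At X (Shape.globe (n + 2))) : src X (src X x) = src X (tgt X x) :=
  X.cells.src_src n x
theorem tgt_tgt {n : ℕ} (x : At X (Shape.globe (n + 2))) : tgt X (src X x) = tgt X (tgt X x) :=
  X.cells.tgt_tgt n x

/-- Parallel cells. -/
abbrev Par (X : GlobModel C) (n : ℕ) (a b : At X (Shape.globe n)) : Prop :=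
  X.cells.AreParallel n a b

theorem par_zero (a b : At X (Shape.globe 0)) : Par X 0 a b := trivial

theorem par_succ {n : ℕ} {a b : At X (Shape.globe (n + 1))} :
    Par X (n + 1) a b ↔ src X a = src X b ∧ tgt X a = tgt X b := Iff.rfl

theorem par_refl {n : ℕ} (a : At X (Shape.globe n)) : Par X n a a := by
  cases n with
  | zero => trivial
  | succ n => exact ⟨rfl, rfl⟩

theorem par_symm {n : ℕ} {a b : At X (Shape.globe n)} (h : Par X n a b) : Par X n b a := by
  cases n with
  | zero => trivial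
  | succ n => exact ⟨h.1.symm, h.2.symm⟩

theorem par_trans {n : ℕ} {a b c : At X (Shape.globe n)} (h : Par X n a b) (h' : Par X n b c) :
    Par X n a c := by
  cases n with
  | zero => trivial
  | succ n => exact ⟨h.1.trans h'.1, h.2.trans h'.2⟩

theorem par_src_tgt {n : ℕ} (x : At X (Shape.globe (n + 1))) : Par X n (src X x) (tgt X x) :=
  (X.cells.bdry (n + 1) x).2

theorem par_app (f : X ⟶ Y) {n : ℕ} {a b : At X (Shape.globe n)} (h : Par X n a b) :
    Par Y n (app f _ a) (app f _ b) := ((cellsMap f).sphere (n + 1) ⟨(a, b), h⟩).2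

/-- Parallel cells have the same lower faces. -/
theorem par_face {n : ℕ} {a b : At X (Shape.globe n)} (h : Par X n a b) {k : ℕ} (hk : k < n)
    (e : Bool) : res X (Shape.faceMap hk e) a = res X (Shape.faceMap hk e) b := by
  obtain ⟨n, rfl⟩ : ∃ m, n = m + 1 := ⟨n - 1, by omega⟩
  rcases Nat.lt_succ_iff_lt_or_eq.mp hk with h' | rfl
  · rw [← faceMap_comp h' (Nat.lt_succ_self n) e false, res_comp, res_comp]
    exact congrArg _ h.1
  · cases e
    · exact h.1
    · exact h.2

theorem par_of_faces {n : ℕ} {a b : At X (Shape.globe n)}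
    (h : ∀ k (hk : k < n) (e : Bool), res X (Shape.faceMap hk e) a = res X (Shape.faceMap hk e) b) :
    Par X n a b := by
  cases n with
  | zero => trivial
  | succ n => exact ⟨h n _ false, h n _ true⟩

/-- Spheres in a model. -/
abbrev Sph (X : GlobModel C) (n : ℕ) : Type u := X.cells.Sphere n

/-- The boundary sphere of a cell. -/
noncomputable abbrev bd (X : GlobModel C) (n : ℕ) (x : At X (Shape.globe n)) : Sph X n :=
  X.cells.bdry n x

/-- The image of a sphere under a map of models. -/
noncomputable abbrev sphMap (f : X ⟶ Y) (n : ℕ) (s : Sph X n) : Sph Y n :=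
  (cellsMap f).sphere n s

/-- The sphere given by a parallel pair. -/
def mkSph {n : ℕ} (a b : At X (Shape.globe n)) (h : Par X n a b) : Sph X (n + 1) := ⟨(a, b), h⟩

theorem sph_zero_eq (s t : Sph X 0) : s = t := rfl

theorem sph_ext {n : ℕ} {s t : Sph X (n + 1)} (h1 : s.1.1 = t.1.1) (h2 : s.1.2 = t.1.2) : s = t :=
  Subtype.ext (Prod.ext h1 h2)

theorem bd_eq_iff {n : ℕ} {x : At X (Shape.globe (n + 1))} {s : Sph X (n + 1)} :
    bd X (n + 1) x = s ↔ src X x = s.1.1 ∧ tgt X x = s.1.2 :=
  ⟨fun h => h ▸ ⟨rfl, rfl⟩, fun h => sph_ext h.1 h.2⟩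

theorem sphMap_fst (f : X ⟶ Y) {n : ℕ} (s : Sph X (n + 1)) :
    (sphMap f (n + 1) s).1.1 = app f (Shape.globe n) s.1.1 := rfl
theorem sphMap_snd (f : X ⟶ Y) {n : ℕ} (s : Sph X (n + 1)) :
    (sphMap f (n + 1) s).1.2 = app f (Shape.globe n) s.1.2 := rfl

theorem bd_eq_bd_iff {n : ℕ} {x y : At X (Shape.globe n)} : bd X n x = bd X n y ↔ Par X n x y := by
  cases n with
  | zero => exact ⟨fun _ => trivial, fun _ => rfl⟩
  | succ n => exact bd_eq_iff

theorem bd_app (f : X ⟶ Y) (n : ℕ) (x : At X (Shape.globe n)) :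
    bd Y n (app f _ x) = sphMap f n (bd X n x) := by
  cases n with
  | zero => rfl
  | succ n => exact sph_ext (app_res f _ x).symm (app_res f _ x).symm

theorem sphMap_comp (f : X ⟶ Y) (g : Y ⟶ Z) (n : ℕ) (s : Sph X n) :
    sphMap (f ≫ g) n s = sphMap g n (sphMap f n s) := by
  cases n <;> rfl

theorem sphMap_id (n : ℕ) (s : Sph X n) : sphMap (𝟙 X) n s = s := by
  cases n <;> rfl

/-- Every sphere of dimension `n` bounds a cell. -/
def Fills (X : GlobModel C) (n : ℕ) : Prop := ∀ s : Sph X n, ∃ x, bd X n x = s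

/-- A contractible model: every sphere bounds a cell. -/
def Contr (X : GlobModel C) : Prop := ∀ n, Fills X n

theorem fills_zero_iff : Fills X 0 ↔ Nonempty (At X (Shape.globe 0)) :=
  ⟨fun h => ⟨(h PUnit.unit).choose⟩, fun ⟨x⟩ _ => ⟨x, rfl⟩⟩

theorem fills_succ_iff {n : ℕ} : Fills X (n + 1) ↔ ∀ a b : At X (Shape.globe n), Par X n a b →
    ∃ z : At X (Shape.globe (n + 1)), src X z = a ∧ tgt X z = b :=
  ⟨fun H a b h => (H (mkSph a b h)).imp fun _ hz => bd_eq_iff.mp hz,
    fun H s => (H s.1.1 s.1.2 s.2).imp fun _ hz => bd_eq_iff.mpr hz⟩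

theorem Fills.fill {n : ℕ} (H : Fills X (n + 1)) (a b : At X (Shape.globe n)) (h : Par X n a b) :
    ∃ z : At X (Shape.globe (n + 1)), src X z = a ∧ tgt X z = b := fills_succ_iff.mp H a b h

end Spheres

/-! ### Trivial fibrations and cofibrations -/

/-- Trivial fibrations: cells lift with prescribed boundary. -/
def TFib : MorphismProperty (GlobModel C) := fun E B p =>
  ∀ (n : ℕ) (s : Sph E n) (b : At B (Shape.globe n)), bd B n b = sphMap p n s →
    ∃ e, bd E n e = s ∧ app p _ e = b

/-- Cofibrations: the left lifting property with respect to trivial fibrations. -/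
def Cof : MorphismProperty (GlobModel C) := (TFib (C := C)).llp

/-- Cofibrant models: maps out of them lift along trivial fibrations. -/
def Cofibrant (X : GlobModel C) : Prop :=
  ∀ ⦃E B : GlobModel C⦄ (p : E ⟶ B), TFib p → ∀ x : X ⟶ B, ∃ l : X ⟶ E, l ≫ p = x

section Cof

variable {A B E X Y Z : GlobModel C}

theorem TFib.mk' {p : E ⟶ B} (h0 : ∀ b : At B (Shape.globe 0), ∃ e, app p _ e = b)
    (h1 : ∀ n (a a' : At E (Shape.globe n)), Par E n a a' → ∀ z : At B (Shape.globe (n + 1)),
      src B z = app p _ a → tgt B z = app p _ a' →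
        ∃ e, src E e = a ∧ tgt E e = a' ∧ app p _ e = z) : TFib p := by
  intro n s b hb
  cases n with
  | zero => exact (h0 b).imp fun e he => ⟨rfl, he⟩
  | succ n =>
    obtain ⟨e, he⟩ := h1 n s.1.1 s.1.2 s.2 b (bd_eq_iff.mp hb).1 (bd_eq_iff.mp hb).2
    exact ⟨e, bd_eq_iff.mpr ⟨he.1, he.2.1⟩, he.2.2⟩

theorem TFib.lift_zero {p : E ⟶ B} (hp : TFib p) (b : At B (Shape.globe 0)) :
    ∃ e, app p _ e = b := (hp 0 PUnit.unit b rfl).imp fun _ he => he.2

theorem TFib.lift_succ {p : E ⟶ B} (hp : TFib p) {n : ℕ} {a a' : At E (Shape.globe n)}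
    (h : Par E n a a') (z : At B (Shape.globe (n + 1))) (hs : src B z = app p _ a)
    (ht : tgt B z = app p _ a') : ∃ e, src E e = a ∧ tgt E e = a' ∧ app p _ e = z := by
  obtain ⟨e, he, he'⟩ := hp (n + 1) (mkSph a a' h) z (bd_eq_iff.mpr ⟨hs, ht⟩)
  exact ⟨e, (bd_eq_iff.mp he).1, (bd_eq_iff.mp he).2, he'⟩

theorem cof_iff {j : A ⟶ X} : Cof j ↔ ∀ ⦃E B : GlobModel C⦄ (p : E ⟶ B), TFib p →
    ∀ (g : A ⟶ E) (x : X ⟶ B), g ≫ p = j ≫ x → ∃ l : X ⟶ E, j ≫ l = g ∧ l ≫ p = x := by
  constructor
  · intro H E B p hp g x w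
    have := H p hp
    have sq : CommSq g j p x := ⟨w⟩
    exact ⟨sq.lift, sq.fac_left, sq.fac_right⟩
  · intro H E B p hp
    refine ⟨fun {g x} sq => ?_⟩
    obtain ⟨l, h1, h2⟩ := H p hp g x sq.w
    exact ⟨⟨⟨l, h1, h2⟩⟩⟩

theorem Cof.lift {j : A ⟶ X} (hj : Cof j) {p : E ⟶ B} (hp : TFib p) (g : A ⟶ E) (x : X ⟶ B)
    (w : g ≫ p = j ≫ x) : ∃ l : X ⟶ E, j ≫ l = g ∧ l ≫ p = x := cof_iff.mp hj p hp g x w

theorem Cof.comp {j : A ⟶ X} {k : X ⟶ Y} (hj : Cof j) (hk : Cof k) : Cof (j ≫ k) :=
  (TFib (C := C)).llp.comp_mem _ _ hj hk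

theorem Cof.id (X : GlobModel C) : Cof (𝟙 X) := (TFib (C := C)).llp.id_mem X

theorem Cof.of_isIso (j : A ⟶ X) [IsIso j] : Cof j := (TFib (C := C)).llp.of_isIso j

/-- Cofibrations are stable under pushout. -/
theorem Cof.of_isPushout {P : GlobModel C} {f : B ⟶ A} {g : B ⟶ X} {i : A ⟶ P} {j : X ⟶ P}
    (sq : IsPushout f g i j) (hg : Cof g) : Cof i :=
  (TFib (C := C)).llp.of_isPushout sq hg

theorem Cofibrant.of_cof {j : A ⟶ X} (hA : Cofibrant A) (hj : Cof j) : Cofibrant X := by
  intro E B p hp x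
  obtain ⟨g, hg⟩ := hA p hp (j ≫ x)
  obtain ⟨l, -, hl⟩ := hj.lift hp g x hg
  exact ⟨l, hl⟩

theorem cofibrant_of_isInitial (h : IsInitial A) : Cofibrant A :=
  fun E _ _ _ _ => ⟨h.to E, h.hom_ext _ _⟩

theorem Cofibrant.of_iso (e : A ≅ X) (hA : Cofibrant A) : Cofibrant X :=
  hA.of_cof (Cof.of_isIso e.hom)

theorem Fills.of_retract {i : X ⟶ Y} {r : Y ⟶ X} (h : i ≫ r = 𝟙 X) {n : ℕ} (H : Fills Y n) :
    Fills X n := by
  intro s
  obtain ⟨y, hy⟩ := H (sphMap i n s)
  exact ⟨app r _ y, by rw [bd_app, hy, ← sphMap_comp, h, sphMap_id]⟩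

theorem Contr.of_iso (e : X ≅ Y) (H : Contr X) : Contr Y :=
  fun n => (H n).of_retract e.inv_hom_id

/-- The terminal model. -/
def pt (C : GlobTheory.{u}) : GlobModel C :=
  mkModel (fun _ => PUnit.{u + 1}) (fun _ x => x) (fun _ _ => rfl) (fun _ _ _ => rfl)
    (fun _ _ _ _ _ _ _ _ _ => rfl) (fun _ _ _ _ _ _ _ _ => ⟨PUnit.unit, rfl, rfl⟩)

/-- The map to the terminal model. -/
def toPt (X : GlobModel C) : X ⟶ pt C := homMk (fun _ _ => PUnit.unit) (fun _ _ _ _ => rfl)

theorem toPt_ext (f g : X ⟶ pt C) : f = g := model_hom_ext fun _ _ => rfl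

theorem Contr.tfib (H : Contr X) : TFib (toPt X) :=
  fun n s _ _ => (H n s).imp fun _ he => ⟨he, rfl⟩

/-- Maps into a contractible model extend along cofibrations. -/
theorem Cof.extend {j : A ⟶ X} (hj : Cof j) (hZ : Contr Z) (g : A ⟶ Z) :
    ∃ l : X ⟶ Z, j ≫ l = g :=
  (hj.lift hZ.tfib g (toPt X) (toPt_ext _ _)).imp fun _ h => h.1

/-- `j : X ⟶ Y` attaches the cells `z k` along the spheres `s k`. -/
structure IsAtt {ι : Type v} {dm : ι → ℕ} (j : X ⟶ Y) (s : ∀ k, Sph X (dm k))
    (z : ∀ k, At Y (Shape.globe (dm k))) : Prop where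
  bdry : ∀ k, bd Y _ (z k) = sphMap j _ (s k)
  desc : ∀ ⦃Z : GlobModel C⦄ (g : X ⟶ Z) (w : ∀ k, At Z (Shape.globe (dm k))),
    (∀ k, bd Z _ (w k) = sphMap g _ (s k)) → ∃ h : Y ⟶ Z, j ≫ h = g ∧ ∀ k, app h _ (z k) = w k
  ext : ∀ ⦃Z : GlobModel C⦄ (h h' : Y ⟶ Z), j ≫ h = j ≫ h' →
    (∀ k, app h _ (z k) = app h' _ (z k)) → h = h'

theorem IsAtt.cof {ι : Type v} {dm : ι → ℕ} {j : X ⟶ Y} {s : ∀ k, Sph X (dm k)}
    {z : ∀ k, At Y (Shape.globe (dm k))} (H : IsAtt j s z) : Cof j := by
  refine cof_iff.mpr fun E B p hp g x w => ?_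
  have : ∀ k, ∃ e, bd E _ e = sphMap g _ (s k) ∧ app p _ e = app x _ (z k) := fun k =>
    hp _ _ _ (by rw [bd_app, H.bdry, ← sphMap_comp, ← sphMap_comp, w])
  choose e he using this
  obtain ⟨l, h1, h2⟩ := H.desc g e (fun k => (he k).1)
  refine ⟨l, h1, H.ext _ _ ?_ fun k => ?_⟩
  · rw [← Category.assoc, h1, w]
  · rw [app_comp, h2, (he k).2]

theorem isAtt_of_isAttaching {j : X ⟶ Y} (H : IsAttaching j) : IsAtt j H.sphere H.newCell where
  bdry := H.newCell_bdry
  desc Z g w hw := (H.universal Z g w hw).exists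
  ext Z h h' h1 h2 := by
    refine (H.universal Z (j ≫ h') (fun k => app h' _ (H.newCell k)) fun k => ?_).unique
      ⟨h1, h2⟩ ⟨rfl, fun _ => rfl⟩
    exact (bd_app h' _ _).trans ((congrArg _ (H.newCell_bdry k)).trans (sphMap_comp _ _ _ _).symm)

theorem cofibrant_of_isCellularModel (h : X.IsCellularModel) : Cofibrant X := by
  obtain ⟨P⟩ := h
  let _ := P.linOrd; let _ := P.bot; let _ := P.succ; let _ := P.wf
  refine (cofibrant_of_isInitial P.startIsInitial).of_cof (j := P.fromStart) ?_
  exact (TFib (C := C)).llp.transfiniteCompositionsOfShape_le P.J _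
    ⟨{ toTransfiniteCompositionOfShape := P.chain
       map_mem := fun j hj => (isAtt_of_isAttaching (P.attach j hj)).cof }⟩

end Cof

end Crest.Agent.R248
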