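import Crest.Agent.R248.Pi1A

/-!
# Row 248: the fundamental groupoid of a model

The Eckmann-Hilton argument for hom-models and the van Kampen argument for pushouts of
contractible models.
-/

open CategoryTheory Limits Opposite Crest.GeometryTopology.Coherator
open Crest.GeometryTopology.Coherator.GlobTheory
open Crest.GeometryTopology.Coherator.GlobTheory.GlobModel

set_option backward.isDefEq.respectTransparency false

noncomputable section

namespace Crest.Agent.R248

universe u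

variable {C : GlobTheory.{u}}

/-- An invariant of `2`-cells between two fixed points. -/
structure IsCls2 (W : GlobModel C) (y x : At W (Shape.globe 0)) {Γ : Type u} [Group Γ]
    (cl : At W (Shape.globe 2) → Γ) : Prop where
  tri : ∀ {F : GlobModel C}, Contr F → ∀ (f : F ⟶ W) {a b c : At F (Shape.globe 2)},
    tgt F a = src F b → src F c = src F a → tgt F c = tgt F b →
    s0 (app f _ a) = y → t0 (app f _ a) = x → cl (app f _ c) = cl (app f _ a) * cl (app f _ b)
  surj : ∀ u : At W (Shape.globe 1), s0 u = y → t0 u = x → ∀ g,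
    ∃ α, src W α = u ∧ tgt W α = u ∧ cl α = g

theorem IsCls2.square {W : GlobModel C} {y x : At W (Shape.globe 0)} {Γ : Type u} [Group Γ]
    {cl : At W (Shape.globe 2) → Γ} (H : IsCls2 W y x cl) {F : GlobModel C} (hF : Contr F)
    (f : F ⟶ W) {a b a' b' : At F (Shape.globe 2)} (h1 : tgt F a = src F b)
    (h2 : tgt F a' = src F b') (h3 : src F a' = src F a) (h4 : tgt F b' = tgt F b)
    (hy : s0 (app f _ a) = y) (hx : t0 (app f _ a) = x) :
    cl (app f _ a) * cl (app f _ b) = cl (app f _ a') * cl (app f _ b') := by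
  obtain ⟨c, hc1, hc2⟩ := (hF 2).fill (src F a) (tgt F b)
    (par_trans (par_src_tgt a) (h1 ▸ par_src_tgt b))
  rw [← H.tri hF f h1 hc1 hc2 hy hx, ← H.tri hF f h2 (hc1.trans h3.symm) (hc2.trans h4.symm)
    (by rw [← hy, ← app_s0, ← app_s0, ← s0_src, h3, s0_src])
    (by rw [← hx, ← app_t0, ← app_t0, ← t0_src, h3, t0_src])]

theorem exists_isCls2 (σ : SuspData C) {W : GlobModel C} {y x : At W (Shape.globe 0)}
    {Γ : Type u} [Group Γ] {cls : At (HomM σ W y x) (Shape.globe 1) → Γ}
    (H : IsCls (HomM σ W y x) cls) : ∃ cl : At W (Shape.globe 2) → Γ, IsCls2 W y x cl := by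
  classical
  obtain ⟨cl, hcl⟩ : ∃ cl : At W (Shape.globe 2) → Γ, ∀ a, cl (hcell a) = cls a :=
    ⟨fun α => if h : s0 α = y ∧ t0 α = x then cls (homCell σ α h.1 h.2) else 1, fun a => by
      exact dif_pos (hcell_end σ a)⟩
  refine ⟨cl, fun {F} hF f {a b c} h1 h2 h3 hy hx => ?_, fun u hy hx g => ?_⟩
  · have := H.tri (contr_hom σ hF (s0 a) (t0 a))
      (homMap σ f ((app_s0 f a).trans hy) ((app_t0 f a).trans hx))
      (a := homCell σ a rfl rfl)
      (b := homCell σ b (by change s0 b = _; rw [← s0_src, ← h1, s0_tgt])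
        (by change t0 b = _; rw [← t0_src, ← h1, t0_tgt]))
      (c := homCell σ c (by change s0 c = _; rw [← s0_src, h2, s0_src])
        (by change t0 c = _; rw [← t0_src, h2, t0_src]))
      (hcell_injective σ ((hcell_tgt σ _).trans (Eq.symm ((hcell_src σ _).trans h1.symm))))
      (hcell_injective σ ((hcell_src σ _).trans (Eq.symm ((hcell_src σ _).trans h2.symm))))
      (hcell_injective σ ((hcell_tgt σ _).trans (Eq.symm ((hcell_tgt σ _).trans h3.symm))))
    rw [← hcl, ← hcl, ← hcl] at this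
    exact this
  · obtain ⟨a, h1, h2, rfl⟩ := H.surj (homCell σ u hy hx) (homCell σ u hy hx) g
    exact ⟨hcell a, (hcell_src σ a).symm.trans (congrArg hcell h1),
      (hcell_tgt σ a).symm.trans (congrArg hcell h2), hcl a⟩

/-- The Eckmann-Hilton argument. -/
theorem IsCls2.comm (hC : C.IsCoheratorTheory) {W : GlobModel C} {y x : At W (Shape.globe 0)}
    {Γ : Type u} [Group Γ] {cl : At W (Shape.globe 2) → Γ} (H : IsCls2 W y x cl)
    (h1 : Fills W 1) (g h : Γ) : g * h = h * g := by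
  -- right and left whiskering
  obtain ⟨ρ, hρ⟩ := BinOp.exists_fill hC (m := 1) (n := 0) (k := 1)
    ⟨fun a t => cmp hC (src _ a) t, fun f a t e => by
      rw [app_cmp hC f (by rw [t0_src, e]), app_src]⟩
    ⟨fun a t => cmp hC (tgt _ a) t, fun f a t e => by
      rw [app_cmp hC f (by rw [t0_tgt, e]), app_tgt]⟩
    (fun X a t e => par_one
      (by rw [s0_cmp hC (by rw [t0_src, e]), s0_cmp hC (by rw [t0_tgt, e]), s0_src, s0_tgt])
      (by rw [t0_cmp hC (by rw [t0_src, e]), t0_cmp hC (by rw [t0_tgt, e])]))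
  obtain ⟨lam, hlam⟩ := BinOp.exists_fill hC (m := 0) (n := 1) (k := 1)
    ⟨fun t a => cmp hC t (src _ a), fun f t a e => by
      rw [app_cmp hC f (by rw [s0_src, e]), app_src]⟩
    ⟨fun t a => cmp hC t (tgt _ a), fun f t a e => by
      rw [app_cmp hC f (by rw [s0_tgt, e]), app_tgt]⟩
    (fun X t a e => par_one
      (by rw [s0_cmp hC (by rw [s0_src, e]), s0_cmp hC (by rw [s0_tgt, e])])
      (by rw [t0_cmp hC (by rw [s0_src, e]), t0_cmp hC (by rw [s0_tgt, e]), t0_src, t0_tgt]))
  -- cancellation cells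
  have e1 : ∀ {X : GlobModel C} (w : At X (Shape.globe 1)), t0 w = s0 (invc hC w) :=
    fun w => (s0_invc hC w).symm
  obtain ⟨kr, hkr⟩ := BinOp.exists_fill hC (m := 0) (n := 0) (k := 1)
    ⟨fun a w => cmp hC a (cmp hC w (invc hC w)), fun f a w e => by
      rw [app_cmp hC f (by rw [s0_cmp hC (e1 w), e]), app_cmp hC f (e1 w), app_invc]⟩
    ⟨fun a _ => a, fun _ _ _ _ => rfl⟩
    (fun X a w e => par_one (s0_cmp hC (by rw [s0_cmp hC (e1 w), e]))
      (by rw [t0_cmp hC (by rw [s0_cmp hC (e1 w), e]), t0_cmp hC (e1 w), t0_invc, e]))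
  obtain ⟨kl, hkl⟩ := BinOp.exists_fill hC (m := 0) (n := 0) (k := 1)
    ⟨fun w a => cmp hC (invc hC w) (cmp hC w a), fun f w a e => by
      rw [app_cmp hC f (by rw [s0_cmp hC e, t0_invc]), app_cmp hC f e, app_invc]⟩
    ⟨fun _ a => a, fun _ _ _ _ => rfl⟩
    (fun X w a e => par_one (by rw [s0_cmp hC (by rw [s0_cmp hC e, t0_invc]), s0_invc, e])
      (by rw [t0_cmp hC (by rw [s0_cmp hC e, t0_invc]), t0_cmp hC e]))
  dsimp only at hρ hlam hkr hkl
  have s0ρ : ∀ {X : GlobModel C} (a : At X (Shape.globe 2)) (t : At X (Shape.globe 1)),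
      t0 a = s0 t → s0 (ρ.op a t) = s0 a ∧ t0 (ρ.op a t) = t0 t := fun a t e => by
    have e' : t0 (src _ a) = s0 t := by rw [t0_src, e]
    rw [← s0_src, ← t0_src, (hρ _ a t e).1, s0_cmp hC e', t0_cmp hC e', s0_src]
    exact ⟨rfl, rfl⟩
  have s0lam : ∀ {X : GlobModel C} (t : At X (Shape.globe 1)) (a : At X (Shape.globe 2)),
      t0 t = s0 a → s0 (lam.op t a) = s0 t ∧ t0 (lam.op t a) = t0 a := fun t a e => by
    have e' : t0 t = s0 (src _ a) := by rw [s0_src, e]
    rw [← s0_src, ← t0_src, (hlam _ t a e).1, s0_cmp hC e', t0_cmp hC e', t0_src]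
    exact ⟨rfl, rfl⟩
  obtain ⟨w, hw1, hw2⟩ := h1.fill x y trivial
  replace hw1 : s0 w = x := hw1
  replace hw2 : t0 w = y := hw2
  have hu1 : s0 (invc hC w) = y := by rw [s0_invc, hw2]
  have hu2 : t0 (invc hC w) = x := by rw [t0_invc, hw1]
  have f1 : ∀ α : At W (Shape.globe 2), src W α = invc hC w → tgt W α = invc hC w →
      cl (ρ.op α (cmp hC w (invc hC w))) * cl (kr.op (invc hC w) w) =
        cl (kr.op (invc hC w) w) * cl α := by
    intro α hs ht
    have hy : s0 α = y := by rw [← s0_src, hs, hu1]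
    obtain ⟨F, hF, f, A, V, e, rfl, rfl⟩ := exists_contr_pair hC α w
      (by rw [← t0_src, hs, hu2, hw1])
    have e2 : t0 A = s0 (cmp hC V (invc hC V)) := by rw [s0_cmp hC (e1 V), e]
    have es : t0 (src F A) = s0 V := by rw [t0_src, e]
    have et : t0 (tgt F A) = s0 V := by rw [t0_tgt, e]
    have := H.square hF f (a := ρ.op A (cmp hC V (invc hC V))) (b := kr.op (tgt F A) V)
      (a' := kr.op (src F A) V) (b' := A) (by rw [(hρ _ _ _ e2).2, (hkr _ _ _ et).1])
      (hkr _ _ _ es).2 (by rw [(hρ _ _ _ e2).1, (hkr _ _ _ es).1]) (hkr _ _ _ et).2.symm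
      (by rw [← app_s0, (s0ρ _ _ e2).1, app_s0, hy])
      (by rw [← app_t0, (s0ρ _ _ e2).2, t0_cmp hC (e1 V), app_t0, app_invc, hu2])
    rwa [ρ.nat _ _ _ e2, kr.nat _ _ _ et, kr.nat _ _ _ es, app_cmp hC f (e1 V), app_invc, app_src,
      app_tgt, hs, ht] at this
  have f2 : ∀ β : At W (Shape.globe 2), src W β = invc hC w → tgt W β = invc hC w →
      cl (lam.op (invc hC w) (lam.op w β)) * cl (kl.op w (invc hC w)) =
        cl (kl.op w (invc hC w)) * cl β := by
    intro β hs ht
    have hx : t0 β = x := by rw [← t0_src, hs, hu2]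
    obtain ⟨F, hF, f, V, A, e, rfl, rfl⟩ := exists_contr_pair hC w β
      (by rw [← s0_src, hs, hu1, hw2])
    have e2 : t0 (invc hC V) = s0 (lam.op V A) := by rw [(s0lam _ _ e).1, t0_invc]
    have es : t0 V = s0 (src F A) := by rw [s0_src, e]
    have et : t0 V = s0 (tgt F A) := by rw [s0_tgt, e]
    have := H.square hF f (a := lam.op (invc hC V) (lam.op V A)) (b := kl.op V (tgt F A))
      (a' := kl.op V (src F A)) (b' := A)
      (by rw [(hlam _ _ _ e2).2, (hlam _ _ _ e).2, (hkl _ _ _ et).1])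
      (hkl _ _ _ es).2 (by rw [(hlam _ _ _ e2).1, (hlam _ _ _ e).1, (hkl _ _ _ es).1])
      (hkl _ _ _ et).2.symm
      (by rw [← app_s0, (s0lam _ _ e2).1, app_s0, app_invc, hu1])
      (by rw [← app_t0, (s0lam _ _ e2).2, (s0lam _ _ e).2, app_t0, hx])
    rwa [lam.nat _ _ _ e2, lam.nat _ _ _ e, kl.nat _ _ _ et, kl.nat _ _ _ es, app_invc, app_src,
      app_tgt, hs, ht] at this
  have f3 : ∀ (α β : At W (Shape.globe 2)) (u t : At W (Shape.globe 1)), s0 u = y → t0 t = x →
      t0 u = s0 t → src W α = u → tgt W α = u → src W β = t → tgt W β = t →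
      cl (ρ.op α t) * cl (lam.op u β) = cl (lam.op u β) * cl (ρ.op α t) := by
    intro α β u t hu ht hut a1 a2 b1 b2
    obtain ⟨F, hF, f, A, B, e, rfl, rfl⟩ := exists_contr_pair hC α β
      (by rw [← t0_src, ← s0_src, a1, b1, hut])
    have x1 : t0 A = s0 (src F B) := by rw [s0_src, e]
    have x2 : t0 A = s0 (tgt F B) := by rw [s0_tgt, e]
    have x3 : t0 (src F A) = s0 B := by rw [t0_src, e]
    have x4 : t0 (tgt F A) = s0 B := by rw [t0_tgt, e]
    have := H.square hF f (a := ρ.op A (src F B)) (b := lam.op (tgt F A) B)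
      (a' := lam.op (src F A) B) (b' := ρ.op A (tgt F B))
      (by rw [(hρ _ _ _ x1).2, (hlam _ _ _ x4).1]) (by rw [(hρ _ _ _ x2).1, (hlam _ _ _ x3).2])
      (by rw [(hρ _ _ _ x1).1, (hlam _ _ _ x3).1]) (by rw [(hρ _ _ _ x2).2, (hlam _ _ _ x4).2])
      (by rw [← app_s0, (s0ρ _ _ x1).1, app_s0, ← s0_src, a1, hu])
      (by rw [← app_t0, (s0ρ _ _ x1).2, app_t0, app_src, b1, ht])
    rwa [ρ.nat _ _ _ x1, ρ.nat _ _ _ x2, lam.nat _ _ _ x3, lam.nat _ _ _ x4, app_src, app_src,
      app_tgt, app_tgt, a1, a2, b1, b2] at this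
  obtain ⟨c, hc⟩ : ∃ c, c = cl (kr.op (invc hC w) w) := ⟨_, rfl⟩
  obtain ⟨c', hc'⟩ : ∃ c, c = cl (kl.op w (invc hC w)) := ⟨_, rfl⟩
  obtain ⟨α, a1, a2, ha⟩ := H.surj _ hu1 hu2 (c⁻¹ * g * c)
  obtain ⟨β, b1, b2, hb⟩ := H.surj _ hu1 hu2 (c'⁻¹ * h * c')
  have e : t0 w = s0 β := by rw [← s0_src, b1, s0_invc]
  have g1 := f1 α a1 a2
  have g2 := f2 β b1 b2
  have g3 := f3 α (lam.op w β) _ (cmp hC w (invc hC w)) hu1 (by rw [t0_cmp hC (e1 w), hu2])
    (by rw [s0_cmp hC (e1 w), t0_invc]) a1 a2 (by rw [(hlam _ _ _ e).1, b1])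
    (by rw [(hlam _ _ _ e).2, b2])
  rw [← hc, ha, ← mul_assoc, ← mul_assoc, mul_inv_cancel, one_mul, mul_left_inj] at g1
  rw [← hc', hb, ← mul_assoc, ← mul_assoc, mul_inv_cancel, one_mul, mul_left_inj] at g2
  rwa [g1, g2] at g3

/-- In a hom-model of a simply connected model, homotopy classes of parallel `1`-cells are
separated by an additive invariant with values in an abelian group. -/
theorem exists_cls_hom (hC : C.IsCoheratorTheory) (σ : SuspData C) (W : GlobModel C)
    (h1 : Fills W 1) (h2 : Fills W 2) (y x : At W (Shape.globe 0)) :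
    ∃ (Γ : Type u) (_ : AddCommGroup Γ) (cls : At (HomM σ W y x) (Shape.globe 1) → Γ),
      (∀ (S : Shape) (z : At (HomM σ W y x) S) (w w' w'' : C.arr (Shape.globe 1) S),
        C.seq (C.ofShape (Shape.τ 0)) w = C.seq (C.ofShape (Shape.σ 0)) w' →
        C.seq (C.ofShape (Shape.σ 0)) w'' = C.seq (C.ofShape (Shape.σ 0)) w →
        C.seq (C.ofShape (Shape.τ 0)) w'' = C.seq (C.ofShape (Shape.τ 0)) w' →
        cls ((HomM σ W y x).act w'' z) =
          cls ((HomM σ W y x).act w z) + cls ((HomM σ W y x).act w' z)) ∧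
      ∀ a b, Par (HomM σ W y x) 1 a b → cls a = cls b → Htp (HomM σ W y x) 1 a b := by
  obtain ⟨Γ, _, cls, H⟩ := exists_isCls hC (fills_hom σ h1 y x) (fills_hom σ h2 y x)
  obtain ⟨cl, H2⟩ := exists_isCls2 σ H
  let _ : CommGroup Γ := { mul_comm := H2.comm hC h1 }
  exact ⟨Additive Γ, inferInstance, fun a => Additive.ofMul (cls a),
    fun S z w w' w'' e1 e2 e3 => H.tri (contr_free hC S) (yon z) e1 e2 e3, fun a b => H.sep⟩

/-- The model of functions on vertices. -/
def coskM (T : C.Tower) (Γ : Type u) : GlobModel C :=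
  mkModel (fun S => C.arr (Shape.globe 0) S → Γ) (fun o φ v => φ (C.seq v o))
    (fun S φ => funext fun v => by rw [C.seq_one])
    (fun o o' φ => funext fun v => congrArg φ (C.seq_assoc _ _ _).symm)
    (fun S b h hb hh φ ψ h1 h2 => funext fun v => by
      obtain ⟨c, rfl⟩ := vertex_surjective T v
      rcases cell_glue_cases c with ⟨c', rfl⟩ | ⟨c', rfl⟩
      · rw [C.ofShape_comp]; exact congrFun h1 _
      · rw [C.ofShape_comp]; exact congrFun h2 _)
    (fun S b h hb hh φ ψ w => by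
      obtain ⟨F, h1, h2⟩ := cell_glue_desc (k := 0) (S := S) (hb := hb) (hh := hh)
        (fun c => φ (C.ofShape c)) (fun c => ψ (C.ofShape c)) (fun c => by
          rw [C.ofShape_comp, C.ofShape_comp]; exact congrFun w _)
      have key : ∀ c, F (vertex_surjective T (C.ofShape c)).choose = F c := fun c =>
        congrArg F (vertex_injective T (vertex_surjective T (C.ofShape c)).choose_spec)
      refine ⟨fun v => F (vertex_surjective T v).choose, funext fun v => ?_, funext fun v => ?_⟩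
      · obtain ⟨c, rfl⟩ := vertex_surjective T v
        rw [← h1, ← key, C.ofShape_comp]
      · obtain ⟨c, rfl⟩ := vertex_surjective T v
        rw [← h2, ← key, C.ofShape_comp])

/-- The map to the model of functions on vertices given by a function on points. -/
def toCosk (T : C.Tower) {Γ : Type u} {X : GlobModel C} (ψ : At X (Shape.globe 0) → Γ) :
    X ⟶ coskM T Γ :=
  homMk (fun _ x v => ψ (X.act v x)) (fun _ _ o x => funext fun v =>
    congrArg ψ (act_seq v o x).symm)

theorem exists_point_desc (T : C.Tower) {A B A' P : GlobModel C} {f : B ⟶ A}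
    {g : B ⟶ A'} {i : A ⟶ P} {j : A' ⟶ P} (sq : IsPushout f g i j) {Γ : Type u}
    (φ : At A (Shape.globe 0) → Γ) (φ' : At A' (Shape.globe 0) → Γ)
    (h : ∀ b, φ (app f _ b) = φ' (app g _ b)) :
    ∃ ψ : At P (Shape.globe 0) → Γ, (∀ a, ψ (app i _ a) = φ a) ∧ ∀ a, ψ (app j _ a) = φ' a := by
  have w : f ≫ toCosk T φ = g ≫ toCosk T φ' := model_hom_ext fun S x => funext fun v => by
    change φ (A.act v (app f S x)) = φ' (A'.act v (app g S x))
    rw [← app_act, ← app_act, h]
  refine ⟨fun p => app (sq.desc _ _ w) _ p (C.one _), fun a => ?_, fun a => ?_⟩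
  · exact (congrFun (app_congr (sq.inl_desc _ _ w) _ a) _).trans (congrArg φ (act_one a))
  · exact (congrFun (app_congr (sq.inr_desc _ _ w) _ a) _).trans (congrArg φ' (act_one a))

theorem vertex_glue_cases (T : C.Tower) {S : Shape} {b h : ℕ} {hb : b < S.last} {hh : b < h}
    (v : C.arr (Shape.globe 0) (S.glue b h hb hh)) :
    (∃ v', v = C.seq v' (C.ofShape (S.inLeft b h hb hh))) ∨
      ∃ v', v = C.seq v' (C.ofShape (S.inRight b h hb hh)) := by
  obtain ⟨c, rfl⟩ := vertex_surjective T v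
  rcases cell_glue_cases c with ⟨c', rfl⟩ | ⟨c', rfl⟩
  · exact Or.inl ⟨_, C.ofShape_comp _ _⟩
  · exact Or.inr ⟨_, C.ofShape_comp _ _⟩

/-- A pushout of two contractible models over a connected model is simply connected. -/
theorem fills_pushout (hC : C.IsCoheratorTheory) {A B A' P : GlobModel C} {f : B ⟶ A}
    {g : B ⟶ A'} {i : A ⟶ P} {j : A' ⟶ P} (sq : IsPushout f g i j) (hA : Contr A)
    (hA' : Contr A') (hB : Fills B 0) (hB1 : Fills B 1) : Fills P 0 ∧ Fills P 1 ∧ Fills P 2 := by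
  obtain ⟨b0⟩ := fills_zero_iff.mp hB
  have w : ∀ S b, app i S (app f S b) = app j S (app g S b) := app_congr sq.w
  have h0 : Fills P 0 := fills_zero_iff.mpr ⟨app i _ (app f _ b0)⟩
  have h1 : Fills P 1 := by
    have := IsSub.of_isPushout sq
      (Z := fun S x => ∀ v : C.arr (Shape.globe 0) S, Htp P 0 (app i _ (app f _ b0)) (P.act v x))
      ⟨fun o x hx v => by rw [← act_seq]; exact hx _, fun S b h hb hh x h1 h2 v => by
        rcases vertex_glue_cases (tower hC) v with ⟨v', rfl⟩ | ⟨v', rfl⟩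
        · rw [act_seq]; exact h1 v'
        · rw [act_seq]; exact h2 v'⟩
      (fun S a v => by rw [← app_act]; exact (hA.htp (par_zero _ _)).map i)
      (fun S a v => by rw [← app_act, w]; exact (hA'.htp (par_zero _ _)).map j)
    refine fills_succ_iff.mpr fun y z _ => ?_
    have hy := this _ y (C.one _)
    have hz := this _ z (C.one _)
    rw [act_one] at hy hz
    exact (hy.symm hC).trans hC hz
  refine ⟨h0, h1, ?_⟩
  obtain ⟨Γ, _, cls, H⟩ := exists_isCls hC h0 h1
  have side : ∀ {A : GlobModel C} (_ : Contr A) (f : B ⟶ A) (i : A ⟶ P),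
      ∃ φ : At A (Shape.globe 0) → Γ,
        (∀ u : At A (Shape.globe 1), φ (t0 u) = φ (s0 u) * cls (app i _ u)) ∧
        ∀ d : At B (Shape.globe 1), s0 d = b0 → φ (app f _ (t0 d)) = cls (app i _ (app f _ d)) := by
    intro A hA f i
    choose e h1 h2 using fun p => (hA 1).fill (app f _ b0) p trivial
    refine ⟨fun p => cls (app i _ (e p)), fun u => H.tri hA i (h2 _) ((h1 _).trans (h1 _).symm)
      (h2 _), fun d hd => H.htp ((hA.htp (par_one ((h1 _).trans ?_) ((h2 _).trans ?_))).map i)⟩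
    · rw [← hd, app_s0]
    · rw [app_t0]
  obtain ⟨φ, p1, p2⟩ := side hA f i
  obtain ⟨φ', q1, q2⟩ := side hA' g j
  obtain ⟨ψ, r1, r2⟩ := exists_point_desc (tower hC) sq φ φ' (fun b => by
    obtain ⟨d, hd, rfl⟩ := hB1.fill b0 b trivial
    exact (p2 d hd).trans ((congrArg cls (w _ d)).trans (q2 d hd).symm))
  have := IsSub.of_isPushout sq (Z := fun S x => ∀ o : C.arr (Shape.globe 1) S,
      ψ (t0 (P.act o x)) = ψ (s0 (P.act o x)) * cls (P.act o x))
    ⟨fun o x hx v => by rw [← act_seq]; exact hx _, fun S b h hb hh x h1 h2 o => ?_⟩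
    (fun S a o => by rw [← app_act, ← app_t0, ← app_s0, r1, r1, p1])
    (fun S a o => by rw [← app_act, ← app_t0, ← app_s0, r2, r2, q1])
  · refine fills_succ_iff.mpr fun u v huv => H.sep huv ?_
    have hu := this _ u (C.one _)
    have hv := this _ v (C.one _)
    rw [act_one] at hu hv
    rw [show s0 u = s0 v from huv.1, show t0 u = t0 v from huv.2, hv] at hu
    exact (mul_left_cancel hu).symm
  · obtain ⟨c⟩ := cell_zero_nonempty (Shape.globe b)
    have hF := contr_free hC (S.glue b h hb hh)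
    have side : ∀ {R : Shape} (ι : R ⟶ S.glue b h hb hh) (v0 : C.arr (Shape.globe 0) R),
        (∀ o : C.arr (Shape.globe 1) R, ψ (t0 (P.act o (res P ι x))) =
          ψ (s0 (P.act o (res P ι x))) * cls (P.act o (res P ι x))) →
        ∀ (v : C.arr (Shape.globe 0) R) (e : At (freeOn C (S.glue b h hb hh)) (Shape.globe 1)),
          s0 e = C.seq v0 (C.ofShape ι) → t0 e = C.seq v (C.ofShape ι) →
          ψ (app (yon x) _ (t0 e)) = ψ (app (yon x) _ (s0 e)) * cls (app (yon x) _ e) := by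
      intro R ι v0 hR v e e1 e2
      obtain ⟨o, o1, o2⟩ := fill_op hC v0 v trivial
      have hp : Par (freeOn C (S.glue b h hb hh)) 1 e (C.seq o (C.ofShape ι)) :=
        par_one (e1.trans (by rw [← o1, C.seq_assoc]; rfl))
          (e2.trans (by rw [← o2, C.seq_assoc]; rfl))
      have := hR o
      rw [← act_ofShape, ← act_seq] at this
      rw [H.htp ((hF.htp hp).map (yon x)), show s0 e = s0 _ from hp.1,
        show t0 e = t0 _ from hp.2, app_s0, app_t0]
      exact this
    have all : ∀ e : At (freeOn C (S.glue b h hb hh)) (Shape.globe 1),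
        s0 e = C.ofShape (c ≫ S.hinge hb ≫ S.inLeft b h hb hh) →
        ψ (app (yon x) _ (t0 e)) = ψ (app (yon x) _ (s0 e)) * cls (app (yon x) _ e) := by
      intro e he
      rcases vertex_glue_cases (tower hC) (t0 e) with ⟨v', hv⟩ | ⟨v', hv⟩
      · exact side _ (C.ofShape (c ≫ S.hinge hb)) h1 v' e
          (by rw [he, ← C.ofShape_comp, Category.assoc]) hv
      · exact side _ (C.ofShape (c ≫ Shape.faceMap hh false)) h2 v' e
          (by rw [he, ← C.ofShape_comp, Category.assoc, hinge_inLeft]) hv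
    obtain ⟨e, e1, e2⟩ := (hF 1).fill (C.ofShape (c ≫ S.hinge hb ≫ S.inLeft b h hb hh))
      (s0 (X := freeOn C _) o) trivial
    obtain ⟨e', e1', e2'⟩ := (hF 1).fill (C.ofShape (c ≫ S.hinge hb ≫ S.inLeft b h hb hh))
      (t0 (X := freeOn C _) o) trivial
    have a1 := all e e1
    have a2 := all e' e1'
    rw [H.tri hF (yon x) (a := e) (b := o) e2 (e1'.trans e1.symm) e2', ← mul_assoc,
      show s0 e' = s0 e from e1'.trans e1.symm, ← a1, show t0 e' = _ from e2',
      show t0 e = _ from e2, app_s0, app_t0] at a2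
    exact a2

end Crest.Agent.R248
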