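import Crest.Agent.R248.Susp

/-!
# Row 248: the fundamental groupoid of a model

The Eckmann-Hilton argument for hom-models and the van Kampen argument for pushouts of
contractible models.
-/

open CategoryTheory Limits Opposite Crest.GeometryTopology.Coherator
open Crest.GeometryTopology.Coherator.GlobTheory
open Crest.GeometryTopology.Coherator.GlobTheory.GlobModel

set_option backward.isDefEq.respectTransparency false

noncomputable section

namespace Crest.Agent.R248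

universe u

variable {C : GlobTheory.{u}}

section Ends

variable {X Y : GlobModel C}

/-- The source point of a cell. -/
def s0 {m : ℕ} (a : At X (Shape.globe (m + 1))) : At X (Shape.globe 0) :=
  res X (Shape.faceMap (Nat.succ_pos m) false) a

/-- The target point of a cell. -/
def t0 {m : ℕ} (a : At X (Shape.globe (m + 1))) : At X (Shape.globe 0) :=
  res X (Shape.faceMap (Nat.succ_pos m) true) a

theorem app_s0 (f : X ⟶ Y) {m : ℕ} (a : At X (Shape.globe (m + 1))) :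
    app f _ (s0 a) = s0 (app f _ a) := app_res f _ a

theorem app_t0 (f : X ⟶ Y) {m : ℕ} (a : At X (Shape.globe (m + 1))) :
    app f _ (t0 a) = t0 (app f _ a) := app_res f _ a

theorem app_src (f : X ⟶ Y) {m : ℕ} (a : At X (Shape.globe (m + 1))) :
    app f _ (src X a) = src Y (app f _ a) := app_res f _ a

theorem app_tgt (f : X ⟶ Y) {m : ℕ} (a : At X (Shape.globe (m + 1))) :
    app f _ (tgt X a) = tgt Y (app f _ a) := app_res f _ a

theorem s0_src {m : ℕ} (a : At X (Shape.globe (m + 2))) : s0 (src X a) = s0 a := by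
  rw [s0, src, ← res_comp, σ_eq, faceMap_comp]; rfl

theorem s0_tgt {m : ℕ} (a : At X (Shape.globe (m + 2))) : s0 (tgt X a) = s0 a := by
  rw [s0, tgt, ← res_comp, τ_eq, faceMap_comp]; rfl

theorem t0_src {m : ℕ} (a : At X (Shape.globe (m + 2))) : t0 (src X a) = t0 a := by
  rw [t0, src, ← res_comp, σ_eq, faceMap_comp]; rfl

theorem t0_tgt {m : ℕ} (a : At X (Shape.globe (m + 2))) : t0 (tgt X a) = t0 a := by
  rw [t0, tgt, ← res_comp, τ_eq, faceMap_comp]; rfl

theorem par_one {a b : At X (Shape.globe 1)} (h1 : s0 a = s0 b) (h2 : t0 a = t0 b) :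
    Par X 1 a b := ⟨h1, h2⟩

theorem Htp.s0_eq {a b : At X (Shape.globe 1)} (h : Htp X 1 a b) : s0 a = s0 b := h.par.1
theorem Htp.t0_eq {a b : At X (Shape.globe 1)} (h : Htp X 1 a b) : t0 a = t0 b := h.par.2

/-- Two cells joined at a point come from a free model on a shape. -/
theorem exists_free_pair {m n : ℕ} (a : At X (Shape.globe (m + 1)))
    (b : At X (Shape.globe (n + 1))) (h : t0 a = s0 b) :
    ∃ z : At X ((Shape.globe (m + 1)).glue 0 (n + 1) (Nat.succ_pos m) (Nat.succ_pos n)),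
      res X (Shape.inLeft _ _ _ _ _) z = a ∧ res X (Shape.inRight _ _ _ _ _) z = b :=
  exists_glue _ _ a b (by rw [hinge_globe]; exact h)

theorem t0_inLeft {m n : ℕ}
    (z : At X ((Shape.globe (m + 1)).glue 0 (n + 1) (Nat.succ_pos m) (Nat.succ_pos n))) :
    t0 (m := m) (res X (Shape.inLeft _ _ _ _ _) z) = s0 (res X (Shape.inRight _ _ _ _ _) z) := by
  have := hinge_inLeft (Shape.globe (m + 1)) 0 (n + 1) (Nat.succ_pos m) (Nat.succ_pos n)
  rw [hinge_globe] at this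
  rw [t0, s0, ← res_comp, ← res_comp]
  exact congrArg (fun c => res X c z) this

theorem exists_contr_pair (hC : C.IsCoheratorTheory) {m n : ℕ} (a : At X (Shape.globe (m + 1)))
    (b : At X (Shape.globe (n + 1))) (h : t0 a = s0 b) :
    ∃ (F : GlobModel C) (_ : Contr F) (f : F ⟶ X) (A : At F (Shape.globe (m + 1)))
      (B : At F (Shape.globe (n + 1))), t0 A = s0 B ∧ app f _ A = a ∧ app f _ B = b := by
  obtain ⟨z, rfl, rfl⟩ := exists_free_pair a b h
  exact ⟨_, contr_free hC _, yon z, _, _, t0_inLeft (C.one _), by rw [app_res, app_yon_one],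
    by rw [app_res, app_yon_one]⟩

theorem exists_contr_one (hC : C.IsCoheratorTheory) {S : Shape} (a : At X S) :
    ∃ (F : GlobModel C) (_ : Contr F) (f : F ⟶ X) (A : At F S), app f _ A = a :=
  ⟨_, contr_free hC _, yon a, C.one _, app_yon_one a⟩

theorem exists_contr_triple (hC : C.IsCoheratorTheory) (a b c : At X (Shape.globe 1))
    (h : t0 a = s0 b) (h' : t0 b = s0 c) :
    ∃ (F : GlobModel C) (_ : Contr F) (f : F ⟶ X) (A B D : At F (Shape.globe 1)),
      t0 A = s0 B ∧ t0 B = s0 D ∧ app f _ A = a ∧ app f _ B = b ∧ app f _ D = c := by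
  obtain ⟨z, rfl, rfl⟩ := exists_free_pair a b h
  obtain ⟨w, rfl, rfl⟩ := exists_glue (b := 0) (h := 1) (Nat.succ_pos 0) (Nat.succ_pos 0) z c
    (by rw [hinge_glue, res_comp]; exact h')
  refine ⟨_, contr_free hC _, yon w,
    res _ (Shape.inLeft _ _ _ _ _) (res _ (Shape.inLeft _ _ _ _ _) (C.one _)),
    res _ (Shape.inRight _ _ _ _ _) (res _ (Shape.inLeft _ _ _ _ _) (C.one _)),
    res _ (Shape.inRight _ _ _ _ _) (C.one _), t0_inLeft _, ?_,
    by rw [app_res, app_res, app_yon_one], by rw [app_res, app_res, app_yon_one],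
    by rw [app_res, app_yon_one]⟩
  have := hinge_inLeft ((Shape.globe 1).glue 0 1 (Nat.succ_pos 0) (Nat.succ_pos 0)) 0 1
    (Nat.succ_pos 0) (Nat.succ_pos 0)
  rw [hinge_glue, Category.assoc] at this
  rw [t0, s0, ← res_comp, ← res_comp, ← res_comp, Category.assoc]
  exact congrArg (fun c => res _ c _) this

end Ends

/-- A natural operation on pairs of cells joined at a point. -/
structure BinOp (C : GlobTheory.{u}) (m n k : ℕ) where
  op : ∀ {X : GlobModel C}, At X (Shape.globe (m + 1)) → At X (Shape.globe (n + 1)) →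
    At X (Shape.globe k)
  nat : ∀ {X Y : GlobModel C} (f : X ⟶ Y) (a : At X (Shape.globe (m + 1)))
    (b : At X (Shape.globe (n + 1))), t0 a = s0 b → app f _ (op a b) = op (app f _ a) (app f _ b)

theorem BinOp.exists_fill (hC : C.IsCoheratorTheory) {m n k : ℕ} (s t : BinOp C m n k)
    (par : ∀ (X : GlobModel C) a b, t0 a = s0 b → Par X k (s.op a b) (t.op a b)) :
    ∃ o : BinOp C m n (k + 1), ∀ (X : GlobModel C) a b, t0 a = s0 b →
      src X (o.op a b) = s.op a b ∧ tgt X (o.op a b) = t.op a b := by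
  classical
  obtain ⟨o, h1, h2⟩ := (contr_free hC _ (k + 1)).fill _ _ (par _ _ _ (t0_inLeft (m := m) (n := n)
    (X := freeOn C _) (C.one _)))
  choose pr hpr using fun (X : GlobModel C) (a : At X (Shape.globe (m + 1)))
    (b : At X (Shape.globe (n + 1))) => exists_free_pair a b
  obtain ⟨r, -⟩ := exists_retraction hC (Nat.succ_pos k)
  refine ⟨⟨fun {X} a b => if h : t0 a = s0 b then app (yon (pr X a b h)) _ o else X.act r (s0 a),
    fun {X Y} f a b h => ?_⟩, fun X a b h => ?_⟩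
  · have h' : t0 (app f _ a) = s0 (app f _ b) := by rw [← app_t0, ← app_s0, h]
    rw [dif_pos h, dif_pos h', ← app_comp, yon_comp]
    congr 2
    exact glue_ext (by rw [← app_res, (hpr X a b h).1, (hpr Y _ _ h').1])
      (by rw [← app_res, (hpr X a b h).2, (hpr Y _ _ h').2])
  · dsimp only
    rw [dif_pos h, ← app_src, ← app_tgt, h1, h2, s.nat _ _ _ (t0_inLeft _),
      t.nat _ _ _ (t0_inLeft _), app_res, app_res, app_yon_one, (hpr X a b h).1, (hpr X a b h).2]
    exact ⟨rfl, rfl⟩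

theorem exists_cmp (hC : C.IsCoheratorTheory) : ∃ o : BinOp C 0 0 1,
    ∀ (X : GlobModel C) (a b : At X (Shape.globe 1)), t0 a = s0 b →
      s0 (o.op a b) = s0 a ∧ t0 (o.op a b) = t0 b :=
  BinOp.exists_fill hC ⟨fun a _ => s0 a, fun f a _ _ => app_s0 f a⟩
    ⟨fun _ b => t0 b, fun f _ b _ => app_t0 f b⟩ (fun _ _ _ _ => trivial)

section Cmp

variable (hC : C.IsCoheratorTheory) {X Y : GlobModel C}

/-- A chosen composition of `1`-cells. -/
def cmp (a b : At X (Shape.globe 1)) : At X (Shape.globe 1) := (exists_cmp hC).choose.op a b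

theorem s0_cmp {a b : At X (Shape.globe 1)} (h : t0 a = s0 b) : s0 (cmp hC a b) = s0 a :=
  ((exists_cmp hC).choose_spec X a b h).1

theorem t0_cmp {a b : At X (Shape.globe 1)} (h : t0 a = s0 b) : t0 (cmp hC a b) = t0 b :=
  ((exists_cmp hC).choose_spec X a b h).2

theorem app_cmp (f : X ⟶ Y) {a b : At X (Shape.globe 1)} (h : t0 a = s0 b) :
    app f _ (cmp hC a b) = cmp hC (app f _ a) (app f _ b) := (exists_cmp hC).choose.nat f a b h

theorem cmp_htp {a a' b b' : At X (Shape.globe 1)} (h : t0 a = s0 b) (ha : Htp X 1 a a')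
    (hb : Htp X 1 b b') : Htp X 1 (cmp hC a b) (cmp hC a' b') := by
  obtain ⟨α, rfl, rfl⟩ := ha
  obtain ⟨β, rfl, rfl⟩ := hb
  rw [t0_src, s0_src] at h
  obtain ⟨F, hF, f, A, B, e, rfl, rfl⟩ := exists_contr_pair hC α β h
  have h1 : t0 (src F A) = s0 (src F B) := by rw [t0_src, s0_src, e]
  have h2 : t0 (tgt F A) = s0 (tgt F B) := by rw [t0_tgt, s0_tgt, e]
  rw [← app_src, ← app_src, ← app_tgt, ← app_tgt, ← app_cmp hC f h1, ← app_cmp hC f h2]
  exact (hF.htp (par_one (by rw [s0_cmp hC h1, s0_cmp hC h2, s0_src, s0_tgt])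
    (by rw [t0_cmp hC h1, t0_cmp hC h2, t0_src, t0_tgt]))).map f

theorem cmp_contr {F : GlobModel C} (hF : Contr F) (f : F ⟶ X) {a b c : At F (Shape.globe 1)}
    (h : t0 a = s0 b) (h1 : s0 c = s0 a) (h2 : t0 c = t0 b) :
    Htp X 1 (cmp hC (app f _ a) (app f _ b)) (app f _ c) := by
  rw [← app_cmp hC f h]
  exact (hF.htp (par_one (by rw [s0_cmp hC h, h1]) (by rw [t0_cmp hC h, h2]))).map f

theorem cmp_assoc {a b c : At X (Shape.globe 1)} (h : t0 a = s0 b) (h' : t0 b = s0 c) :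
    Htp X 1 (cmp hC (cmp hC a b) c) (cmp hC a (cmp hC b c)) := by
  obtain ⟨F, hF, f, A, B, D, e, e', rfl, rfl, rfl⟩ := exists_contr_triple hC a b c h h'
  have h1 : t0 A = s0 (cmp hC B D) := by rw [s0_cmp hC e', e]
  rw [← app_cmp hC f e, ← app_cmp hC f e', ← app_cmp hC f h1]
  exact cmp_contr hC hF f (by rw [t0_cmp hC e, e']) (by rw [s0_cmp hC h1, s0_cmp hC e])
    (by rw [t0_cmp hC h1, t0_cmp hC e'])

/-- A chosen unit `1`-cell. -/
def idc (y : At X (Shape.globe 0)) : At X (Shape.globe 1) :=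
  X.unitCell (exists_unitChoice hC).some 0 y

theorem s0_idc (y : At X (Shape.globe 0)) : s0 (idc hC y) = y := src_unitCell _ _ _ _
theorem t0_idc (y : At X (Shape.globe 0)) : t0 (idc hC y) = y := tgt_unitCell _ _ _ _
theorem app_idc (f : X ⟶ Y) (y : At X (Shape.globe 0)) :
    app f _ (idc hC y) = idc hC (app f _ y) := app_unitCell _ _ _ _

include hC in
theorem exists_invOp : ∃ o : C.arr (Shape.globe 1) (Shape.globe 1),
    C.seq (C.ofShape (Shape.σ 0)) o = C.ofShape (Shape.τ 0) ∧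
      C.seq (C.ofShape (Shape.τ 0)) o = C.ofShape (Shape.σ 0) := fill_op hC _ _ trivial

/-- A chosen inverse `1`-cell. -/
def invc (a : At X (Shape.globe 1)) : At X (Shape.globe 1) := X.act (exists_invOp hC).choose a

theorem s0_invc (a : At X (Shape.globe 1)) : s0 (invc hC a) = t0 a :=
  (res_act _ _ _).trans (congrArg (X.act · a) (exists_invOp hC).choose_spec.1)

theorem t0_invc (a : At X (Shape.globe 1)) : t0 (invc hC a) = s0 a :=
  (res_act _ _ _).trans (congrArg (X.act · a) (exists_invOp hC).choose_spec.2)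

theorem app_invc (f : X ⟶ Y) (a : At X (Shape.globe 1)) :
    app f _ (invc hC a) = invc hC (app f _ a) := app_act _ _ _

theorem idc_cmp (a : At X (Shape.globe 1)) : Htp X 1 (cmp hC (idc hC (s0 a)) a) a := by
  obtain ⟨F, hF, f, A, rfl⟩ := exists_contr_one hC a
  rw [← app_s0, ← app_idc]
  exact cmp_contr hC hF f (t0_idc hC _) (s0_idc hC _).symm rfl

theorem cmp_idc (a : At X (Shape.globe 1)) : Htp X 1 (cmp hC a (idc hC (t0 a))) a := by
  obtain ⟨F, hF, f, A, rfl⟩ := exists_contr_one hC a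
  rw [← app_t0, ← app_idc]
  exact cmp_contr hC hF f (s0_idc hC _).symm rfl (t0_idc hC _).symm

theorem cmp_invc (a : At X (Shape.globe 1)) : Htp X 1 (cmp hC a (invc hC a)) (idc hC (s0 a)) := by
  obtain ⟨F, hF, f, A, rfl⟩ := exists_contr_one hC a
  rw [← app_s0, ← app_idc, ← app_invc]
  exact cmp_contr hC hF f (s0_invc hC _).symm (s0_idc hC _) (by rw [t0_idc, t0_invc])

theorem invc_cmp (a : At X (Shape.globe 1)) : Htp X 1 (cmp hC (invc hC a) a) (idc hC (t0 a)) := by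
  obtain ⟨F, hF, f, A, rfl⟩ := exists_contr_one hC a
  rw [← app_t0, ← app_idc, ← app_invc]
  exact cmp_contr hC hF f (t0_invc hC _) (by rw [s0_idc, s0_invc]) (t0_idc hC _)

theorem invc_htp {a b : At X (Shape.globe 1)} (h : Htp X 1 a b) :
    Htp X 1 (invc hC a) (invc hC b) := by
  obtain ⟨α, rfl, rfl⟩ := h
  obtain ⟨F, hF, f, A, rfl⟩ := exists_contr_one hC α
  rw [← app_src, ← app_tgt, ← app_invc, ← app_invc]
  exact (hF.htp (par_one (by rw [s0_invc, s0_invc, t0_src, t0_tgt])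
    (by rw [t0_invc, t0_invc, s0_src, s0_tgt]))).map f

end Cmp

/-- The objects of the fundamental groupoid. -/
structure Pi1 (hC : C.IsCoheratorTheory) (X : GlobModel C) : Type u where
  pt : At X (Shape.globe 0)

namespace Pi1

variable {hC : C.IsCoheratorTheory} {X : GlobModel C}

/-- Homotopy of paths. -/
def setoid (a b : Pi1 hC X) : Setoid {u : At X (Shape.globe 1) // s0 u = a.pt ∧ t0 u = b.pt} where
  r u v := Htp X 1 u.1 v.1
  iseqv := ⟨fun u => Htp.refl hC u.1, Htp.symm hC, Htp.trans hC⟩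

instance : Groupoid (Pi1 hC X) where
  Hom a b := Quotient (setoid a b)
  id a := Quotient.mk _ ⟨idc hC a.pt, s0_idc hC _, t0_idc hC _⟩
  comp := Quotient.map₂ (fun u v => ⟨cmp hC u.1 v.1,
      (s0_cmp hC (u.2.2.trans v.2.1.symm)).trans u.2.1,
      (t0_cmp hC (u.2.2.trans v.2.1.symm)).trans v.2.2⟩)
    (fun u _ h v _ h' => cmp_htp hC (u.2.2.trans v.2.1.symm) h h')
  id_comp := by
    rintro a b ⟨u, h, h'⟩
    exact Quotient.sound (show Htp X 1 (cmp hC (idc hC a.pt) u) u from h ▸ idc_cmp hC u)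
  comp_id := by
    rintro a b ⟨u, h, h'⟩
    exact Quotient.sound (show Htp X 1 (cmp hC u (idc hC b.pt)) u from h' ▸ cmp_idc hC u)
  assoc := by
    rintro a b c d ⟨u⟩ ⟨v⟩ ⟨w⟩
    exact Quotient.sound (cmp_assoc hC (u.2.2.trans v.2.1.symm) (v.2.2.trans w.2.1.symm))
  inv := Quotient.map (fun u => ⟨invc hC u.1, (s0_invc hC _).trans u.2.2,
      (t0_invc hC _).trans u.2.1⟩) (fun _ _ h => invc_htp hC h)
  inv_comp := by
    rintro a b ⟨u, h, h'⟩
    exact Quotient.sound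
      (show Htp X 1 (cmp hC (invc hC u) u) (idc hC b.pt) from h' ▸ invc_cmp hC u)
  comp_inv := by
    rintro a b ⟨u, h, h'⟩
    exact Quotient.sound
      (show Htp X 1 (cmp hC u (invc hC u)) (idc hC a.pt) from h ▸ cmp_invc hC u)

/-- The class of a path. -/
def cl {a b : Pi1 hC X} (u : At X (Shape.globe 1)) (h1 : s0 u = a.pt) (h2 : t0 u = b.pt) :
    a ⟶ b := Quotient.mk (setoid a b) ⟨u, h1, h2⟩

theorem cl_eq_iff {a b : Pi1 hC X} {u v : At X (Shape.globe 1)} {h1 h2 h3 h4} :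
    (cl u h1 h2 : a ⟶ b) = cl v h3 h4 ↔ Htp X 1 u v := Quotient.eq (r := setoid a b)

theorem cl_comp {a b c : Pi1 hC X} {u v : At X (Shape.globe 1)} {h1 h2 h3 h4} (h5 h6) :
    (cl u h1 h2 : a ⟶ b) ≫ (cl v h3 h4 : b ⟶ c) = cl (cmp hC u v) h5 h6 := rfl

theorem cl_surj {a b : Pi1 hC X} (φ : a ⟶ b) : ∃ u h1 h2, cl u h1 h2 = φ := by
  obtain ⟨u, h1, h2⟩ := φ
  exact ⟨u, h1, h2, rfl⟩

end Pi1

/-- An invariant of `1`-cells with values in a group which classifies them up to homotopy. -/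
structure IsCls (X : GlobModel C) {Γ : Type u} [Group Γ] (cls : At X (Shape.globe 1) → Γ) :
    Prop where
  htp : ∀ {u v}, Htp X 1 u v → cls u = cls v
  tri : ∀ {F : GlobModel C}, Contr F → ∀ (f : F ⟶ X) {a b c : At F (Shape.globe 1)},
    t0 a = s0 b → s0 c = s0 a → t0 c = t0 b → cls (app f _ c) = cls (app f _ a) * cls (app f _ b)
  sep : ∀ {u v}, Par X 1 u v → cls u = cls v → Htp X 1 u v
  surj : ∀ y z g, ∃ u, s0 u = y ∧ t0 u = z ∧ cls u = g

theorem exists_isCls (hC : C.IsCoheratorTheory) {X : GlobModel C} (h0 : Fills X 0)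
    (h1 : Fills X 1) : ∃ (Γ : Type u) (_ : Group Γ) (cls : At X (Shape.globe 1) → Γ),
      IsCls X cls := by
  obtain ⟨y0⟩ := fills_zero_iff.mp h0
  have : ∀ b : Pi1 hC X, Nonempty ((⟨y0⟩ : Pi1 hC X) ⟶ b) := fun b => by
    obtain ⟨u, hu1, hu2⟩ := h1.fill y0 b.pt trivial
    exact ⟨Pi1.cl u hu1 hu2⟩
  have γ := fun b => (this b).some
  obtain ⟨cls, hcls⟩ : ∃ cls : At X (Shape.globe 1) → ((⟨y0⟩ : Pi1 hC X) ⟶ ⟨y0⟩),
      ∀ u (a b : Pi1 hC X) h1 h2, cls u = γ a ≫ Pi1.cl u h1 h2 ≫ inv (γ b) :=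
    ⟨fun u => γ ⟨s0 u⟩ ≫ Pi1.cl u rfl rfl ≫ inv (γ ⟨t0 u⟩), by
      rintro u ⟨a⟩ ⟨b⟩ h1 h2
      dsimp only at h1 h2
      subst h1 h2
      rfl⟩
  have htp : ∀ {u v}, Htp X 1 u v → cls u = cls v := fun {u v} h => by
    rw [hcls u ⟨_⟩ ⟨_⟩ rfl rfl, hcls v ⟨_⟩ ⟨_⟩ h.s0_eq.symm h.t0_eq.symm, Pi1.cl_eq_iff.mpr h]
  refine ⟨_, Groupoid.vertexGroup _, cls, htp, fun {F} hF f {a b c} e1 e2 e3 => ?_,
    fun {u v} h e => ?_, fun y z g => ?_⟩
  · have e : t0 (app f _ a) = s0 (app f _ b) := by rw [← app_t0, ← app_s0, e1]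
    rw [← htp (cmp_contr hC hF f e1 e2 e3), Groupoid.vertexGroup_mul,
      hcls (app f _ a) ⟨_⟩ ⟨_⟩ rfl rfl, hcls (app f _ b) ⟨_⟩ ⟨_⟩ e.symm rfl,
      hcls _ ⟨_⟩ ⟨_⟩ (s0_cmp hC e) (t0_cmp hC e), ← Pi1.cl_comp (h1 := rfl) (h2 := rfl)
        (h3 := e.symm) (h4 := rfl)]
    simp
  · rw [hcls u ⟨s0 u⟩ ⟨t0 u⟩ rfl rfl, hcls v ⟨s0 u⟩ ⟨t0 u⟩ h.1.symm h.2.symm, cancel_epi,
      cancel_mono] at e
    exact Pi1.cl_eq_iff.mp e
  · obtain ⟨u, h1, h2, hu⟩ := Pi1.cl_surj (inv (γ ⟨y⟩) ≫ g ≫ γ ⟨z⟩)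
    exact ⟨u, h1, h2, by rw [hcls u ⟨y⟩ ⟨z⟩ h1 h2, hu]; simp⟩

end Crest.Agent.R248
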