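import Mathlib
import Crest.Prelude.Def_GlobularCoherator

/-!
# Row 248: basic combinatorics of globular sum shapes

Cells of a shape, their description for globes and for gluings, and functors out of the category
of shapes that preserve the gluing squares.
-/

open CategoryTheory Limits Opposite Crest.GeometryTopology.Coherator

namespace Crest.Agent.R248

universe u v w

/-- The `k`-cells of a shape. -/
abbrev Cell (k : ℕ) (S : Shape) : Type := Shape.globe k ⟶ S

/-- The inclusion of the last globe, as a map of shapes. -/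
noncomputable def apx (S : Shape) : Cell S.last S := S.apex

theorem shape_induction {P : Shape → Prop} (hg : ∀ n, P (Shape.globe n))
    (hs : ∀ S b h hb hh, P S → P (Shape.glue S b h hb hh)) (S : Shape) : P S := by
  obtain ⟨n, p⟩ := S
  induction p with
  | single h => exact hg h
  | glue P b h hb hh ih => exact hs ⟨_, P⟩ b h hb hh ih

@[simp] theorem globe_last (n : ℕ) : (Shape.globe n).last = n := rfl
@[simp] theorem globe_dim (n : ℕ) : (Shape.globe n).dim = n := rfl
@[simp] theorem glue_last (S : Shape) (b h : ℕ) (hb : b < S.last) (hh : b < h) :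
    (S.glue b h hb hh).last = h := rfl
@[simp] theorem glue_dim (S : Shape) (b h : ℕ) (hb : b < S.last) (hh : b < h) :
    (S.glue b h hb hh).dim = max S.dim h := rfl

theorem last_le_dim (S : Shape) : S.last ≤ S.dim := by
  induction S using shape_induction with
  | hg n => simp
  | hs S b h hb hh _ => simp

theorem apx_globe (n : ℕ) : apx (Shape.globe n) = 𝟙 (Shape.globe n) := rfl

theorem apx_glue (S : Shape) (b h : ℕ) (hb : b < S.last) (hh : b < h) :
    apx (S.glue b h hb hh) = S.inRight b h hb hh := rfl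

theorem hinge_eq (S : Shape) {b : ℕ} (hb : b < S.last) :
    S.hinge hb = Shape.faceMap hb true ≫ apx S := rfl

theorem hinge_globe {b n : ℕ} (hb : b < n) :
    (Shape.globe n).hinge hb = Shape.faceMap hb true := Category.comp_id _

theorem hinge_glue (S : Shape) (b h : ℕ) (hb : b < S.last) (hh : b < h) {c : ℕ} (hc : c < h) :
    (S.glue b h hb hh).hinge hc = Shape.faceMap hc true ≫ S.inRight b h hb hh := rfl

@[reassoc]
theorem faceMap_comp {a b c : ℕ} (h : a < b) (h' : b < c) (e e' : Bool) :
    Shape.faceMap h e ≫ Shape.faceMap h' e' = Shape.faceMap (h.trans h') e :=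
  (yoneda.map_comp (GlobeObj.faceArrow h e) (GlobeObj.faceArrow h' e')).symm

theorem σ_eq (n : ℕ) : Shape.σ n = Shape.faceMap (Nat.lt_succ_self n) false := rfl
theorem τ_eq (n : ℕ) : Shape.τ n = Shape.faceMap (Nat.lt_succ_self n) true := rfl

@[reassoc]
theorem hinge_inLeft (S : Shape) (b h : ℕ) (hb : b < S.last) (hh : b < h) :
    S.hinge hb ≫ S.inLeft b h hb hh = Shape.faceMap hh false ≫ S.inRight b h hb hh :=
  pushout.condition (f := GlobPsh.globeRepFace hb true ≫ S.apex)
    (g := GlobPsh.globeRepFace hh false)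

/-- The arrow of globes underlying a cell of a globe. -/
noncomputable def cellArrow {k n : ℕ} (c : Cell k (Shape.globe n)) : GlobeObj.Arrow k n :=
  yonedaEquiv (X := GlobeObj.mk k) (F := GlobPsh.globeRep n) c

theorem cell_eq_map {k n : ℕ} (c : Cell k (Shape.globe n)) :
    c = yoneda.map (X := GlobeObj.mk k) (Y := GlobeObj.mk n) (cellArrow c) :=
  (Yoneda.fullyFaithful.map_preimage (X := GlobeObj.mk k) (Y := GlobeObj.mk n) c).symm

/-- Case analysis on a cell of a globe. -/
theorem cell_globe_cases {n : ℕ} {P : ∀ k, Cell k (Shape.globe n) → Prop}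
    (top : P n (𝟙 _)) (face : ∀ k (h : k < n) (e : Bool), P k (Shape.faceMap h e)) :
    ∀ k c, P k c := by
  intro k c
  rw [cell_eq_map c]
  generalize cellArrow c = a
  cases a with
  | refl => exact (yoneda.map_id (GlobeObj.mk n)) ▸ top
  | pole h e => exact face k h e

theorem cell_globe_le {k n : ℕ} (c : Cell k (Shape.globe n)) : k ≤ n :=
  cell_globe_cases (P := fun k _ => k ≤ n) le_rfl (fun _ h _ => h.le) k c

theorem cell_globe_top {n : ℕ} (c : Cell n (Shape.globe n)) : c = 𝟙 _ := by
  have : ∀ k (c : Cell k (Shape.globe n)), ∀ h : k = n, HEq c (𝟙 (Shape.globe n)) :=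
    cell_globe_cases (fun _ => HEq.rfl) (fun k h _ h' => absurd h' h.ne)
  exact eq_of_heq (this n c rfl)

theorem cell_globe_lt {k n : ℕ} (h : k < n) (c : Cell k (Shape.globe n)) :
    ∃ e, c = Shape.faceMap h e := by
  have : ∀ k (c : Cell k (Shape.globe n)), ∀ h : k < n, ∃ e, c = Shape.faceMap h e :=
    cell_globe_cases (fun h => absurd h (lt_irrefl _)) (fun k h e _ => ⟨e, rfl⟩)
  exact this k c h

theorem faceMap_injective {k n : ℕ} (h : k < n) : Function.Injective (Shape.faceMap h) := by
  intro e e' he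
  have := yoneda.map_injective (X := GlobeObj.mk k) (Y := GlobeObj.mk n) he
  injection this

theorem faceMap_ne {k n : ℕ} (h : k < n) : Shape.faceMap h false ≠ Shape.faceMap h true :=
  fun he => Bool.false_ne_true (faceMap_injective h he)

/-- The gluing square on `k`-cells is a pushout of sets. -/
theorem cell_isPushout (k : ℕ) (S : Shape) (b h : ℕ) (hb : b < S.last) (hh : b < h) :
    IsPushout
      (TypeCat.ofHom (fun c : Cell k (Shape.globe b) => (c ≫ S.hinge hb : Cell k S)))
      (TypeCat.ofHom (fun c : Cell k (Shape.globe b) =>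
        (c ≫ Shape.faceMap hh false : Cell k (Shape.globe h))))
      (TypeCat.ofHom (fun c : Cell k S => (c ≫ S.inLeft b h hb hh : Cell k (S.glue b h hb hh))))
      (TypeCat.ofHom (fun c : Cell k (Shape.globe h) =>
        (c ≫ S.inRight b h hb hh : Cell k (S.glue b h hb hh)))) := by
  let e : coyoneda.obj (op (GlobPsh.globeRep k)) ≅ (evaluation _ _).obj (op (GlobeObj.mk k)) :=
    NatIso.ofComponents (fun P => Equiv.toIso (yonedaEquiv (X := GlobeObj.mk k) (F := P)))
      (fun _ => rfl)
  have : PreservesColimitsOfShape WalkingSpan (coyoneda.obj (op (GlobPsh.globeRep k))) :=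
    preservesColimitsOfShape_of_natIso e.symm
  exact (IsPushout.of_hasPushout (GlobPsh.globeRepFace hb true ≫ S.apex)
    (GlobPsh.globeRepFace hh false)).map (coyoneda.obj (op (GlobPsh.globeRep k)))

theorem cell_glue_cases {k : ℕ} {S : Shape} {b h : ℕ} {hb : b < S.last} {hh : b < h}
    (c : Cell k (S.glue b h hb hh)) :
    (∃ c' : Cell k S, c = c' ≫ S.inLeft b h hb hh) ∨
      (∃ c' : Cell k (Shape.globe h), c = c' ≫ S.inRight b h hb hh) := by
  rcases Types.eq_or_eq_of_isPushout (cell_isPushout k S b h hb hh) c with ⟨x, hx⟩ | ⟨x, hx⟩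
  · exact Or.inl ⟨x, hx.symm⟩
  · exact Or.inr ⟨x, hx.symm⟩

theorem cell_glue_desc {k : ℕ} {S : Shape} {b h : ℕ} {hb : b < S.last} {hh : b < h}
    {Y : Type v} (f : Cell k S → Y) (g : Cell k (Shape.globe h) → Y)
    (hfg : ∀ c : Cell k (Shape.globe b), f (c ≫ S.hinge hb) = g (c ≫ Shape.faceMap hh false)) :
    ∃ F : Cell k (S.glue b h hb hh) → Y, (∀ c, F (c ≫ S.inLeft b h hb hh) = f c) ∧
      ∀ c, F (c ≫ S.inRight b h hb hh) = g c := by
  have P := (cell_isPushout k S b h hb hh).map uliftFunctor.{v, 0}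
  let f' : uliftFunctor.{v, 0}.obj (Cell k S) ⟶ ULift.{0, v} Y :=
    TypeCat.ofHom (fun c => ULift.up (f c.down))
  let g' : uliftFunctor.{v, 0}.obj (Cell k (Shape.globe h)) ⟶ ULift.{0, v} Y :=
    TypeCat.ofHom (fun c => ULift.up (g c.down))
  have w : uliftFunctor.{v, 0}.map (TypeCat.ofHom
      (fun c : Cell k (Shape.globe b) => (c ≫ S.hinge hb : Cell k S))) ≫ f' =
      uliftFunctor.{v, 0}.map (TypeCat.ofHom (fun c : Cell k (Shape.globe b) =>
        (c ≫ Shape.faceMap hh false : Cell k (Shape.globe h)))) ≫ g' := by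
    ext ⟨c⟩
    exact hfg c
  refine ⟨fun c => (P.desc f' g' w (ULift.up c)).down, fun c => ?_, fun c => ?_⟩
  · exact congrArg ULift.down (types_congr_hom (P.inl_desc f' g' w) (ULift.up c))
  · exact congrArg ULift.down (types_congr_hom (P.inr_desc f' g' w) (ULift.up c))

theorem cell_le_dim {k : ℕ} {S : Shape} (c : Cell k S) : k ≤ S.dim := by
  induction S using shape_induction with
  | hg n => exact cell_globe_le c
  | hs S b h hb hh ih =>
    rcases cell_glue_cases c with ⟨c', -⟩ | ⟨c', -⟩
    · exact (ih c').trans (by simp)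
    · exact (cell_globe_le c').trans (by simp)

theorem cell_zero_nonempty (S : Shape) : Nonempty (Cell 0 S) := by
  rcases Nat.eq_zero_or_pos S.last with h | h
  · exact ⟨h ▸ apx S⟩
  · exact ⟨S.hinge h⟩

/-- A functor out of shapes sends the designated gluing squares to pushouts. -/
def RespectsGlue {D : Type w} [Category.{v} D] (Γ : Shape ⥤ D) : Prop :=
  ∀ (S : Shape) (b h : ℕ) (hb : b < S.last) (hh : b < h),
    IsPushout (Γ.map (S.hinge hb)) (Γ.map (Shape.faceMap hh false))
      (Γ.map (S.inLeft b h hb hh)) (Γ.map (S.inRight b h hb hh))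

namespace RespectsGlue

variable {D : Type w} [Category.{v} D] {Γ : Shape ⥤ D}

/-- Maps out of `Γ S` are determined by their restrictions to the cells of `S`. -/
theorem hom_ext (hΓ : RespectsGlue Γ) {S : Shape} {d : D} {φ ψ : Γ.obj S ⟶ d}
    (H : ∀ k (c : Cell k S), Γ.map c ≫ φ = Γ.map c ≫ ψ) : φ = ψ := by
  induction S using shape_induction with
  | hg n => simpa using H n (𝟙 _)
  | hs S b h hb hh ih =>
    refine (hΓ S b h hb hh).hom_ext (ih fun k c => ?_) ?_
    · simpa using H k (c ≫ S.inLeft b h hb hh)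
    · exact H h (S.inRight b h hb hh)

/-- A compatible family on the cells of `S` extends to `Γ S`. -/
theorem exists_desc (hΓ : RespectsGlue Γ) {S : Shape} {d : D}
    (x : ∀ k, Cell k S → (Γ.obj (Shape.globe k) ⟶ d))
    (hx : ∀ k l (h : k < l) (e : Bool) (c : Cell l S),
      x k (Shape.faceMap h e ≫ c) = Γ.map (Shape.faceMap h e) ≫ x l c) :
    ∃ φ : Γ.obj S ⟶ d, ∀ k (c : Cell k S), Γ.map c ≫ φ = x k c := by
  have hg : ∀ n (x : ∀ k, Cell k (Shape.globe n) → (Γ.obj (Shape.globe k) ⟶ d)),
      (∀ k l (h : k < l) (e : Bool) (c : Cell l (Shape.globe n)),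
        x k (Shape.faceMap h e ≫ c) = Γ.map (Shape.faceMap h e) ≫ x l c) →
      ∀ k (c : Cell k (Shape.globe n)), Γ.map c ≫ x n (𝟙 _) = x k c := by
    intro n x hx
    refine cell_globe_cases (by simp) (fun k h e => ?_)
    rw [← hx, Category.comp_id]
  induction S using shape_induction with
  | hg n => exact ⟨_, hg n x hx⟩
  | hs S b h hb hh ih =>
    obtain ⟨φ, hφ⟩ := ih (fun k c => x k (c ≫ S.inLeft b h hb hh))
      (fun k l h e c => by rw [Category.assoc, hx])
    have hψ := hg h (fun k c => x k (c ≫ S.inRight b h hb hh))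
      (fun k l h e c => by rw [Category.assoc, hx])
    have w : Γ.map (S.hinge hb) ≫ φ =
        Γ.map (Shape.faceMap hh false) ≫ x h (𝟙 _ ≫ S.inRight b h hb hh) := by
      rw [hφ, hψ, hinge_inLeft]
    refine ⟨(hΓ S b h hb hh).desc φ _ w, fun k c => ?_⟩
    rcases cell_glue_cases c with ⟨c', rfl⟩ | ⟨c', rfl⟩
    · rw [Γ.map_comp, Category.assoc, IsPushout.inl_desc, hφ]
    · rw [Γ.map_comp, Category.assoc, IsPushout.inr_desc, hψ]

end RespectsGlue

theorem respectsGlue_incl (C : GlobTheory.{u}) : RespectsGlue C.incl := C.respectsSums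

theorem respectsGlue_id : RespectsGlue (𝟭 Shape) := by
  intro S b h hb hh
  have P := IsPushout.of_hasPushout (GlobPsh.globeRepFace hb true ≫ S.apex)
    (GlobPsh.globeRepFace hh false)
  refine ⟨⟨hinge_inLeft S b h hb hh⟩, ⟨PushoutCocone.IsColimit.mk _
    (fun s => P.desc (W := s.pt.psh) s.inl s.inr s.condition)
    (fun s => P.inl_desc _ _ _) (fun s => P.inr_desc _ _ _) (fun s m h1 h2 => ?_)⟩⟩
  exact P.hom_ext (W := s.pt.psh) (h1.trans (P.inl_desc _ _ _).symm)
    (h2.trans (P.inr_desc _ _ _).symm)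

/-- Data from which a functor on shapes is built: an object for each shape, face maps between
the objects of globes, and pushout squares for the gluings. -/
structure Realization (D : Type w) [Category.{v} D] where
  ob : Shape → D
  fc : ∀ {m n : ℕ}, m < n → Bool → (ob (Shape.globe m) ⟶ ob (Shape.globe n))
  fc_comp : ∀ {a b c : ℕ} (h : a < b) (h' : b < c) (e e' : Bool),
    fc h e ≫ fc h' e' = fc (h.trans h') e
  ap : ∀ S : Shape, ob (Shape.globe S.last) ⟶ ob S
  ap_globe : ∀ n, ap (Shape.globe n) = 𝟙 _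
  inl : ∀ (S : Shape) (b h : ℕ) (hb : b < S.last) (hh : b < h), ob S ⟶ ob (S.glue b h hb hh)
  isPushout : ∀ (S : Shape) (b h : ℕ) (hb : b < S.last) (hh : b < h),
    IsPushout (fc hb true ≫ ap S) (fc hh false) (inl S b h hb hh) (ap (S.glue b h hb hh))

namespace Realization

variable {D : Type w} [Category.{v} D] (A : Realization D)

/-- The image of an arrow of globes. -/
def arrowMap : ∀ {k n : ℕ}, GlobeObj.Arrow k n → (A.ob (Shape.globe k) ⟶ A.ob (Shape.globe n))
  | _, _, .refl _ => 𝟙 _
  | _, _, .pole h e => A.fc h e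

/-- The image of a cell of a globe. -/
noncomputable def globeMap {k n : ℕ} (c : Cell k (Shape.globe n)) :
    A.ob (Shape.globe k) ⟶ A.ob (Shape.globe n) := A.arrowMap (cellArrow c)

theorem globeMap_id (n : ℕ) : A.globeMap (𝟙 (Shape.globe n)) = 𝟙 _ := rfl

theorem globeMap_face {k n : ℕ} (h : k < n) (e : Bool) :
    A.globeMap (Shape.faceMap h e) = A.fc h e := rfl

theorem globeMap_face_comp {n : ℕ} {k : ℕ} (e : Bool) :
    ∀ l (c : Cell l (Shape.globe n)) (h : k < l),
      A.globeMap (Shape.faceMap h e ≫ c) = A.fc h e ≫ A.globeMap c := by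
  refine cell_globe_cases (fun h => ?_) (fun l h' e' h => ?_)
  · rw [Category.comp_id, globeMap_id, Category.comp_id, globeMap_face]
  · rw [faceMap_comp, globeMap_face, globeMap_face, A.fc_comp]

/-- The universal cocone of a realization at a shape. -/
structure IsCone (S : Shape) (κ : ∀ k, Cell k S → (A.ob (Shape.globe k) ⟶ A.ob S)) : Prop where
  face : ∀ k l (h : k < l) (e : Bool) (c : Cell l S),
    κ k (Shape.faceMap h e ≫ c) = A.fc h e ≫ κ l c
  apx : κ _ (apx S) = A.ap S
  ext : ∀ {d : D} {φ ψ : A.ob S ⟶ d}, (∀ k c, κ k c ≫ φ = κ k c ≫ ψ) → φ = ψ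
  desc : ∀ {d : D} (x : ∀ k, Cell k S → (A.ob (Shape.globe k) ⟶ d)),
    (∀ k l (h : k < l) (e : Bool) (c : Cell l S),
      x k (Shape.faceMap h e ≫ c) = A.fc h e ≫ x l c) →
    ∃ φ : A.ob S ⟶ d, ∀ k c, κ k c ≫ φ = x k c

theorem isCone_globe (n : ℕ) : A.IsCone (Shape.globe n) (fun _ c => A.globeMap c) where
  face k l h e c := A.globeMap_face_comp e l c h
  apx := (A.ap_globe n).symm
  ext H := by simpa [globeMap_id] using H n (𝟙 _)
  desc x hx := by
    refine ⟨x n (𝟙 _), cell_globe_cases ?_ (fun k h e => ?_)⟩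
    · simp [globeMap_id]
    · rw [globeMap_face, ← hx, Category.comp_id]

theorem exists_cone_glue (S : Shape) (b h : ℕ) (hb : b < S.last) (hh : b < h)
    (κ : ∀ k, Cell k S → (A.ob (Shape.globe k) ⟶ A.ob S)) (hκ : A.IsCone S κ) :
    ∃ κ' : ∀ k, Cell k (S.glue b h hb hh) → (A.ob (Shape.globe k) ⟶ A.ob (S.glue b h hb hh)),
      (∀ k c, κ' k (c ≫ S.inLeft b h hb hh) = κ k c ≫ A.inl S b h hb hh) ∧
      (∀ k c, κ' k (c ≫ S.inRight b h hb hh) = A.globeMap c ≫ A.ap (S.glue b h hb hh)) := by
  have : ∀ k, ∃ F : Cell k (S.glue b h hb hh) → (A.ob (Shape.globe k) ⟶ A.ob (S.glue b h hb hh)),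
      (∀ c, F (c ≫ S.inLeft b h hb hh) = κ k c ≫ A.inl S b h hb hh) ∧
      (∀ c, F (c ≫ S.inRight b h hb hh) = A.globeMap c ≫ A.ap (S.glue b h hb hh)) := by
    intro k
    refine cell_glue_desc _ _ ?_
    have w := (A.isPushout S b h hb hh).w
    revert k
    refine cell_globe_cases ?_ (fun k h' e => ?_)
    · rw [Category.id_comp, Category.id_comp, hinge_eq, hκ.face, hκ.apx, globeMap_face, w]
    · rw [hinge_eq, faceMap_comp_assoc, faceMap_comp, hκ.face, hκ.apx, globeMap_face,
        ← A.fc_comp h' hb e true, ← A.fc_comp h' hh e false, Category.assoc, Category.assoc,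
        Category.assoc, ← w, Category.assoc]
  choose F hF using this
  exact ⟨F, fun k => (hF k).1, fun k => (hF k).2⟩

theorem isCone_glue (S : Shape) (b h : ℕ) (hb : b < S.last) (hh : b < h)
    (κ : ∀ k, Cell k S → (A.ob (Shape.globe k) ⟶ A.ob S)) (hκ : A.IsCone S κ)
    (κ' : ∀ k, Cell k (S.glue b h hb hh) → (A.ob (Shape.globe k) ⟶ A.ob (S.glue b h hb hh)))
    (h1 : ∀ k c, κ' k (c ≫ S.inLeft b h hb hh) = κ k c ≫ A.inl S b h hb hh)
    (h2 : ∀ k c, κ' k (c ≫ S.inRight b h hb hh) = A.globeMap c ≫ A.ap (S.glue b h hb hh)) :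
    A.IsCone (S.glue b h hb hh) κ' where
  face k l h' e c := by
    rcases cell_glue_cases c with ⟨c', rfl⟩ | ⟨c', rfl⟩
    · rw [← Category.assoc, h1, h1, hκ.face, Category.assoc]
    · rw [← Category.assoc, h2, h2, globeMap_face_comp, Category.assoc]
  apx := by
    have := h2 h (𝟙 _)
    rwa [Category.id_comp, globeMap_id, Category.id_comp] at this
  ext {d φ ψ} H := by
    refine (A.isPushout S b h hb hh).hom_ext (hκ.ext fun k c => ?_) ?_
    · rw [← Category.assoc, ← Category.assoc, ← h1, H]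
    · have := H h (𝟙 _ ≫ S.inRight b h hb hh)
      rwa [h2, globeMap_id, Category.id_comp] at this
  desc {d} x hx := by
    obtain ⟨φ, hφ⟩ := hκ.desc (fun k c => x k (c ≫ S.inLeft b h hb hh))
      (fun k l h e c => by rw [Category.assoc, hx])
    obtain ⟨ψ, hψ⟩ := (A.isCone_globe h).desc (fun k c => x k (c ≫ S.inRight b h hb hh))
      (fun k l h e c => by rw [Category.assoc, hx])
    have w : (A.fc hb true ≫ A.ap S) ≫ φ = A.fc hh false ≫ ψ := by
      rw [← hκ.apx, ← hκ.face, hφ, ← globeMap_face, hψ, ← hinge_eq, hinge_inLeft]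
    refine ⟨(A.isPushout S b h hb hh).desc φ ψ w, fun k c => ?_⟩
    rcases cell_glue_cases c with ⟨c', rfl⟩ | ⟨c', rfl⟩
    · rw [h1, Category.assoc, IsPushout.inl_desc, hφ]
    · rw [h2, Category.assoc, IsPushout.inr_desc, hψ]

/-- The chosen universal cocones, by recursion on the pasting scheme. -/
noncomputable def coneAux : ∀ {n : ℕ} (P : Pasting n),
    {κ : ∀ k, Cell k ⟨n, P⟩ → (A.ob (Shape.globe k) ⟶ A.ob ⟨n, P⟩) // A.IsCone ⟨n, P⟩ κ}
  | _, .single n => ⟨fun _ c => A.globeMap c, A.isCone_globe n⟩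
  | _, .glue P b h hb hh =>
    ⟨(A.exists_cone_glue ⟨_, P⟩ b h hb hh (coneAux P).1 (coneAux P).2).choose,
      A.isCone_glue ⟨_, P⟩ b h hb hh (coneAux P).1 (coneAux P).2 _
        (A.exists_cone_glue ⟨_, P⟩ b h hb hh (coneAux P).1 (coneAux P).2).choose_spec.1
        (A.exists_cone_glue ⟨_, P⟩ b h hb hh (coneAux P).1 (coneAux P).2).choose_spec.2⟩

/-- The universal cocone at a shape. -/
noncomputable def cone (S : Shape) (k : ℕ) (c : Cell k S) : A.ob (Shape.globe k) ⟶ A.ob S :=
  (A.coneAux S.pasting).1 k c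

theorem isCone (S : Shape) : A.IsCone S (A.cone S) := (A.coneAux S.pasting).2

theorem cone_globe {k n : ℕ} (c : Cell k (Shape.globe n)) :
    A.cone (Shape.globe n) k c = A.globeMap c := rfl

theorem cone_inLeft (S : Shape) (b h : ℕ) (hb : b < S.last) (hh : b < h) (k : ℕ) (c : Cell k S) :
    A.cone (S.glue b h hb hh) k (c ≫ S.inLeft b h hb hh) = A.cone S k c ≫ A.inl S b h hb hh :=
  (A.exists_cone_glue S b h hb hh (A.cone S) (A.isCone S)).choose_spec.1 k c

theorem cone_inRight (S : Shape) (b h : ℕ) (hb : b < S.last) (hh : b < h) (k : ℕ)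
    (c : Cell k (Shape.globe h)) :
    A.cone (S.glue b h hb hh) k (c ≫ S.inRight b h hb hh) =
      A.globeMap c ≫ A.ap (S.glue b h hb hh) :=
  (A.exists_cone_glue S b h hb hh (A.cone S) (A.isCone S)).choose_spec.2 k c

theorem exists_map {S T : Shape} (f : S ⟶ T) :
    ∃ φ : A.ob S ⟶ A.ob T, ∀ k c, A.cone S k c ≫ φ = A.cone T k (c ≫ f) :=
  (A.isCone S).desc (fun k c => A.cone T k (c ≫ f))
    (fun k l h e c => by rw [Category.assoc, (A.isCone T).face])

/-- The functor on shapes determined by a realization. -/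
noncomputable def functor : Shape ⥤ D where
  obj := A.ob
  map f := (A.exists_map f).choose
  map_id S := (A.isCone S).ext fun k c => by
    rw [(A.exists_map (𝟙 S)).choose_spec, Category.comp_id, Category.comp_id]
  map_comp f g := (A.isCone _).ext fun k c => by
    rw [(A.exists_map (f ≫ g)).choose_spec, ← Category.assoc, ← Category.assoc,
      (A.exists_map f).choose_spec, (A.exists_map g).choose_spec]

theorem functor_obj (S : Shape) : A.functor.obj S = A.ob S := rfl

theorem cone_map {S T : Shape} (f : S ⟶ T) (k : ℕ) (c : Cell k S) :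
    A.cone S k c ≫ A.functor.map f = A.cone T k (c ≫ f) := (A.exists_map f).choose_spec k c

theorem map_cell {S : Shape} {k : ℕ} (c : Cell k S) : A.functor.map c = A.cone S k c := by
  have := A.cone_map c k (𝟙 _)
  rwa [cone_globe, globeMap_id, Category.id_comp, Category.id_comp] at this

theorem map_faceMap {k n : ℕ} (h : k < n) (e : Bool) :
    A.functor.map (Shape.faceMap h e) = A.fc h e := A.map_cell _

theorem map_apx (S : Shape) : A.functor.map (apx S) = A.ap S :=
  (A.map_cell _).trans (A.isCone S).apx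

theorem map_inRight (S : Shape) (b h : ℕ) (hb : b < S.last) (hh : b < h) :
    A.functor.map (S.inRight b h hb hh) = A.ap (S.glue b h hb hh) := A.map_apx (S.glue b h hb hh)

theorem map_hinge (S : Shape) {b : ℕ} (hb : b < S.last) :
    A.functor.map (S.hinge hb) = A.fc hb true ≫ A.ap S := by
  rw [hinge_eq, Functor.map_comp, map_faceMap, map_apx]; rfl

theorem map_inLeft (S : Shape) (b h : ℕ) (hb : b < S.last) (hh : b < h) :
    A.functor.map (S.inLeft b h hb hh) = A.inl S b h hb hh :=
  (A.isCone S).ext fun k c => (A.cone_map _ k c).trans (A.cone_inLeft S b h hb hh k c)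

theorem respectsGlue : RespectsGlue A.functor := by
  intro S b h hb hh
  rw [map_hinge, map_faceMap, map_inLeft, map_inRight]
  exact A.isPushout S b h hb hh

end Realization

end Crest.Agent.R248
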