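import Crest.Agent.R248.Contr

/-!
# Row 248: suspension of shapes and hom-models

The suspension of shapes extends to the operations of a coherator, so that the cells between two
points of a model form a model again.
-/

open CategoryTheory Limits Opposite Crest.GeometryTopology.Coherator
open Crest.GeometryTopology.Coherator.GlobTheory
open Crest.GeometryTopology.Coherator.GlobTheory.GlobModel

set_option backward.isDefEq.respectTransparency false

noncomputable section

namespace Crest.Agent.R248

universe u v w

variable {C : GlobTheory.{u}}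

/-- Suspension of pasting schemes. -/
def suspP : {n : ℕ} → Pasting n → Pasting (n + 1)
  | _, .single h => .single (h + 1)
  | _, .glue P b h hb hh =>
    .glue (suspP P) (b + 1) (h + 1) (Nat.succ_lt_succ hb) (Nat.succ_lt_succ hh)

/-- Suspension of shapes. -/
def susp (S : Shape) : Shape := ⟨S.last + 1, suspP S.pasting⟩

theorem susp_globe (n : ℕ) : susp (Shape.globe n) = Shape.globe (n + 1) := rfl

theorem susp_glue (S : Shape) (b h : ℕ) (hb : b < S.last) (hh : b < h) :
    susp (S.glue b h hb hh) =
      (susp S).glue (b + 1) (h + 1) (Nat.succ_lt_succ hb) (Nat.succ_lt_succ hh) := rfl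

/-- The realization data of the suspension. -/
def suspReal : Realization Shape where
  ob := susp
  fc h e := Shape.faceMap (Nat.succ_lt_succ h) e
  fc_comp _ _ _ _ := faceMap_comp _ _ _ _
  ap S := apx (susp S)
  ap_globe _ := rfl
  inl S b h hb hh := (susp S).inLeft (b + 1) (h + 1) (Nat.succ_lt_succ hb) (Nat.succ_lt_succ hh)
  isPushout S b h hb hh :=
    respectsGlue_id (susp S) (b + 1) (h + 1) (Nat.succ_lt_succ hb) (Nat.succ_lt_succ hh)

/-- The suspension functor on shapes. -/
def suspF : Shape ⥤ Shape := suspReal.functor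

/-- The suspension of a map of shapes. -/
def suspMap {S T : Shape} (f : S ⟶ T) : susp S ⟶ susp T := suspF.map f

theorem suspMap_id (S : Shape) : suspMap (𝟙 S) = 𝟙 (susp S) := suspF.map_id S

theorem suspMap_comp {R S T : Shape} (f : R ⟶ S) (g : S ⟶ T) :
    suspMap (f ≫ g) = suspMap f ≫ suspMap g := suspF.map_comp f g

theorem suspMap_faceMap {k n : ℕ} (h : k < n) (e : Bool) :
    suspMap (Shape.faceMap h e) = Shape.faceMap (Nat.succ_lt_succ h) e :=
  suspReal.map_faceMap h e

theorem suspMap_σ (n : ℕ) : suspMap (Shape.σ n) = Shape.σ (n + 1) := suspMap_faceMap _ _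
theorem suspMap_τ (n : ℕ) : suspMap (Shape.τ n) = Shape.τ (n + 1) := suspMap_faceMap _ _

theorem suspMap_apx (S : Shape) : suspMap (apx S) = apx (susp S) := suspReal.map_apx S

theorem suspMap_hinge (S : Shape) {b : ℕ} (hb : b < S.last) :
    suspMap (S.hinge hb) = (susp S).hinge (Nat.succ_lt_succ hb) := suspReal.map_hinge S hb

theorem suspMap_inLeft (S : Shape) (b h : ℕ) (hb : b < S.last) (hh : b < h) :
    suspMap (S.inLeft b h hb hh) =
      (susp S).inLeft (b + 1) (h + 1) (Nat.succ_lt_succ hb) (Nat.succ_lt_succ hh) :=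
  suspReal.map_inLeft S b h hb hh

theorem suspMap_inRight (S : Shape) (b h : ℕ) (hb : b < S.last) (hh : b < h) :
    suspMap (S.inRight b h hb hh) =
      (susp S).inRight (b + 1) (h + 1) (Nat.succ_lt_succ hb) (Nat.succ_lt_succ hh) :=
  suspReal.map_inRight S b h hb hh

/-- The two end points of a suspension. -/
def spt (e : Bool) (S : Shape) : Cell 0 (susp S) :=
  Shape.faceMap (Nat.succ_pos S.last) e ≫ apx (susp S)

theorem spt_globe (e : Bool) (n : ℕ) :
    spt e (Shape.globe n) = Shape.faceMap (Nat.succ_pos n) e := Category.comp_id _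

theorem spt_cell (e : Bool) {S : Shape} {k : ℕ} (c : Cell k S) :
    Shape.faceMap (Nat.succ_pos k) e ≫ suspMap c = spt e S := by
  have glob : ∀ n k (c : Cell k (Shape.globe n)),
      Shape.faceMap (Nat.succ_pos k) e ≫ suspMap c = Shape.faceMap (Nat.succ_pos n) e := by
    intro n
    refine cell_globe_cases ?_ (fun k h e' => ?_)
    · rw [suspMap_id]; exact Category.comp_id _
    · rw [suspMap_faceMap]; exact faceMap_comp _ _ _ _
  induction S using shape_induction generalizing k with
  | hg n => rw [glob, spt_globe]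
  | hs S b h hb hh ih =>
    have right : ∀ k (c : Cell k (Shape.globe h)), Shape.faceMap (Nat.succ_pos k) e ≫
        suspMap (c ≫ S.inRight b h hb hh) = spt e (S.glue b h hb hh) := by
      intro k c
      rw [suspMap_comp, ← Category.assoc, glob, suspMap_inRight]
      rfl
    rcases cell_glue_cases c with ⟨c', rfl⟩ | ⟨c', rfl⟩
    · rw [suspMap_comp, ← Category.assoc, ih, ← ih (S.hinge hb), Category.assoc, ← suspMap_comp,
        hinge_inLeft, right]
    · exact right k c'

theorem spt_suspMap (e : Bool) {S T : Shape} (f : S ⟶ T) : spt e S ≫ suspMap f = spt e T := by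
  rw [← spt_cell e (apx S), Category.assoc, ← suspMap_comp, spt_cell]

theorem respectsGlue_susp (C : GlobTheory.{u}) : RespectsGlue (suspF ⋙ C.incl) := by
  intro S b h hb hh
  have := C.respectsSums (susp S) (b + 1) (h + 1) (Nat.succ_lt_succ hb) (Nat.succ_lt_succ hh)
  change IsPushout (C.incl.map (suspMap _)) (C.incl.map (suspMap _)) (C.incl.map (suspMap _))
    (C.incl.map (suspMap _))
  rw [suspMap_hinge, suspMap_faceMap hh, suspMap_inLeft, suspMap_inRight]
  exact this

/-- An extension of the suspension to the operations, preserving the end points. -/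
structure SuspData (C : GlobTheory.{u}) where
  map : ∀ {S T : Shape}, C.arr S T → C.arr (susp S) (susp T)
  map_one : ∀ S : Shape, map (C.one S) = C.one (susp S)
  map_seq : ∀ {R S T : Shape} (f : C.arr R S) (g : C.arr S T),
    map (C.seq f g) = C.seq (map f) (map g)
  map_ofShape : ∀ {S T : Shape} (f : S ⟶ T), map (C.ofShape f) = C.ofShape (suspMap f)
  spt_map : ∀ (e : Bool) {S T : Shape} (f : C.arr S T),
    C.seq (C.ofShape (spt e S)) (map f) = C.ofShape (spt e T)

theorem exists_suspData (hC : C.IsCoheratorTheory) : Nonempty (SuspData C) := by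
  obtain ⟨E, hE, -⟩ := exists_extn (Γ := suspF ⋙ C.incl) (tower hC) (respectsGlue_susp C)
    (R := fun {S T} _ Φ => ∀ e, C.seq (C.ofShape (spt e S)) Φ = C.ofShape (spt e T))
    ⟨fun f e => by
        change C.seq _ (C.ofShape (suspMap f)) = _
        rw [← C.ofShape_comp, spt_suspMap],
      fun h1 h2 e => by
        change C.seq _ (C.seq _ _) = _
        rw [← C.seq_assoc, h1, h2],
      fun S b h hb hh U _ Φ h1 _ e => by
        have := h1 e
        change C.seq _ (C.seq (C.ofShape (suspMap _)) _) = _ at this
        rwa [← C.seq_assoc, ← C.ofShape_comp, spt_suspMap] at this⟩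
    (fun _ _ _ => True) (fun n g F G h1 h2 hp => by
      have par : Par (freeOn C (susp g.shape)) (n + 1) F G := by
        cases n with
        | zero =>
          have a := (h1 false).trans (h2 false).symm
          have b := (h1 true).trans (h2 true).symm
          rw [spt_globe] at a b
          exact ⟨a, b⟩
        | succ n =>
          obtain ⟨a, b⟩ := hp
          change C.seq (C.ofShape (suspMap _)) F = C.seq (C.ofShape (suspMap _)) G at a b
          rw [suspMap_σ] at a
          rw [suspMap_τ] at b
          exact ⟨a, b⟩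
      obtain ⟨H, H1, H2⟩ := fill_op hC (n := n + 1) (S := susp g.shape) F G par
      rw [← suspMap_σ] at H1
      rw [← suspMap_τ] at H2
      refine ⟨H, H1, H2, fun e => ?_, trivial⟩
      rw [← h1 e, ← H1, ← C.seq_assoc, ← C.ofShape_comp, spt_suspMap])
  exact ⟨⟨E.map, E.map_one, E.map_seq, E.map_ofShape, fun e _ _ f => hE f e⟩⟩

/-- The elements of the hom-model. -/
def HomAt (X : GlobModel C) (y x : At X (Shape.globe 0)) (S : Shape) : Type u :=
  {z : At X (susp S) // res X (spt false S) z = y ∧ res X (spt true S) z = x}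

/-- The model of cells from `y` to `x`. -/
def HomM (σ : SuspData C) (X : GlobModel C) (y x : At X (Shape.globe 0)) : GlobModel C :=
  mkModel (HomAt X y x)
    (fun o z => ⟨X.act (σ.map o) z.1,
      by rw [res_act, σ.spt_map, act_ofShape, z.2.1], by rw [res_act, σ.spt_map, act_ofShape, z.2.2]⟩)
    (fun S z => Subtype.ext (by dsimp only; rw [σ.map_one, act_one]))
    (fun o o' z => Subtype.ext (by dsimp only; rw [σ.map_seq, act_seq]))
    (fun S b h hb hh z z' h1 h2 => by
      have a := congrArg Subtype.val h1
      have b := congrArg Subtype.val h2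
      dsimp only at a b
      rw [σ.map_ofShape, suspMap_inLeft] at a
      rw [σ.map_ofShape, suspMap_inRight] at b
      exact Subtype.ext (glue_ext a b))
    (fun S b h hb hh z z' w => by
      have a := congrArg Subtype.val w
      dsimp only at a
      rw [σ.map_ofShape, σ.map_ofShape, suspMap_hinge, suspMap_faceMap] at a
      obtain ⟨p, h1, h2⟩ := exists_glue (Nat.succ_lt_succ hb) (Nat.succ_lt_succ hh) z.1 z'.1 a
      replace h1 : res X (suspMap (S.inLeft b h hb hh)) p = z.1 := by
        rw [suspMap_inLeft]; exact h1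
      replace h2 : res X (suspMap (S.inRight b h hb hh)) p = z'.1 := by
        rw [suspMap_inRight]; exact h2
      refine ⟨⟨p, ?_, ?_⟩, Subtype.ext ?_, Subtype.ext ?_⟩
      · rw [← spt_suspMap false (S.inLeft b h hb hh), res_comp]
        exact (congrArg _ h1).trans z.2.1
      · rw [← spt_suspMap true (S.inLeft b h hb hh), res_comp]
        exact (congrArg _ h1).trans z.2.2
      · dsimp only
        rw [σ.map_ofShape]; exact h1
      · dsimp only
        rw [σ.map_ofShape]; exact h2)

section Hom

variable (σ : SuspData C) {X Y Z : GlobModel C} {y x : At X (Shape.globe 0)}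

/-- The underlying element of an element of the hom-model. -/
def hval {σ : SuspData C} {S : Shape} (z : At (HomM σ X y x) S) : At X (susp S) := z.1

/-- The underlying cell of a cell of the hom-model. -/
def hcell {σ : SuspData C} {n : ℕ} (z : At (HomM σ X y x) (Shape.globe n)) :
    At X (Shape.globe (n + 1)) := z.1

theorem hcell_eq_hval {n : ℕ} (z : At (HomM σ X y x) (Shape.globe n)) : hcell z = hval z := rfl

theorem hval_injective {S : Shape} :
    Function.Injective (hval : At (HomM σ X y x) S → At X (susp S)) := Subtype.val_injective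

theorem hcell_injective {n : ℕ} : Function.Injective
    (hcell : At (HomM σ X y x) (Shape.globe n) → At X (Shape.globe (n + 1))) :=
  Subtype.val_injective

theorem hval_src {S : Shape} (z : At (HomM σ X y x) S) : res X (spt false S) (hval z) = y := z.2.1
theorem hval_tgt {S : Shape} (z : At (HomM σ X y x) S) : res X (spt true S) (hval z) = x := z.2.2

/-- An element of `X` at a suspension with the right end points, in the hom-model. -/
def homElt {S : Shape} (z : At X (susp S)) (h1 : res X (spt false S) z = y)
    (h2 : res X (spt true S) z = x) : At (HomM σ X y x) S := ⟨z, h1, h2⟩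

@[simp] theorem hval_homElt {S : Shape} (z : At X (susp S)) (h1 : res X (spt false S) z = y)
    (h2 : res X (spt true S) z = x) : hval (homElt σ z h1 h2) = z := rfl

theorem hval_act {S T : Shape} (o : C.arr S T) (z : At (HomM σ X y x) T) :
    hval ((HomM σ X y x).act o z) = X.act (σ.map o) (hval z) := rfl

theorem hval_res {S T : Shape} (o : S ⟶ T) (z : At (HomM σ X y x) T) :
    hval (res (HomM σ X y x) o z) = res X (suspMap o) (hval z) := by
  rw [res, hval_act, σ.map_ofShape]; rfl

theorem hcell_src {n : ℕ} (z : At (HomM σ X y x) (Shape.globe (n + 1))) :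
    hcell (src (HomM σ X y x) z) = src X (hcell z) := by
  refine (hval_res σ _ z).trans ?_
  rw [suspMap_σ]; rfl

theorem hcell_tgt {n : ℕ} (z : At (HomM σ X y x) (Shape.globe (n + 1))) :
    hcell (tgt (HomM σ X y x) z) = tgt X (hcell z) := by
  refine (hval_res σ _ z).trans ?_
  rw [suspMap_τ]; rfl

/-- The map of hom-models induced by a map of models. -/
def homMap (f : X ⟶ Y) {y' x' : At Y (Shape.globe 0)} (hy : app f _ y = y') (hx : app f _ x = x') :
    HomM σ X y x ⟶ HomM σ Y y' x' :=
  homMk (fun S z => homElt σ (app f (susp S) (hval z)) (by rw [← app_res, hval_src, hy])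
      (by rw [← app_res, hval_tgt, hx]))
    (fun _ _ o z => hval_injective σ (app_act f (σ.map o) (hval z)))

theorem hval_homMap (f : X ⟶ Y) {y' x' : At Y (Shape.globe 0)} (hy : app f _ y = y')
    (hx : app f _ x = x') (S : Shape) (z : At (HomM σ X y x) S) :
    hval (app (homMap σ f hy hx) S z) = app f (susp S) (hval z) := rfl

theorem hcell_end {n : ℕ} (a : At (HomM σ X y x) (Shape.globe n)) :
    res X (Shape.faceMap (Nat.succ_pos n) false) (hcell a) = y ∧
      res X (Shape.faceMap (Nat.succ_pos n) true) (hcell a) = x := by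
  have h1 := hval_src σ a
  have h2 := hval_tgt σ a
  rw [spt_globe] at h1 h2
  exact ⟨h1, h2⟩

theorem homM_par {n : ℕ} (a b : At (HomM σ X y x) (Shape.globe n)) :
    Par (HomM σ X y x) n a b ↔ Par X (n + 1) (hcell a) (hcell b) := by
  cases n with
  | zero =>
    exact ⟨fun _ => ⟨(hcell_end σ a).1.trans (hcell_end σ b).1.symm,
      (hcell_end σ a).2.trans (hcell_end σ b).2.symm⟩, fun _ => trivial⟩
  | succ n =>
    rw [par_succ, par_succ, ← (hcell_injective σ).eq_iff, ← (hcell_injective σ).eq_iff, hcell_src,
      hcell_src, hcell_tgt, hcell_tgt]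

/-- A cell of `X` with the right end points as a cell of the hom-model. -/
def homCell {n : ℕ} (z : At X (Shape.globe (n + 1)))
    (h1 : res X (Shape.faceMap (Nat.succ_pos n) false) z = y)
    (h2 : res X (Shape.faceMap (Nat.succ_pos n) true) z = x) : At (HomM σ X y x) (Shape.globe n) :=
  homElt σ z (by rw [spt_globe]; exact h1) (by rw [spt_globe]; exact h2)

@[simp] theorem hcell_homCell {n : ℕ} (z : At X (Shape.globe (n + 1)))
    (h1 : res X (Shape.faceMap (Nat.succ_pos n) false) z = y)
    (h2 : res X (Shape.faceMap (Nat.succ_pos n) true) z = x) :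
    hcell (homCell σ z h1 h2) = z := rfl

theorem homM_htp {n : ℕ} (a b : At (HomM σ X y x) (Shape.globe n)) :
    Htp (HomM σ X y x) n a b ↔ Htp X (n + 1) (hcell a) (hcell b) := by
  constructor
  · rintro ⟨z, rfl, rfl⟩
    exact ⟨hcell z, (hcell_src σ z).symm, (hcell_tgt σ z).symm⟩
  · rintro ⟨z, h1, h2⟩
    refine ⟨homCell σ z ?_ ?_, hcell_injective σ ((hcell_src σ _).trans h1),
      hcell_injective σ ((hcell_tgt σ _).trans h2)⟩
    · rw [← (hcell_end σ a).1, ← h1, src, ← res_comp, σ_eq, faceMap_comp]
    · rw [← (hcell_end σ a).2, ← h1, src, ← res_comp, σ_eq, faceMap_comp]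

theorem fills_hom {n : ℕ} (h : Fills X (n + 1)) (y x : At X (Shape.globe 0)) :
    Fills (HomM σ X y x) n := by
  cases n with
  | zero =>
    obtain ⟨z, h1, h2⟩ := h.fill y x trivial
    exact fills_zero_iff.mpr ⟨homCell σ z h1 h2⟩
  | succ n =>
    exact fills_succ_iff.mpr fun a b hab =>
      (homM_htp σ a b).mpr (h.fill _ _ ((homM_par σ a b).mp hab))

theorem fills_of_hom {n : ℕ} (h : ∀ y x : At X (Shape.globe 0), Fills (HomM σ X y x) n) :
    Fills X (n + 1) := by
  refine fills_succ_iff.mpr fun a b hab => ?_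
  cases n with
  | zero =>
    obtain ⟨z⟩ := fills_zero_iff.mp (h a b)
    exact ⟨hcell z, hcell_end σ z⟩
  | succ n =>
    let a' := homCell σ a rfl rfl
    let b' : At (HomM σ X _ _) (Shape.globe n) :=
      homCell σ b (par_face hab _ false).symm (par_face hab _ true).symm
    exact (homM_htp σ a' b').mp ((h _ _).fill a' b' ((homM_par σ a' b').mpr hab))

theorem contr_hom (h : Contr X) (y x : At X (Shape.globe 0)) : Contr (HomM σ X y x) :=
  fun n => fills_hom σ (h (n + 1)) y x

end Hom

/-- A suspension can be glued to `R` at the vertex `v`, the result being a shape again. -/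
def Wedgeable (C : GlobTheory.{u}) (R : Shape) (v : Cell 0 R) : Prop :=
  ∀ T : Shape, ∃ (R' : Shape) (a : R ⟶ R') (c : susp T ⟶ R'), v ≫ a = spt false T ≫ c ∧
    ∀ (X : GlobModel C) (ρ : At X R) (t : At X (susp T)), res X v ρ = res X (spt false T) t →
      ∃! z : At X R', res X a z = ρ ∧ res X c z = t

theorem wedgeable_point : Wedgeable C (Shape.globe 0) (𝟙 _) := by
  intro T
  refine ⟨susp T, spt false T, 𝟙 _, by simp, fun X ρ t h => ⟨t, ⟨?_, res_id _⟩, ?_⟩⟩
  · rw [← h, res_id]
  · rintro z ⟨-, hz⟩
    rwa [res_id] at hz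

/-- Appending the suspension of a pasting scheme after a shape of positive last dimension. -/
def wedgeP {r : ℕ} (R : Pasting r) (hr : 0 < r) : {n : ℕ} → Pasting n → Pasting (n + 1)
  | _, .single h => .glue R 0 (h + 1) hr (Nat.succ_pos h)
  | _, .glue P b h hb hh =>
    .glue (wedgeP R hr P) (b + 1) (h + 1) (Nat.succ_lt_succ hb) (Nat.succ_lt_succ hh)

/-- Appending the suspension of a shape after a shape of positive last dimension. -/
def wedge (R : Shape) (hr : 0 < R.last) (T : Shape) : Shape :=
  ⟨T.last + 1, wedgeP R.pasting hr T.pasting⟩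

theorem wedgeable_hinge (R : Shape) (hr : 0 < R.last) : Wedgeable C R (R.hinge hr) := by
  suffices H : ∀ T : Shape, ∃ (a : R ⟶ wedge R hr T) (c : susp T ⟶ wedge R hr T),
      apx (susp T) ≫ c = apx (wedge R hr T) ∧ R.hinge hr ≫ a = spt false T ≫ c ∧
      ∀ (X : GlobModel C) (ρ : At X R) (t : At X (susp T)),
        res X (R.hinge hr) ρ = res X (spt false T) t →
          ∃! z : At X (wedge R hr T), res X a z = ρ ∧ res X c z = t by
    intro T
    obtain ⟨a, c, -, h⟩ := H T
    exact ⟨_, a, c, h⟩
  intro T
  induction T using shape_induction with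
  | hg n =>
    refine ⟨R.inLeft 0 (n + 1) hr (Nat.succ_pos n), R.inRight 0 (n + 1) hr (Nat.succ_pos n),
      Category.id_comp _, ?_, fun X ρ t h => ?_⟩
    · rw [spt_globe]; exact hinge_inLeft R 0 (n + 1) hr (Nat.succ_pos n)
    · rw [spt_globe] at h
      obtain ⟨z, h1, h2⟩ := exists_glue hr (Nat.succ_pos n) ρ t h
      exact ⟨z, ⟨h1, h2⟩, fun z' h' => glue_ext (h'.1.trans h1.symm) (h'.2.trans h2.symm)⟩
  | hs T b h hb hh ih =>
    obtain ⟨a, c, hc, w, U⟩ := ih
    have hb' : b + 1 < (wedge R hr T).last := Nat.succ_lt_succ hb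
    have hb'' : b + 1 < (susp T).last := Nat.succ_lt_succ hb
    have hh' : b + 1 < h + 1 := Nat.succ_lt_succ hh
    have hinge_c : (susp T).hinge hb'' ≫ c = (wedge R hr T).hinge hb' := by
      rw [hinge_eq, Category.assoc, hc]; rfl
    have P := respectsGlue_id (susp T) (b + 1) (h + 1) hb'' hh'
    have w' : (susp T).hinge hb'' ≫ c ≫ (wedge R hr T).inLeft (b + 1) (h + 1) hb' hh' =
        Shape.faceMap hh' false ≫ (wedge R hr T).inRight (b + 1) (h + 1) hb' hh' := by
      rw [← Category.assoc, hinge_c, hinge_inLeft]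
    have e1 : (susp T).inLeft (b + 1) (h + 1) hb'' hh' ≫ P.desc _ _ w' =
        c ≫ (wedge R hr T).inLeft (b + 1) (h + 1) hb' hh' := P.inl_desc _ _ w'
    have e2 : (susp T).inRight (b + 1) (h + 1) hb'' hh' ≫ P.desc _ _ w' =
        (wedge R hr T).inRight (b + 1) (h + 1) hb' hh' := P.inr_desc _ _ w'
    have e3 : spt false T ≫ (susp T).inLeft (b + 1) (h + 1) hb'' hh' =
        spt false (T.glue b h hb hh) := by
      rw [← spt_suspMap false (T.inLeft b h hb hh), suspMap_inLeft]
    refine ⟨a ≫ (wedge R hr T).inLeft (b + 1) (h + 1) hb' hh', P.desc _ _ w', e2, ?_,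
      fun X ρ t ht => ?_⟩
    · rw [← Category.assoc, w, ← e3, Category.assoc, Category.assoc, e1]
    · obtain ⟨z, ⟨z1, z2⟩, zu⟩ := U X ρ (res X ((susp T).inLeft (b + 1) (h + 1) hb'' hh') t)
        (by rw [ht, ← e3, res_comp])
      obtain ⟨z', h1, h2⟩ := exists_glue hb' hh' z
        (res X ((susp T).inRight (b + 1) (h + 1) hb'' hh') t)
        (by rw [← hinge_c, res_comp, z2, ← res_comp, ← res_comp, hinge_inLeft])
      refine ⟨z', ⟨?_, ?_⟩, fun z'' h'' => ?_⟩
      · rw [res_comp]; exact (congrArg _ h1).trans z1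
      · refine glue_ext (S := susp T) (h := h + 1) (hb := hb'') (hh := hh') ?_ ?_
        · rw [← res_comp, e1, res_comp]; exact (congrArg _ h1).trans z2
        · rw [← res_comp, e2]; exact h2
      · refine glue_ext (S := wedge R hr T) (h := h + 1) (hb := hb') (hh := hh')
          (Eq.trans (zu _ ⟨?_, ?_⟩) h1.symm) (Eq.trans ?_ h2.symm)
        · rw [← res_comp]; exact h''.1
        · rw [← res_comp, ← e1, res_comp]; exact congrArg _ h''.2
        · rw [← e2, res_comp]; exact congrArg _ h''.2

theorem exists_wedgeable (R : Shape) : ∃ v : Cell 0 R, Wedgeable C R v := by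
  induction R using shape_induction with
  | hg n =>
    rcases Nat.eq_zero_or_pos n with rfl | h
    · exact ⟨_, wedgeable_point⟩
    · exact ⟨_, wedgeable_hinge (Shape.globe n) h⟩
  | hs S b h hb hh _ =>
    exact ⟨_, wedgeable_hinge (S.glue b h hb hh) (by simp; omega)⟩

end Crest.Agent.R248
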