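import Mathlib

/-!
# Row 248: an explicit complex computing the homology of a small category
-/

open CategoryTheory Limits Opposite DirectSum

set_option backward.isDefEq.respectTransparency false

noncomputable section

namespace Crest.Agent.R248

universe u

open scoped Classical

variable {B : Type u} [SmallCategory B]

/-- Functors to abelian groups. -/
abbrev Fn (B : Type u) [SmallCategory B] := B ⥤ AddCommGrpCat.{u}

theorem ab_ext {X Y : AddCommGrpCat.{u}} {f g : X ⟶ Y} (h : ∀ x, f.hom x = g.hom x) : f = g := by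
  ext1
  exact AddMonoidHom.ext h

theorem fn_ext {M N : Fn B} {f g : M ⟶ N} (h : ∀ b x, (f.app b).hom x = (g.app b).hom x) :
    f = g := by
  ext b : 2
  exact ab_ext (h b)

theorem ab_congr {X Y : AddCommGrpCat.{u}} {f g : X ⟶ Y} (h : f = g) (x : X) :
    f.hom x = g.hom x := by rw [h]

theorem fn_congr {M N : Fn B} {f g : M ⟶ N} (h : f = g) (b : B) (x : M.obj b) :
    (f.app b).hom x = (g.app b).hom x := by rw [h]

theorem ab_comp_apply {X Y Z : AddCommGrpCat.{u}} (f : X ⟶ Y) (g : Y ⟶ Z) (x : X) :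
    (f ≫ g).hom x = g.hom (f.hom x) := rfl

theorem fn_comp_apply {L M N : Fn B} (f : L ⟶ M) (g : M ⟶ N) (b : B) (x : L.obj b) :
    ((f ≫ g).app b).hom x = (g.app b).hom ((f.app b).hom x) := rfl

theorem fn_nat {M N : Fn B} (f : M ⟶ N) {b b' : B} (φ : b ⟶ b') (x : M.obj b) :
    (f.app b').hom ((M.map φ).hom x) = (N.map φ).hom ((f.app b).hom x) :=
  ab_congr (f.naturality φ) x

theorem fn_map_comp (M : Fn B) {a b c : B} (φ : a ⟶ b) (ψ : b ⟶ c) (x : M.obj a) :
    (M.map (φ ≫ ψ)).hom x = (M.map ψ).hom ((M.map φ).hom x) := ab_congr (M.map_comp φ ψ) x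

theorem fn_map_id (M : Fn B) (a : B) (x : M.obj a) : (M.map (𝟙 a)).hom x = x :=
  ab_congr (M.map_id a) x

/-- A natural transformation from its components. -/
def fnMk {M N : Fn B} (φ : ∀ b, M.obj b →+ N.obj b)
    (nat : ∀ b b' (f : b ⟶ b') x, φ b' ((M.map f).hom x) = (N.map f).hom (φ b x)) : M ⟶ N where
  app b := AddCommGrpCat.ofHom (φ b)
  naturality b b' f := ab_ext (nat b b' f)

/-- The pointwise kernel of a natural transformation. -/
def kerF {M N : Fn B} (f : M ⟶ N) : Fn B where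
  obj b := AddCommGrpCat.of (f.app b).hom.ker
  map {b b'} φ := AddCommGrpCat.ofHom (((M.map φ).hom.comp (f.app b).hom.ker.subtype).codRestrict
    (f.app b').hom.ker (fun x => by
      change (f.app b').hom ((M.map φ).hom x.1) = 0
      rw [fn_nat, show (f.app b).hom x.1 = 0 from x.2, map_zero]))
  map_id b := ab_ext fun x => Subtype.ext (fn_map_id M b x.1)
  map_comp φ ψ := ab_ext fun x => Subtype.ext (fn_map_comp M φ ψ x.1)

/-- The inclusion of the kernel. -/
def kerι {M N : Fn B} (f : M ⟶ N) : kerF f ⟶ M :=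
  fnMk (fun b => (f.app b).hom.ker.subtype) (fun _ _ _ _ => rfl)

theorem kerι_injective {M N : Fn B} (f : M ⟶ N) (b : B) :
    Function.Injective ((kerι f).app b).hom := Subtype.val_injective

theorem kerι_mem {M N : Fn B} (f : M ⟶ N) (b : B) (x : (kerF f).obj b) :
    (f.app b).hom (((kerι f).app b).hom x) = 0 := x.2

theorem kerι_comp {M N : Fn B} (f : M ⟶ N) : kerι f ≫ f = 0 := fn_ext (kerι_mem f)

theorem exists_ker {M N : Fn B} (f : M ⟶ N) (b : B) (x : M.obj b) (h : (f.app b).hom x = 0) :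
    ∃ y, ((kerι f).app b).hom y = x := ⟨⟨x, h⟩, rfl⟩

/-- The lift to the kernel. -/
def kerLift {L M N : Fn B} (f : M ⟶ N) (g : L ⟶ M) (h : g ≫ f = 0) : L ⟶ kerF f :=
  fnMk (fun b => (g.app b).hom.codRestrict (f.app b).hom.ker (fun x => fn_congr h b x))
    (fun _ _ φ x => Subtype.ext (fn_nat g φ x))

@[reassoc]
theorem kerLift_ι {L M N : Fn B} (f : M ⟶ N) (g : L ⟶ M) (h : g ≫ f = 0) :
    kerLift f g h ≫ kerι f = g := rfl

theorem kerLift_apply {L M N : Fn B} (f : M ⟶ N) (g : L ⟶ M) (h : g ≫ f = 0) (b : B)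
    (x : L.obj b) : ((kerι f).app b).hom (((kerLift f g h).app b).hom x) = (g.app b).hom x := rfl

theorem ker_hom_ext {L M N : Fn B} (f : M ⟶ N) {g g' : L ⟶ kerF f}
    (h : g ≫ kerι f = g' ≫ kerι f) : g = g' :=
  fn_ext fun b x => kerι_injective f b (fn_congr h b x)

/-- Pointwise short exact sequences. -/
structure SES {L M N : Fn B} (i : L ⟶ M) (p : M ⟶ N) : Prop where
  zero : i ≫ p = 0
  inj : ∀ b, Function.Injective (i.app b).hom
  surj : ∀ b, Function.Surjective (p.app b).hom
  ex : ∀ b x, (p.app b).hom x = 0 → ∃ y, (i.app b).hom y = x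

theorem ses_ker {M N : Fn B} (p : M ⟶ N) (h : ∀ b, Function.Surjective (p.app b).hom) :
    SES (kerι p) p := ⟨kerι_comp p, kerι_injective p, h, exists_ker p⟩

theorem dsum_exact {ι : Type*} {α β γ : ι → Type*} [∀ i, AddCommGroup (α i)]
    [∀ i, AddCommGroup (β i)] [∀ i, AddCommGroup (γ i)] (f : ∀ i, α i →+ β i)
    (g : ∀ i, β i →+ γ i) (h : ∀ i x, g i x = 0 → ∃ y, f i y = x) (x : ⨁ i, β i)
    (hx : DirectSum.map g x = 0) : ∃ y, DirectSum.map f y = x := by
  have : ∀ i, ∃ y, f i y = x i := fun i => h i _ (by rw [← DirectSum.map_apply, hx]; rfl)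
  choose y hy using this
  refine ⟨∑ i ∈ DFinsupp.support x, DirectSum.of α i (y i), ?_⟩
  rw [map_sum]
  simp only [DirectSum.map_of, hy]
  exact DirectSum.sum_support_of x

/-! ### The functor `G` -/

/-- Arrows with a given target. -/
abbrev Arr (b : B) : Type u := Σ a : B, a ⟶ b

/-- The functor induced from the values on objects. -/
def Gobj (M : Fn B) : Fn B where
  obj b := AddCommGrpCat.of (⨁ p : Arr b, M.obj p.1)
  map {b b'} φ := AddCommGrpCat.ofHom (DirectSum.toAddMonoid fun p : Arr b =>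
    DirectSum.of (fun p : Arr b' => M.obj p.1) ⟨p.1, p.2 ≫ φ⟩)
  map_id b := by
    ext1
    refine DirectSum.addHom_ext fun p x => ?_
    simp only [AddCommGrpCat.hom_ofHom, toAddMonoid_of]
    rw [Category.comp_id]
    rfl
  map_comp φ ψ := by
    ext1
    refine DirectSum.addHom_ext fun p x => ?_
    simp only [AddCommGrpCat.hom_ofHom, toAddMonoid_of, AddCommGrpCat.hom_comp,
      AddMonoidHom.comp_apply]
    rw [Category.assoc]

/-- The generators of the induced functor. -/
def gin (M : Fn B) {a b : B} (f : a ⟶ b) : M.obj a →+ (Gobj M).obj b :=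
  DirectSum.of (fun p : Arr b => M.obj p.1) ⟨a, f⟩

theorem gv_ext {M : Fn B} {b : B} {A : Type*} [AddCommGroup A] {φ ψ : (Gobj M).obj b →+ A}
    (h : ∀ a (f : a ⟶ b) x, φ (gin M f x) = ψ (gin M f x)) : φ = ψ :=
  DirectSum.addHom_ext fun p x => h p.1 p.2 x

theorem gv_induction {M : Fn B} {b : B} {P : (Gobj M).obj b → Prop} (h0 : P 0)
    (h1 : ∀ a (f : a ⟶ b) x, P (gin M f x)) (h2 : ∀ x y, P x → P y → P (x + y)) (x) : P x :=
  DirectSum.induction_on x h0 (fun p x => h1 p.1 p.2 x) h2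

/-- Maps out of the induced functor. -/
def gdesc {M : Fn B} {b : B} {A : Type*} [AddCommGroup A] (φ : ∀ a, (a ⟶ b) → (M.obj a →+ A)) :
    (Gobj M).obj b →+ A := DirectSum.toAddMonoid (fun p : Arr b => φ p.1 p.2)

theorem gdesc_gin {M : Fn B} {b : B} {A : Type*} [AddCommGroup A]
    (φ : ∀ a, (a ⟶ b) → (M.obj a →+ A)) {a : B} (f : a ⟶ b) (x : M.obj a) :
    gdesc φ (gin M f x) = φ a f x := DirectSum.toAddMonoid_of _ _ _

theorem Gobj_map_gin (M : Fn B) {a b c : B} (f : a ⟶ b) (φ : b ⟶ c) (x : M.obj a) :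
    ((Gobj M).map φ).hom (gin M f x) = gin M (f ≫ φ) x := DirectSum.toAddMonoid_of _ _ _

theorem G_hom_ext {M N : Fn B} {φ ψ : Gobj M ⟶ N}
    (h : ∀ a b (f : a ⟶ b) x, (φ.app b).hom (gin M f x) = (ψ.app b).hom (gin M f x)) : φ = ψ := by
  ext b : 2
  ext1
  exact gv_ext (h · b)

/-- Natural maps out of the induced functor. -/
def Gdesc {M N : Fn B} (φ : ∀ a, M.obj a →+ N.obj a) : Gobj M ⟶ N :=
  fnMk (fun b => gdesc fun a f => (N.map f).hom.comp (φ a)) (fun b b' f x => by
    induction x using gv_induction with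
    | h0 => simp
    | h1 a g y =>
      rw [Gobj_map_gin, gdesc_gin, gdesc_gin]
      exact fn_map_comp N g f _
    | h2 x y hx hy => simp only [map_add, hx, hy])

theorem Gdesc_gin {M N : Fn B} (φ : ∀ a, M.obj a →+ N.obj a) {a b : B} (f : a ⟶ b)
    (x : M.obj a) : ((Gdesc φ).app b).hom (gin M f x) = (N.map f).hom (φ a x) := gdesc_gin _ _ _

/-- The action of `G` on maps, pointwise. -/
def gmap {M N : Fn B} (φ : M ⟶ N) (b : B) : (Gobj M).obj b →+ (Gobj N).obj b :=
  DirectSum.map fun p : Arr b => (φ.app p.1).hom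

theorem gmap_gin {M N : Fn B} (φ : M ⟶ N) {a b : B} (f : a ⟶ b) (x : M.obj a) :
    gmap φ b (gin M f x) = gin N f ((φ.app a).hom x) := DirectSum.map_of _ _ _

/-- The action of `G` on maps. -/
def Gmap {M N : Fn B} (φ : M ⟶ N) : Gobj M ⟶ Gobj N :=
  fnMk (gmap φ) (fun b b' f x => by
    induction x using gv_induction with
    | h0 => simp
    | h1 a g y => rw [Gobj_map_gin, gmap_gin, gmap_gin, Gobj_map_gin]
    | h2 x y hx hy => simp only [map_add, hx, hy])

theorem Gmap_gin {M N : Fn B} (φ : M ⟶ N) {a b : B} (f : a ⟶ b) (x : M.obj a) :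
    ((Gmap φ).app b).hom (gin M f x) = gin N f ((φ.app a).hom x) := gmap_gin _ _ _

/-- The functor `G`. -/
def Gf (B : Type u) [SmallCategory B] : Fn B ⥤ Fn B where
  obj := Gobj
  map := Gmap
  map_id M := G_hom_ext fun a b f x => Gmap_gin _ _ _
  map_comp φ ψ := G_hom_ext fun a b f x => by
    rw [fn_comp_apply, Gmap_gin, Gmap_gin, Gmap_gin, fn_comp_apply]

instance : (Gf B).Additive where
  map_add {M N φ ψ} := G_hom_ext fun a b f x => by
    change ((Gmap _).app b).hom _ = ((Gmap φ).app b).hom _ + ((Gmap ψ).app b).hom _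
    rw [Gmap_gin, Gmap_gin, Gmap_gin, ← map_add]; rfl

/-- The counit. -/
def Gε (M : Fn B) : Gobj M ⟶ M := Gdesc fun _ => AddMonoidHom.id _

theorem Gε_gin (M : Fn B) {a b : B} (f : a ⟶ b) (x : M.obj a) :
    ((Gε M).app b).hom (gin M f x) = (M.map f).hom x := Gdesc_gin _ _ _

theorem Gε_surj (M : Fn B) (b : B) : Function.Surjective ((Gε M).app b).hom :=
  fun x => ⟨gin M (𝟙 b) x, by rw [Gε_gin, fn_map_id]⟩

@[reassoc]
theorem Gmap_ε {M N : Fn B} (φ : M ⟶ N) : Gmap φ ≫ Gε N = Gε M ≫ φ :=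
  G_hom_ext fun a b f x => by
    rw [fn_comp_apply, fn_comp_apply, Gmap_gin, Gε_gin, Gε_gin, fn_nat]

theorem SES.G {L M N : Fn B} {i : L ⟶ M} {p : M ⟶ N} (h : SES i p) : SES (Gmap i) (Gmap p) where
  zero := by
    have := (Gf B).map_comp i p
    rw [h.zero, Functor.map_zero] at this
    exact this.symm
  inj b := (DirectSum.map_injective _).mpr fun q => h.inj q.1
  surj b := (DirectSum.map_surjective _).mpr fun q => h.surj q.1
  ex b := dsum_exact _ _ fun q => h.ex q.1

/-- The functor `K`, kernel of the counit. -/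
def Kf (B : Type u) [SmallCategory B] : Fn B ⥤ Fn B where
  obj M := kerF (Gε M)
  map {M N} φ := kerLift _ (kerι (Gε M) ≫ Gmap φ) (by
    rw [Category.assoc, Gmap_ε, ← Category.assoc, kerι_comp, zero_comp])
  map_id M := ker_hom_ext _ (by
    rw [kerLift_ι, Category.id_comp]
    exact (congrArg _ ((Gf B).map_id M)).trans (Category.comp_id _))
  map_comp φ ψ := ker_hom_ext _ (by
    rw [kerLift_ι, Category.assoc, kerLift_ι, kerLift_ι_assoc, Category.assoc]
    exact congrArg _ ((Gf B).map_comp φ ψ))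

@[reassoc]
theorem Kf_map_ι {M N : Fn B} (φ : M ⟶ N) :
    (Kf B).map φ ≫ kerι (Gε N) = kerι (Gε M) ≫ Gmap φ := rfl

theorem Kf_map_apply {M N : Fn B} (φ : M ⟶ N) (b : B) (x : ((Kf B).obj M).obj b) :
    ((kerι (Gε N)).app b).hom ((((Kf B).map φ).app b).hom x) =
      ((Gmap φ).app b).hom (((kerι (Gε M)).app b).hom x) := rfl

instance : (Kf B).Additive where
  map_add {M N φ ψ} := ker_hom_ext _ (by
    rw [Preadditive.add_comp, Kf_map_ι, Kf_map_ι, Kf_map_ι, ← Preadditive.comp_add]
    exact congrArg _ ((Gf B).map_add))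

theorem SES.K {L M N : Fn B} {i : L ⟶ M} {p : M ⟶ N} (h : SES i p) :
    SES ((Kf B).map i) ((Kf B).map p) where
  zero := by rw [← Functor.map_comp, h.zero, Functor.map_zero]
  inj b x y hxy := kerι_injective _ b (h.G.inj b (by rw [← Kf_map_apply, hxy, Kf_map_apply]))
  surj b z := by
    obtain ⟨g, hg⟩ := h.G.surj b (((kerι (Gε N)).app b).hom z)
    obtain ⟨m, hm⟩ := h.ex b (((Gε M).app b).hom g) (by
      refine (fn_congr (Gmap_ε p) b g).symm.trans ?_
      change ((Gε N).app b).hom (((Gmap p).app b).hom g) = 0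
      rw [hg, kerι_mem])
    obtain ⟨g', rfl⟩ := Gε_surj L b m
    obtain ⟨k, hk⟩ := exists_ker (Gε M) b (g - ((Gmap i).app b).hom g') (by
      rw [map_sub, ← hm, sub_eq_zero]
      exact (fn_congr (Gmap_ε i) b g').symm)
    refine ⟨k, kerι_injective _ b ?_⟩
    rw [Kf_map_apply, hk, map_sub, hg, sub_eq_self]
    exact fn_congr h.G.zero b g'
  ex b z hz := by
    obtain ⟨g, hg⟩ := h.G.ex b (((kerι (Gε M)).app b).hom z) (by
      rw [← Kf_map_apply, hz, map_zero])
    obtain ⟨k, rfl⟩ := exists_ker (Gε L) b g (h.inj b (by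
      rw [map_zero]
      refine (fn_congr (Gmap_ε i) b g).symm.trans ?_
      change ((Gε M).app b).hom (((Gmap i).app b).hom g) = 0
      rw [hg, kerι_mem]))
    exact ⟨k, kerι_injective _ b hg⟩

/-! ### The sum of all values -/

/-- The sum of all values, as a functor. -/
def cG (B : Type u) [SmallCategory B] : Fn B ⥤ AddCommGrpCat.{u} where
  obj M := AddCommGrpCat.of (⨁ b : B, M.obj b)
  map φ := AddCommGrpCat.ofHom (DirectSum.map fun b => (φ.app b).hom)
  map_id M := by
    ext1
    exact DirectSum.addHom_ext fun a x => DirectSum.map_of _ _ _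
  map_comp φ ψ := by
    ext1
    exact DirectSum.addHom_ext fun a x => by simp

/-- The generators of the sum of all values. -/
def cin (M : Fn B) (a : B) : M.obj a →+ (cG B).obj M := DirectSum.of (fun b : B => M.obj b) a

theorem cv_ext {M : Fn B} {A : Type*} [AddCommGroup A] {φ ψ : (cG B).obj M →+ A}
    (h : ∀ a x, φ (cin M a x) = ψ (cin M a x)) : φ = ψ := DirectSum.addHom_ext h

theorem cv_induction {M : Fn B} {P : (cG B).obj M → Prop} (h0 : P 0)
    (h1 : ∀ a x, P (cin M a x)) (h2 : ∀ x y, P x → P y → P (x + y)) (x) : P x :=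
  DirectSum.induction_on x h0 h1 h2

/-- Maps out of the sum of all values. -/
def cdesc {M : Fn B} {A : Type*} [AddCommGroup A] (φ : ∀ a, M.obj a →+ A) : (cG B).obj M →+ A :=
  DirectSum.toAddMonoid φ

theorem cdesc_cin {M : Fn B} {A : Type*} [AddCommGroup A] (φ : ∀ a, M.obj a →+ A)
    (a : B) (x : M.obj a) : cdesc φ (cin M a x) = φ a x := DirectSum.toAddMonoid_of _ _ _

theorem cG_map_cin {M N : Fn B} (φ : M ⟶ N) (a : B) (x : M.obj a) :
    ((cG B).map φ).hom (cin M a x) = cin N a ((φ.app a).hom x) := DirectSum.map_of _ _ _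

instance : (cG B).Additive where
  map_add {M N φ ψ} := by
    ext1
    refine cv_ext fun a x => ?_
    change ((cG B).map _).hom _ = ((cG B).map φ).hom _ + ((cG B).map ψ).hom _
    rw [cG_map_cin, cG_map_cin, cG_map_cin, ← map_add]; rfl

theorem SES.cG {L M N : Fn B} {i : L ⟶ M} {p : M ⟶ N} (h : SES i p) :
    (ShortComplex.mk ((cG B).map i) ((cG B).map p)
      (by rw [← Functor.map_comp, h.zero, Functor.map_zero])).ShortExact where
  exact := (ShortComplex.ab_exact_iff _).mpr (dsum_exact _ _ h.ex)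
  mono_f := (AddCommGrpCat.mono_iff_injective _).mpr ((DirectSum.map_injective _).mpr h.inj)
  epi_g := (AddCommGrpCat.epi_iff_surjective _).mpr ((DirectSum.map_surjective _).mpr h.surj)

/-- Forgetting the arrow. -/
def gα (M : Fn B) (b : B) : (Gobj M).obj b →+ (cG B).obj M := gdesc fun a _ => cin M a

theorem gα_gin (M : Fn B) {a b : B} (f : a ⟶ b) (x : M.obj a) : gα M b (gin M f x) = cin M a x :=
  gdesc_gin _ _ _

theorem gα_map' (M : Fn B) {b b' : B} (f : b ⟶ b') (x : (Gobj M).obj b) :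
    gα M b' (((Gobj M).map f).hom x) = gα M b x := by
  induction x using gv_induction with
  | h0 => simp
  | h1 a g y => rw [Gobj_map_gin, gα_gin, gα_gin]
  | h2 x y hx hy => simp only [map_add, hx, hy]

/-- A cocone from an invariant family of maps. -/
def mkCocone (M : Fn B) (A : AddCommGrpCat.{u}) (φ : ∀ b, M.obj b →+ A)
    (nat : ∀ b b' (f : b ⟶ b') x, φ b' ((M.map f).hom x) = φ b x) : Cocone M where
  pt := A
  ι :=
    { app := fun b => AddCommGrpCat.ofHom (φ b)
      naturality := fun b b' f => ab_ext (nat b b' f) }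

/-- The sum of all values is a cocone on the induced functor. -/
def gCocone (M : Fn B) : Cocone (Gobj M) := mkCocone _ _ (gα M) fun _ _ => gα_map' M

theorem cocone_w {M : Fn B} (s : Cocone M) {a b : B} (f : a ⟶ b) (x : M.obj a) :
    (s.ι.app b).hom ((M.map f).hom x) = (s.ι.app a).hom x := ab_congr (s.w f) x

/-- The sum of all values is the colimit of the induced functor. -/
def isColimit_gCocone (M : Fn B) : IsColimit (gCocone M) where
  desc s := AddCommGrpCat.ofHom (cdesc fun a => (s.ι.app a).hom.comp (gin M (𝟙 a)))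
  fac s b := by
    ext1
    refine gv_ext fun a g x => ?_
    refine (congrArg (cdesc (A := s.pt) fun a => (s.ι.app a).hom.comp (gin M (𝟙 a)))
      (gα_gin M g x)).trans
      ((cdesc_cin _ _ _).trans ?_)
    refine (cocone_w s g _).symm.trans ?_
    rw [Gobj_map_gin, Category.id_comp]
    rfl
  uniq s m hm := by
    ext1
    refine cv_ext fun a x => ?_
    refine Eq.trans ?_ (cdesc_cin _ _ _).symm
    refine Eq.trans ?_ (ab_congr (hm a) _)
    exact congrArg m.hom (gα_gin M (𝟙 a) x).symm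

theorem gα_map {M N : Fn B} (φ : M ⟶ N) (b : B) (x : (Gobj M).obj b) :
    ((cG B).map φ).hom (gα M b x) = gα N b (((Gmap φ).app b).hom x) := by
  induction x using gv_induction with
  | h0 => simp
  | h1 a g y => rw [gα_gin, cG_map_cin, Gmap_gin, gα_gin]
  | h2 x y hx hy => simp only [map_add, hx, hy]

/-- The differential on objects. -/
def dK' (M : Fn B) : (cG B).obj ((Kf B).obj M) ⟶ (cG B).obj M :=
  AddCommGrpCat.ofHom (cdesc fun a => (gα M a).comp ((kerι (Gε M)).app a).hom)

theorem dK_cin (M : Fn B) (a : B) (x : ((Kf B).obj M).obj a) :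
    (dK' M).hom (cin _ a x) = gα M a (((kerι (Gε M)).app a).hom x) := cdesc_cin _ _ _

/-- The differential. -/
def dK (B : Type u) [SmallCategory B] : Kf B ⋙ cG B ⟶ cG B where
  app := dK'
  naturality M N φ := by
    ext1
    refine cv_ext fun a x => ?_
    change (dK' N).hom (((cG B).map ((Kf B).map φ)).hom (cin _ a x)) =
      ((cG B).map φ).hom ((dK' M).hom (cin _ a x))
    rw [cG_map_cin, dK_cin, dK_cin, Kf_map_apply, gα_map]

theorem dK_gα (M : Fn B) (b : B) (x : (Gobj ((Kf B).obj M)).obj b) :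
    (dK' M).hom (gα _ b x) =
      gα M b (((kerι (Gε M)).app b).hom (((Gε ((Kf B).obj M)).app b).hom x)) := by
  induction x using gv_induction with
  | h0 => simp
  | h1 a g y =>
    rw [gα_gin, dK_cin, Gε_gin]
    refine Eq.trans ?_ (congrArg (gα M b) (fn_nat (kerι (Gε M)) g y)).symm
    exact (gα_map' M g _).symm
  | h2 x y hx hy => simp only [map_add, hx, hy]

theorem dK_dK (M : Fn B) : dK' ((Kf B).obj M) ≫ dK' M = 0 := by
  ext1
  refine cv_ext fun a x => ?_
  change (dK' M).hom ((dK' _).hom (cin _ a x)) = 0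
  rw [dK_cin, dK_gα, kerι_mem, map_zero, map_zero]

/-- Iterates of `K`. -/
def Kpow (B : Type u) [SmallCategory B] : ℕ → Fn B ⥤ Fn B
  | 0 => 𝟭 _
  | n + 1 => Kpow B n ⋙ Kf B

instance instAdditiveKpow : ∀ n, (Kpow B n).Additive
  | 0 => inferInstanceAs (𝟭 (Fn B)).Additive
  | n + 1 => have := instAdditiveKpow n; inferInstanceAs (Kpow B n ⋙ Kf B).Additive

theorem SES.Kpow {L M N : Fn B} {i : L ⟶ M} {p : M ⟶ N} (h : SES i p) (n : ℕ) :
    SES ((Kpow B n).map i) ((Kpow B n).map p) := by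
  induction n with
  | zero => exact h
  | succ n ih => exact ih.K

/-- The complex of functors. -/
def torCx' (B : Type u) [SmallCategory B] : ChainComplex (Fn B ⥤ AddCommGrpCat.{u}) ℕ :=
  ChainComplex.of (fun n => Kpow B n ⋙ cG B) (fun n => Functor.whiskerLeft (Kpow B n) (dK B))
    (fun n => by ext M : 2; exact dK_dK _)

/-- The complex computing the homology of `B` with coefficients. -/
def torCx (B : Type u) [SmallCategory B] :
    (B ⥤ AddCommGrpCat.{u}) ⥤ ChainComplex AddCommGrpCat.{u} ℕ := (torCx' B).asFunctor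

theorem torCx_d (M : Fn B) (n : ℕ) :
    ((torCx B).obj M).d (n + 1) n = dK' ((Kpow B n).obj M) :=
  congrArg (fun φ => NatTrans.app φ M) (ChainComplex.of_d (fun n => Kpow B n ⋙ cG B)
    (fun n => Functor.whiskerLeft (Kpow B n) (dK B)) n)

theorem torCx_f {M N : Fn B} (φ : M ⟶ N) (n : ℕ) :
    ((torCx B).map φ).f n = (cG B).map ((Kpow B n).map φ) := rfl

instance : (torCx B).Additive where
  map_add := by
    intro M N φ ψ
    ext n : 1
    exact (Kpow B n ⋙ cG B).map_add

theorem SES.torCx {L M N : Fn B} {i : L ⟶ M} {p : M ⟶ N} (h : SES i p) :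
    (ShortComplex.mk ((torCx B).map i) ((torCx B).map p)
      (by rw [← Functor.map_comp, h.zero, Functor.map_zero])).ShortExact :=
  HomologicalComplex.shortExact_of_degreewise_shortExact _ fun n => (h.Kpow n).cG

end Crest.Agent.R248
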